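import Mathlib

/-!
The deck group of a covering of a compact space by a connected locally compact space is finitely
generated.
-/

namespace Vale.Agent.P239

open scoped Pointwise Topology
open Set

variable {M X Γ : Type*} [TopologicalSpace M] [TopologicalSpace X] [Group Γ] [MulAction Γ X]

theorem locallyCompact_of_cover [LocallyCompactSpace M] {p : X → M}
    (hp : IsQuotientCoveringMap p Γ) : LocallyCompactSpace X := by
  have hloc := hp.isCoveringMap.isLocalHomeomorph
  choose e he hpe using hloc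
  have : ∀ x : X, (𝓝 x).HasBasis
      (fun s ↦ s ∈ 𝓝 (e x x) ∧ IsCompact s ∧ s ⊆ (e x).target)
      fun s ↦ (e x).symm '' s := fun x ↦ by
    rw [← (e x).symm_map_nhds_eq (he x)]
    exact ((compact_basis_nhds (e x x)).hasBasis_self_subset
      ((e x).open_target.mem_nhds ((e x).map_source (he x)))).map _
  refine .of_hasBasis this ?_
  rintro x s ⟨_, h₂, h₃⟩
  exact h₂.image_of_continuousOn ((e x).continuousOn_symm.mono h₃)

/-- The action of the deck group is proper. -/
theorem finite_meet [T2Space M] {p : X → M} (hp : IsQuotientCoveringMap p Γ) {C D : Set X}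
    (hC : IsCompact C) (hD : IsCompact D) : {g : Γ | (g • C ∩ D).Nonempty}.Finite := by
  have hcs : ContinuousConstSMul Γ X := hp.toContinuousConstSMul
  -- local statement
  have hlocal : ∀ x y : X, ∃ U ∈ 𝓝 x, ∃ V ∈ 𝓝 y, {g : Γ | (g • U ∩ V).Nonempty}.Finite := by
    intro x y
    by_cases hxy : p x = p y
    · obtain ⟨h, hh⟩ := hp.apply_eq_iff_mem_orbit.1 hxy.symm
      have hh' : h • x = y := hh
      obtain ⟨U, hU, hU'⟩ := hp.disjoint x
      refine ⟨U, hU, h • U, ?_, ?_⟩
      · rw [← hh']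
        exact smul_mem_nhds_smul h hU
      · refine (Set.finite_singleton h).subset ?_
        rintro g ⟨z, ⟨u, hu, rfl⟩, ⟨v, hv, hvu⟩⟩
        have h1 : (h⁻¹ * g) = 1 := by
          apply hU'
          refine ⟨v, ⟨u, hu, ?_⟩, hv⟩
          change (h⁻¹ * g) • u = v
          have hvu' : h • v = g • u := hvu
          rw [mul_smul, ← hvu', inv_smul_smul]
        exact (inv_mul_eq_one.1 h1).symm
    · obtain ⟨A, B, hA, hB, hxA, hyB, hAB⟩ := t2_separation hxy
      refine ⟨p ⁻¹' A, (hA.preimage hp.continuous).mem_nhds hxA, p ⁻¹' B,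
        (hB.preimage hp.continuous).mem_nhds hyB, ?_⟩
      have : {g : Γ | (g • (p ⁻¹' A) ∩ p ⁻¹' B).Nonempty} = ∅ := by
        ext g
        simp only [mem_ofPred_eq, mem_empty_iff_false, iff_false]
        rintro ⟨z, ⟨u, hu, rfl⟩, hz⟩
        have h1 : p (g • u) ∈ B := hz
        rw [hp.map_smul] at h1
        exact Set.disjoint_left.1 hAB hu h1
      rw [this]
      exact Set.finite_empty
  -- for a fixed point and the compact set `D`
  have hpoint : ∀ x : X, ∃ U ∈ 𝓝 x, {g : Γ | (g • U ∩ D).Nonempty}.Finite := by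
    intro x
    choose U hU V hV hfin using hlocal x
    obtain ⟨t, -, ht⟩ := hD.elim_nhds_subcover V (fun y _ => hV y)
    refine ⟨⋂ y ∈ t, U y, (Filter.biInter_finset_mem t).2 fun y _ => hU y, ?_⟩
    refine (Set.Finite.biUnion t.finite_toSet fun y _ => hfin y).subset ?_
    rintro g ⟨z, ⟨u, hu, rfl⟩, hz⟩
    obtain ⟨y, hy, hzy⟩ := mem_iUnion₂.1 (ht hz)
    refine mem_iUnion₂.2 ⟨y, hy, _, ⟨u, ?_, rfl⟩, hzy⟩
    exact mem_iInter₂.1 hu y hy
  choose U hU hfin using hpoint
  obtain ⟨t, -, ht⟩ := hC.elim_nhds_subcover U (fun x _ => hU x)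
  refine (Set.Finite.biUnion t.finite_toSet fun x _ => hfin x).subset ?_
  rintro g ⟨z, ⟨u, hu, rfl⟩, hz⟩
  obtain ⟨x, hx, hux⟩ := mem_iUnion₂.1 (ht hu)
  exact mem_iUnion₂.2 ⟨x, hx, _, ⟨u, hux, rfl⟩, hz⟩

/-- The deck group is finitely generated. -/
theorem fg_of_cover [CompactSpace M] [T2Space M] [LocallyCompactSpace X] [ConnectedSpace X]
    {p : X → M} (hp : IsQuotientCoveringMap p Γ) : Group.FG Γ := by
  classical
  have hcs : ContinuousConstSMul Γ X := hp.toContinuousConstSMul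
  have hopen : IsOpenMap p := hp.isCoveringMap.isOpenMap
  -- an open relatively compact set whose translates cover
  have h1 : ∀ x : X, ∃ K : Set X, IsCompact K ∧ K ∈ 𝓝 x := fun x => exists_compact_mem_nhds x
  choose K hK hKx using h1
  have hcov : (univ : Set M) ⊆ ⋃ x : X, p '' (interior (K x)) := by
    intro m _
    obtain ⟨x, rfl⟩ := hp.surjective m
    exact mem_iUnion.mpr ⟨x, x, mem_interior_iff_mem_nhds.mpr (hKx x), rfl⟩
  obtain ⟨t, ht⟩ := isCompact_univ.elim_finite_subcover _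
    (fun x => hopen _ isOpen_interior) hcov
  let U : Set X := ⋃ x ∈ t, interior (K x)
  let C : Set X := ⋃ x ∈ t, K x
  have hC : IsCompact C := t.isCompact_biUnion fun x _ => hK x
  have hU : IsOpen U := isOpen_biUnion fun x _ => isOpen_interior
  have hUC : U ⊆ C := by
    intro y hy
    obtain ⟨x, hx, hy'⟩ := mem_iUnion₂.1 hy
    exact mem_iUnion₂.2 ⟨x, hx, interior_subset hy'⟩
  have hUcov : ∀ x : X, ∃ g : Γ, x ∈ g • U := by
    intro x
    obtain ⟨y, hy, z, hz, hzx⟩ := mem_iUnion₂.mp (ht (mem_univ (p x)))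
    obtain ⟨g, hg⟩ := hp.apply_eq_iff_mem_orbit.mp hzx.symm
    exact ⟨g, z, mem_iUnion₂.mpr ⟨y, hy, hz⟩, hg⟩
  let S : Set Γ := {g | (g • C ∩ C).Nonempty}
  have hS : S.Finite := finite_meet hp hC hC
  obtain ⟨x₀⟩ : Nonempty X := inferInstance
  let H : Subgroup Γ := Subgroup.closure S
  let A : Set X := ⋃ g ∈ {g : Γ | g ∈ H}, g • U
  let B : Set X := ⋃ g ∈ {g : Γ | g ∉ H}, g • U
  have hA : IsOpen A := isOpen_biUnion fun g _ => hU.smul g
  have hB : IsOpen B := isOpen_biUnion fun g _ => hU.smul g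
  have hAB : A ∪ B = univ := by
    refine eq_univ_of_forall fun x => ?_
    obtain ⟨g, hg⟩ := hUcov x
    by_cases hgH : g ∈ H
    · exact Or.inl (mem_iUnion₂.2 ⟨g, hgH, hg⟩)
    · exact Or.inr (mem_iUnion₂.2 ⟨g, hgH, hg⟩)
  have hdisj : ∀ x, x ∈ A → x ∈ B → False := by
    intro x hxA hxB
    obtain ⟨g, hg, hxg⟩ := mem_iUnion₂.1 hxA
    obtain ⟨g', hg', hxg'⟩ := mem_iUnion₂.1 hxB
    obtain ⟨u, hu, hux⟩ := hxg
    obtain ⟨u', hu', hux'⟩ := hxg'
    have hux1 : g • u = x := hux
    have hux2 : g' • u' = x := hux'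
    apply hg'
    have h2 : g⁻¹ * g' ∈ S := by
      refine ⟨u, ⟨u', hUC hu', ?_⟩, hUC hu⟩
      change (g⁻¹ * g') • u' = u
      rw [mul_smul, hux2, ← hux1, inv_smul_smul]
    have h3 : g * (g⁻¹ * g') ∈ H := H.mul_mem hg (Subgroup.subset_closure h2)
    rwa [mul_inv_cancel_left] at h3
  have hUne : U.Nonempty := by
    obtain ⟨g, z, hz, _⟩ := hUcov x₀
    exact ⟨z, hz⟩
  have hAuniv : A = univ := by
    have hcl : IsClopen A := by
      refine ⟨⟨?_⟩, hA⟩
      have : Aᶜ = B := by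
        ext x
        constructor
        · intro hx
          have := mem_univ x
          rw [← hAB] at this
          exact this.resolve_left hx
        · intro hx hx'
          exact hdisj x hx' hx
      rw [this]
      exact hB
    refine hcl.eq_univ ?_
    obtain ⟨u, hu⟩ := hUne
    exact ⟨u, mem_iUnion₂.2 ⟨1, H.one_mem, by rwa [one_smul]⟩⟩
  have htop : H = ⊤ := by
    rw [eq_top_iff]
    intro g _
    by_contra hg
    obtain ⟨u, hu⟩ := hUne
    have h1 : g • u ∈ B := mem_iUnion₂.2 ⟨g, hg, u, hu, rfl⟩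
    have h2 : g • u ∈ A := by rw [hAuniv]; exact mem_univ _
    exact hdisj _ h2 h1
  rw [Group.fg_def]
  exact ⟨hS.toFinset, by rw [hS.coe_toFinset]; exact htop⟩

end Vale.Agent.P239
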