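import Vale.Agent.P239.AHFour
import Vale.Agent.P239.FGroup

/-!
The crossing property from simple connectivity.
-/

namespace Vale.Agent.P239

open scoped Pointwise Topology unitInterval
open Set Filter

section Comb

variable {G : Type*} (α β : G → ℤ)

/-- the cochain -/
def om2 (g h : G) : ℤ := α g * (β h - β g)

theorem om2_self (g : G) : om2 α β g g = 0 := by simp [om2]

theorem om2_add {U : Set G} (hU : (∀ g ∈ U, ∀ h ∈ U, α g = α h) ∨ (∀ g ∈ U, ∀ h ∈ U, β g = β h))
    {a b c : G} (ha : a ∈ U) (hb : b ∈ U) (hc : c ∈ U) :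
    om2 α β a b + om2 α β b c = om2 α β a c := by
  unfold om2
  rcases hU with h | h
  · rw [h b hb a ha]; ring
  · rw [h b hb a ha, h c hc a ha]; ring

/-- Grid argument. -/
theorem grid (lab : ℕ → ℕ → G) (N : ℕ)
    (hsq : ∀ a b, a < N → b < N → ∃ U : Set G,
      ((∀ g ∈ U, ∀ h ∈ U, α g = α h) ∨ (∀ g ∈ U, ∀ h ∈ U, β g = β h)) ∧
      lab a b ∈ U ∧ lab (a + 1) b ∈ U ∧ lab a (b + 1) ∈ U ∧ lab (a + 1) (b + 1) ∈ U) :
    (∑ a ∈ Finset.range N, om2 α β (lab a 0) (lab (a + 1) 0)) -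
      (∑ a ∈ Finset.range N, om2 α β (lab a N) (lab (a + 1) N)) =
    (∑ b ∈ Finset.range N, om2 α β (lab 0 b) (lab 0 (b + 1))) -
      (∑ b ∈ Finset.range N, om2 α β (lab N b) (lab N (b + 1))) := by
  have h1 : ∀ a b, a < N → b < N →
      om2 α β (lab a b) (lab (a + 1) b) - om2 α β (lab a (b + 1)) (lab (a + 1) (b + 1)) =
      om2 α β (lab a b) (lab a (b + 1)) - om2 α β (lab (a + 1) b) (lab (a + 1) (b + 1)) := by
    intro a b ha hb
    obtain ⟨U, hU, h00, h10, h01, h11⟩ := hsq a b ha hb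
    have e1 := om2_add α β hU h00 h10 h11
    have e2 := om2_add α β hU h00 h01 h11
    linarith
  have h2 : ∀ b, b < N → (∑ a ∈ Finset.range N, om2 α β (lab a b) (lab (a + 1) b)) -
      (∑ a ∈ Finset.range N, om2 α β (lab a (b + 1)) (lab (a + 1) (b + 1))) =
      om2 α β (lab 0 b) (lab 0 (b + 1)) - om2 α β (lab N b) (lab N (b + 1)) := by
    intro b hb
    rw [← Finset.sum_sub_distrib]
    rw [Finset.sum_congr rfl fun a ha => h1 a b (Finset.mem_range.1 ha) hb]
    exact Finset.sum_range_sub' (fun a => om2 α β (lab a b) (lab a (b + 1))) N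
  have h3 := Finset.sum_congr (rfl : Finset.range N = Finset.range N)
    fun b hb => h2 b (Finset.mem_range.1 hb)
  rw [Finset.sum_range_sub' (fun b => ∑ a ∈ Finset.range N, om2 α β (lab a b) (lab (a + 1) b)) N,
    Finset.sum_sub_distrib] at h3
  exact h3

end Comb

section Cross

variable {X Γ : Type*} [TopologicalSpace X] [Group Γ] [MulAction Γ X] [ContinuousConstSMul Γ X]

/-- grid points -/
noncomputable def gpt (N a : ℕ) : I := Set.projIcc 0 1 zero_le_one ((a : ℝ) / N)

theorem gpt_zero (N : ℕ) : gpt N 0 = 0 := by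
  unfold gpt
  rw [Nat.cast_zero, zero_div]
  exact Set.projIcc_left _

theorem gpt_self {N : ℕ} (hN : 0 < N) : gpt N N = 1 := by
  unfold gpt
  rw [div_self (by positivity)]
  exact Set.projIcc_right _

theorem dist_gpt (N a : ℕ) : dist (gpt N (a + 1)) (gpt N a) ≤ 1 / N := by
  unfold gpt
  have h := (LipschitzWith.projIcc (zero_le_one (α := ℝ))).dist_le_mul
    (((a + 1 : ℕ) : ℝ) / N) ((a : ℝ) / N)
  refine h.trans ?_
  rw [NNReal.coe_one, one_mul, Real.dist_eq]
  have : ((a + 1 : ℕ) : ℝ) / N - (a : ℝ) / N = 1 / N := by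
    push_cast; ring
  rw [this, abs_of_nonneg (by positivity)]

/-- Labels of the vertical sides. -/
noncomputable def vlab (H : I × X → X) (l : X → Γ) (o : X) (N : ℕ) (p : Γ) (b : ℕ) : Γ :=
  if b = 0 then p else l (H (gpt N b, p • o))

theorem edge_lemma {H : I × X → X} (hH : Continuous H) (hH0 : ∀ x, H (0, x) = x) {y₀ : X}
    (hH1 : ∀ x, H (1, x) = y₀) {K U : Set X} (hU : IsOpen U) (hcov : ∀ x : X, ∃ g : Γ, x ∈ g • U)
    {F : Set Γ} (hF : ∀ g : Γ, (g • K ∩ U).Nonempty → g ∈ F)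
    {l : X → Γ} (hl : ∀ x, x ∈ l x • K) {o : X} (ho : o ∈ K)
    {s : Γ} {γ : Path o (s • o)} (hγ : ∀ t, γ t ∈ K) (α β : Γ → ℤ)
    (hαβ : ∀ u : Γ, (∀ g ∈ F, ∀ h ∈ F, α (u * g) = α (u * h)) ∨
      (∀ g ∈ F, ∀ h ∈ F, β (u * g) = β (u * h))) (p : Γ) :
    ∀ᶠ N : ℕ in atTop, om2 α β p (p * s) =
      (∑ b ∈ Finset.range N, om2 α β (vlab H l o N p b) (vlab H l o N p (b + 1))) -
      (∑ b ∈ Finset.range N, om2 α β (vlab H l o N (p * s) b) (vlab H l o N (p * s) (b + 1))) := by
  classical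
  let Q : I × I → X := fun q => H (q.2, p • γ q.1)
  have hQ : Continuous Q := by
    refine hH.comp (continuous_snd.prodMk ?_)
    exact (γ.continuous.comp continuous_fst).const_smul p
  obtain ⟨δ, hδ, hball⟩ := lebesgue_number_lemma_of_metric (isCompact_univ (X := I × I))
    (c := fun g : Γ => Q ⁻¹' (g • U)) (fun g => (hU.smul g).preimage hQ) (by
      intro q _
      obtain ⟨g, hg⟩ := hcov (Q q)
      exact mem_iUnion.2 ⟨g, hg⟩)
  have hev : ∀ᶠ N : ℕ in atTop, (1 : ℝ) / N < δ :=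
    (tendsto_order.1 tendsto_one_div_atTop_nhds_zero_nat).2 δ hδ
  filter_upwards [hev, eventually_gt_atTop 0] with N hN hN0
  let lab : ℕ → ℕ → Γ := fun a b =>
    if b = 0 then (if a < N then p else p * s) else l (Q (gpt N a, gpt N b))
  have hgN : ∀ a, N ≤ a → gpt N a = 1 := by
    intro a ha
    unfold gpt
    refine Set.projIcc_of_right_le _ ?_
    rw [le_div_iff₀ (by positivity), one_mul]
    exact_mod_cast ha
  have hlab : ∀ a b, Q (gpt N a, gpt N b) ∈ lab a b • K := by
    intro a b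
    by_cases hb : b = 0
    · subst hb
      have e1 : Q (gpt N a, gpt N 0) = p • γ (gpt N a) := by
        simp only [Q]
        rw [gpt_zero, hH0]
      by_cases ha : a < N
      · simp only [lab, if_true, if_pos ha]
        rw [e1]
        exact smul_mem_smul_set (hγ _)
      · simp only [lab, if_true, if_neg ha]
        rw [e1, hgN a (not_lt.1 ha), γ.target, ← mul_smul]
        exact smul_mem_smul_set ho
    · simp only [lab, if_neg hb]
      exact hl _
  have hkey := grid α β lab N (by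
    intro a b ha hb
    obtain ⟨g, hg⟩ := hball (gpt N a, gpt N b) (mem_univ _)
    refine ⟨{h | g⁻¹ * h ∈ F}, ?_, ?_⟩
    · rcases hαβ g with h | h
      · left
        intro x hx y hy
        have := h _ hx _ hy
        rwa [mul_inv_cancel_left, mul_inv_cancel_left] at this
      · right
        intro x hx y hy
        have := h _ hx _ hy
        rwa [mul_inv_cancel_left, mul_inv_cancel_left] at this
    · have hmem : ∀ c d, (gpt N c, gpt N d) ∈ Metric.ball (gpt N a, gpt N b) δ →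
          lab c d ∈ {h | g⁻¹ * h ∈ F} := by
        intro c d hcd
        refine hF _ ?_
        have h1 : Q (gpt N c, gpt N d) ∈ g • U := hg hcd
        have h2 := hlab c d
        refine ⟨g⁻¹ • Q (gpt N c, gpt N d), ?_, ?_⟩
        · rw [mul_smul]
          exact smul_mem_smul_set h2
        · rw [mem_smul_set_iff_inv_smul_mem] at h1
          exact h1
      have hd : ∀ c, dist (gpt N (c + 1)) (gpt N c) < δ := fun c => (dist_gpt N c).trans_lt hN
      refine ⟨hmem _ _ (Metric.mem_ball_self hδ), hmem _ _ ?_, hmem _ _ ?_, hmem _ _ ?_⟩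
      · rw [Metric.mem_ball, Prod.dist_eq]
        exact max_lt (hd a) (by rw [dist_self]; exact hδ)
      · rw [Metric.mem_ball, Prod.dist_eq]
        exact max_lt (by rw [dist_self]; exact hδ) (hd b)
      · rw [Metric.mem_ball, Prod.dist_eq]
        exact max_lt (hd a) (hd b))
  -- identify the four sides
  have hbot : (∑ a ∈ Finset.range N, om2 α β (lab a 0) (lab (a + 1) 0)) = om2 α β p (p * s) := by
    obtain ⟨n, rfl⟩ := Nat.exists_eq_succ_of_ne_zero hN0.ne'
    rw [Finset.sum_range_succ, Finset.sum_eq_zero, zero_add]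
    · simp only [lab, if_true]
      rw [if_pos (Nat.lt_succ_self n), if_neg (lt_irrefl _)]
    · intro a ha
      rw [Finset.mem_range] at ha
      simp only [lab, if_true]
      rw [if_pos (by omega), if_pos (by omega), om2_self]
  have htop : (∑ a ∈ Finset.range N, om2 α β (lab a N) (lab (a + 1) N)) = 0 := by
    refine Finset.sum_eq_zero fun a _ => ?_
    have : ∀ c, lab c N = l y₀ := by
      intro c
      simp only [lab, if_neg hN0.ne', Q]
      rw [gpt_self hN0, hH1]
    rw [this, this, om2_self]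
  have hleft : ∀ b, lab 0 b = vlab H l o N p b := by
    intro b
    by_cases hb : b = 0
    · simp only [lab, vlab, if_pos hb, if_pos hN0]
    · simp only [lab, vlab, if_neg hb, Q]
      rw [gpt_zero, γ.source]
  have hright : ∀ b, lab N b = vlab H l o N (p * s) b := by
    intro b
    by_cases hb : b = 0
    · simp only [lab, vlab, if_pos hb, if_neg (lt_irrefl N)]
    · simp only [lab, vlab, if_neg hb, Q]
      rw [gpt_self hN0, γ.target, ← mul_smul]
  rw [hbot, htop, sub_zero] at hkey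
  rw [hkey]
  congr 1
  · exact Finset.sum_congr rfl fun b _ => by rw [hleft, hleft]
  · exact Finset.sum_congr rfl fun b _ => by rw [hright, hright]

theorem con_sum {S : Finset Γ} {θ : ℕ → Γ → ℤ} {α β : Γ → ℤ}
    (hθ : ∀ s ∈ S, ∀ p : Γ, ∀ᶠ N : ℕ in atTop, om2 α β p (p * s) = θ N p - θ N (p * s))
    {T : Set Γ} {c : Γ → ℤ} (hc : ∀ p ∈ T, ∀ q ∈ T, om2 α β p q = c q - c p) {x y : Γ}
    (h : Con S T x y) : ∀ᶠ N : ℕ in atTop, θ N x - θ N y = c y - c x := by
  induction h with
  | refl => exact Eventually.of_forall fun N => by ring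
  | tail _ hbc ih =>
    rename_i b c' _
    obtain ⟨hb, hc', s, hs, h | h⟩ := hbc
    · filter_upwards [ih, hθ s hs b] with N h1 h2
      rw [← h, hc b hb c' hc'] at h2
      linarith
    · filter_upwards [ih, hθ s hs c'] with N h1 h2
      rw [← h, hc c' hc' b hb] at h2
      linarith

variable {M : Type*} [TopologicalSpace M]

theorem exists_crossProp [CompactSpace M] [T2Space M] [LocallyCompactSpace X] [ContractibleSpace X]
    {p : X → M} (hp : IsQuotientCoveringMap p Γ) :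
    ∃ S F : Finset Γ, Subgroup.closure (S : Set Γ) = ⊤ ∧ (∀ s ∈ S, s⁻¹ ∈ S) ∧ CrossProp S F := by
  classical
  have hopen : IsOpenMap p := hp.isCoveringMap.isOpenMap
  obtain ⟨S₀, hS₀⟩ := (Group.fg_def.1 (fg_of_cover hp) : (⊤ : Subgroup Γ).FG)
  let S : Finset Γ := S₀ ∪ S₀.image (fun g => g⁻¹)
  have hS : Subgroup.closure (S : Set Γ) = ⊤ := by
    rw [eq_top_iff, ← hS₀]
    exact Subgroup.closure_mono (by simp [S])
  have hsym : ∀ s ∈ S, s⁻¹ ∈ S := by
    intro s hs
    simp only [S, Finset.mem_union, Finset.mem_image] at hs ⊢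
    rcases hs with hs | ⟨t, ht, rfl⟩
    · exact Or.inr ⟨s, hs, rfl⟩
    · left; rwa [inv_inv]
  -- an open relatively compact set whose translates cover
  have h1 : ∀ x : X, ∃ K : Set X, IsCompact K ∧ K ∈ 𝓝 x := fun x => exists_compact_mem_nhds x
  choose K hK hKx using h1
  have hcov : (univ : Set M) ⊆ ⋃ x : X, p '' (interior (K x)) := by
    intro m _
    obtain ⟨x, rfl⟩ := hp.surjective m
    exact mem_iUnion.mpr ⟨x, x, mem_interior_iff_mem_nhds.mpr (hKx x), rfl⟩
  obtain ⟨t, ht⟩ := isCompact_univ.elim_finite_subcover _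
    (fun x => hopen _ isOpen_interior) hcov
  let U : Set X := ⋃ x ∈ t, interior (K x)
  let C : Set X := ⋃ x ∈ t, K x
  have hC : IsCompact C := t.isCompact_biUnion fun x _ => hK x
  have hU : IsOpen U := isOpen_biUnion fun x _ => isOpen_interior
  have hUC : U ⊆ C := by
    intro y hy
    obtain ⟨x, hx, hy'⟩ := mem_iUnion₂.1 hy
    exact mem_iUnion₂.2 ⟨x, hx, interior_subset hy'⟩
  have hUcov : ∀ x : X, ∃ g : Γ, x ∈ g • U := by
    intro x
    obtain ⟨y, hy, z, hz, hzx⟩ := mem_iUnion₂.mp (ht (mem_univ (p x)))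
    obtain ⟨g, hg⟩ := hp.apply_eq_iff_mem_orbit.mp hzx.symm
    exact ⟨g, z, mem_iUnion₂.mpr ⟨y, hy, hz⟩, hg⟩
  obtain ⟨o⟩ : Nonempty X := inferInstance
  let γ : ∀ s : Γ, Path o (s • o) := fun s => PathConnectedSpace.somePath o (s • o)
  let K' : Set X := C ∪ ({o} ∪ ⋃ s ∈ S, range (γ s))
  have hK' : IsCompact K' := hC.union (isCompact_singleton.union
    (S.isCompact_biUnion fun s _ => isCompact_range (γ s).continuous))
  have hfin : {g : Γ | (g • K' ∩ C).Nonempty}.Finite := finite_meet hp hK' hC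
  have hl : ∀ x : X, ∃ g : Γ, x ∈ g • K' := by
    intro x
    obtain ⟨g, hg⟩ := hUcov x
    exact ⟨g, smul_set_mono (hUC.trans subset_union_left) hg⟩
  choose l hl using hl
  obtain ⟨y₀, ⟨Hm⟩⟩ := id_nullhomotopic X
  refine ⟨S, hfin.toFinset, hS, hsym, ?_⟩
  intro A B x y z w hxA hxB hyA hyB hzA hzB hwA hwB cA cB cA' cB'
  by_contra hno
  push Not at hno
  let α : Γ → ℤ := fun g => if g ∈ A then 1 else 0
  let β : Γ → ℤ := fun g => if g ∈ B then 1 else 0
  have hαβ : ∀ u : Γ, (∀ g ∈ hfin.toFinset, ∀ h ∈ hfin.toFinset, α (u * g) = α (u * h)) ∨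
      (∀ g ∈ hfin.toFinset, ∀ h ∈ hfin.toFinset, β (u * g) = β (u * h)) := by
    intro u
    by_contra hc
    push Not at hc
    obtain ⟨⟨g, hg, h, hh, h1⟩, ⟨g', hg', h', hh', h2⟩⟩ := hc
    have k1 : (∃ a ∈ hfin.toFinset, u * a ∈ A) ∧ (∃ a ∈ hfin.toFinset, u * a ∉ A) := by
      by_cases m1 : u * g ∈ A
      · by_cases m2 : u * h ∈ A
        · exact absurd (by simp only [α, if_pos m1, if_pos m2]) h1
        · exact ⟨⟨g, hg, m1⟩, ⟨h, hh, m2⟩⟩
      · by_cases m2 : u * h ∈ A
        · exact ⟨⟨h, hh, m2⟩, ⟨g, hg, m1⟩⟩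
        · exact absurd (by simp only [α, if_neg m1, if_neg m2]) h1
    have k2 : (∃ a ∈ hfin.toFinset, u * a ∈ B) ∧ (∃ a ∈ hfin.toFinset, u * a ∉ B) := by
      by_cases m1 : u * g' ∈ B
      · by_cases m2 : u * h' ∈ B
        · exact absurd (by simp only [β, if_pos m1, if_pos m2]) h2
        · exact ⟨⟨g', hg', m1⟩, ⟨h', hh', m2⟩⟩
      · by_cases m2 : u * h' ∈ B
        · exact ⟨⟨h', hh', m2⟩, ⟨g', hg', m1⟩⟩
        · exact absurd (by simp only [β, if_neg m1, if_neg m2]) h2
    obtain ⟨b, hb, hb'⟩ := k2.2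
    exact hb' (hno u k1.1 k1.2 k2.1 b hb)
  let θ : ℕ → Γ → ℤ := fun N q =>
    ∑ b ∈ Finset.range N, om2 α β (vlab Hm l o N q b) (vlab Hm l o N q (b + 1))
  have hθ : ∀ s ∈ S, ∀ q : Γ, ∀ᶠ N : ℕ in atTop, om2 α β q (q * s) = θ N q - θ N (q * s) := by
    intro s hs q
    exact edge_lemma (H := Hm) Hm.continuous (fun x => Hm.map_zero_left x)
      (fun x => Hm.map_one_left x) hU hUcov (F := {g : Γ | (g • K' ∩ C).Nonempty})
      (fun g hg => hg.mono (inter_subset_inter_right _ hUC)) hl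
      (Or.inr (Or.inl rfl)) (γ := γ s)
      (fun t => Or.inr (Or.inr (mem_iUnion₂.2 ⟨s, hs, ⟨t, rfl⟩⟩))) α β
      (by simpa using hαβ) q
  have e1 := con_sum hθ (T := A) (c := β) (fun p hp q hq => by
    simp only [om2, α, if_pos hp, one_mul]) cA
  have e2 := con_sum hθ (T := Bᶜ) (c := fun _ => 0) (fun p hp q hq => by
    have hp' : p ∉ B := hp
    have hq' : q ∉ B := hq
    simp only [om2, β, if_neg hp', if_neg hq', sub_self, mul_zero]) cB
  have e3 := con_sum hθ (T := Aᶜ) (c := fun _ => 0) (fun p hp q hq => by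
    have hp' : p ∉ A := hp
    simp only [om2, α, if_neg hp', zero_mul, sub_self]) cA'
  have e4 := con_sum hθ (T := B) (c := fun _ => 0) (fun p hp q hq => by
    simp only [om2, β, if_pos hp, if_pos hq, sub_self, mul_zero]) cB'
  obtain ⟨N, h1, h2, h3, h4⟩ := (e1.and (e2.and (e3.and e4))).exists
  have b1 : β y = 0 := if_neg hyB
  have b2 : β x = 1 := if_pos hxB
  rw [b1, b2] at h1
  linarith

end Cross

end Vale.Agent.P239
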