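import Vale.Agent.P239.AmenDef

/-! Groups with a cyclic subgroup of finite index are amenable. -/

namespace Vale.Agent.P239

variable {G : Type*} [Group G]

/-- Cyclic subgroups satisfy the Foelner condition. -/
theorem foelner_cyclic (g : G) : Foelner (Subgroup.zpowers g) := by
  classical
  intro S n
  by_cases hfin : Finite (Subgroup.zpowers g)
  · have := Fintype.ofFinite (Subgroup.zpowers g)
    refine ⟨Finset.univ, Finset.univ_nonempty, fun s _ => ?_⟩
    simp
  · have hinj : Function.Injective fun k : ℤ => g ^ k := by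
      rw [injective_zpow_iff_not_isOfFinOrder]
      intro h
      exact hfin (finite_zpowers.2 h).to_subtype
    let γ : ℤ → Subgroup.zpowers g := fun k => ⟨g ^ k, k, rfl⟩
    have hγ : Function.Injective γ := fun a b hab => hinj (congrArg Subtype.val hab)
    have hexp : ∀ s : Subgroup.zpowers g, ∃ k : ℤ, γ k = s := by
      rintro ⟨_, k, rfl⟩
      exact ⟨k, rfl⟩
    choose e he using hexp
    set m : ℕ := ∑ s ∈ S, (e s).natAbs with hm
    set N : ℕ := n * m + 1 with hN
    refine ⟨(Finset.Ico (0 : ℤ) N).image γ, ?_, fun s hs => ?_⟩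
    · refine Finset.Nonempty.image ⟨0, ?_⟩ _
      rw [Finset.mem_Ico]
      constructor
      · exact le_rfl
      · rw [hN]; positivity
    · have hes : (e s).natAbs ≤ m :=
        Finset.single_le_sum (f := fun s => (e s).natAbs) (fun _ _ => Nat.zero_le _) hs
      have hsub : {x | x ∈ (Finset.Ico (0 : ℤ) N).image γ ∧
          s * x ∉ (Finset.Ico (0 : ℤ) N).image γ} ⊆
          (((Finset.Ico (0 : ℤ) N).filter fun k => e s + k < 0 ∨ (N : ℤ) ≤ e s + k).image γ :
            Finset _) := by
        rintro x ⟨hx1, hx2⟩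
        obtain ⟨k, hk, rfl⟩ := Finset.mem_image.1 hx1
        refine Finset.mem_coe.2 (Finset.mem_image.2 ⟨k, Finset.mem_filter.2 ⟨hk, ?_⟩, rfl⟩)
        by_contra hcon
        push Not at hcon
        refine hx2 (Finset.mem_image.2 ⟨e s + k, Finset.mem_Ico.2 ⟨hcon.1, hcon.2⟩, ?_⟩)
        nth_rewrite 2 [← he s]
        exact Subtype.ext (zpow_add g (e s) k)
      have hcard : ((Finset.Ico (0 : ℤ) N).filter fun k => e s + k < 0 ∨ (N : ℤ) ≤ e s + k).card ≤
          (e s).natAbs := by
        have hsub2 : ((Finset.Ico (0 : ℤ) N).filter fun k => e s + k < 0 ∨ (N : ℤ) ≤ e s + k) ⊆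
            (if 0 ≤ e s then Finset.Ico ((N : ℤ) - e s) N else Finset.Ico 0 (-e s)) := by
          intro k hk
          rw [Finset.mem_filter, Finset.mem_Ico] at hk
          split_ifs with h0
          · rw [Finset.mem_Ico]; omega
          · rw [Finset.mem_Ico]; omega
        refine (Finset.card_le_card hsub2).trans ?_
        split_ifs with h0
        · rw [Int.card_Ico]; omega
        · rw [Int.card_Ico]; omega
      have h1 := Set.ncard_le_ncard hsub (Finset.finite_toSet _)
      rw [Set.ncard_coe_finset] at h1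
      have h2 : ((Finset.Ico (0 : ℤ) N).image γ).card = N := by
        rw [Finset.card_image_of_injective _ hγ, Int.card_Ico]; omega
      rw [h2]
      calc n * _ ≤ n * m := by
            gcongr
            exact h1.trans (Finset.card_image_le.trans (hcard.trans hes))
        _ ≤ N := by rw [hN]; omega

/-- The Foelner condition passes to groups containing the subgroup with finite index. -/
theorem foelner_of_finiteIndex (H : Subgroup G) [H.FiniteIndex] (hH : Foelner H) : Foelner G := by
  classical
  intro S n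
  have : Fintype (G ⧸ H) := Fintype.ofFinite _
  -- `s * out q = out (s q) * c s q`
  have hc : ∀ (s : G) (q : G ⧸ H),
      (Quotient.out ((s * Quotient.out q : G) : G ⧸ H))⁻¹ * (s * Quotient.out q) ∈ H := by
    intro s q
    rw [← QuotientGroup.eq]
    exact QuotientGroup.out_eq' _
  let c : G → G ⧸ H → H := fun s q => ⟨_, hc s q⟩
  obtain ⟨F, hFne, hF⟩ := hH ((S ×ˢ Finset.univ).image fun p => c p.1 p.2) n
  let γ : (G ⧸ H) × H → G := fun p => Quotient.out p.1 * p.2
  have hγ : Function.Injective γ := by
    rintro ⟨q, h⟩ ⟨q', h'⟩ hqq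
    have h1 : ((Quotient.out q * (h : G) : G) : G ⧸ H) = q := by
      rw [QuotientGroup.mk_mul_of_mem _ h.2]; exact QuotientGroup.out_eq' q
    have h2 : ((Quotient.out q' * (h' : G) : G) : G ⧸ H) = q' := by
      rw [QuotientGroup.mk_mul_of_mem _ h'.2]; exact QuotientGroup.out_eq' q'
    have h3 : q = q' := by
      rw [← h1, ← h2]
      exact congrArg _ hqq
    subst h3
    have h4 : (h : G) = h' := mul_left_cancel hqq
    rw [Subtype.ext h4]
  refine ⟨(Finset.univ ×ˢ F).image γ, ?_, fun s hs => ?_⟩
  · obtain ⟨h, hh⟩ := hFne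
    exact ⟨γ ((1 : G), h), Finset.mem_image.2 ⟨_, Finset.mem_product.2 ⟨Finset.mem_univ _, hh⟩, rfl⟩⟩
  · have hsub : {x | x ∈ (Finset.univ ×ˢ F).image γ ∧ s * x ∉ (Finset.univ ×ˢ F).image γ} ⊆
        ((Finset.univ.biUnion fun q : G ⧸ H =>
          (F.filter fun h => c s q * h ∉ F).image fun h => γ (q, h) : Finset G) : Set G) := by
      rintro x ⟨hx1, hx2⟩
      obtain ⟨⟨q, h⟩, hp, rfl⟩ := Finset.mem_image.1 hx1
      have hhF : h ∈ F := (Finset.mem_product.1 hp).2
      refine Finset.mem_coe.2 (Finset.mem_biUnion.2 ⟨q, Finset.mem_univ _, Finset.mem_image.2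
        ⟨h, Finset.mem_filter.2 ⟨hhF, fun hcon => hx2 ?_⟩, rfl⟩⟩)
      refine Finset.mem_image.2 ⟨(((s * Quotient.out q : G) : G ⧸ H), c s q * h),
        Finset.mem_product.2 ⟨Finset.mem_univ _, hcon⟩, ?_⟩
      change Quotient.out ((s * Quotient.out q : G) : G ⧸ H) *
        ((Quotient.out ((s * Quotient.out q : G) : G ⧸ H))⁻¹ * (s * Quotient.out q) * h) =
          s * (Quotient.out q * h)
      group
    have h1 := Set.ncard_le_ncard hsub (Finset.finite_toSet _)
    rw [Set.ncard_coe_finset] at h1
    rw [Finset.card_image_of_injective _ hγ, Finset.card_product, Finset.card_univ]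
    have h2 : ∀ q, n * ((F.filter fun h => c s q * h ∉ F).image fun h => γ (q, h)).card ≤
        F.card := by
      intro q
      have h3 := hF (c s q) (Finset.mem_image.2 ⟨(s, q),
        Finset.mem_product.2 ⟨hs, Finset.mem_univ _⟩, rfl⟩)
      have h4 : {x | x ∈ F ∧ c s q * x ∉ F} = ((F.filter fun h => c s q * h ∉ F : Finset H) :
          Set H) := by
        ext x; simp
      rw [h4, Set.ncard_coe_finset] at h3
      exact (Nat.mul_le_mul_left n Finset.card_image_le).trans h3
    calc n * _ ≤ n * ∑ q : G ⧸ H, ((F.filter fun h => c s q * h ∉ F).image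
            fun h => γ (q, h)).card := by
          gcongr
          exact h1.trans Finset.card_biUnion_le
      _ = ∑ q : G ⧸ H, n * ((F.filter fun h => c s q * h ∉ F).image
            fun h => γ (q, h)).card := Finset.mul_sum _ _ _
      _ ≤ ∑ _q : G ⧸ H, F.card := Finset.sum_le_sum fun q _ => h2 q
      _ = _ := by rw [Finset.sum_const, Finset.card_univ, smul_eq_mul]

/-- Virtually cyclic groups are amenable. -/
theorem foelner_of_zpowers (g : G) [(Subgroup.zpowers g).FiniteIndex] : Foelner G :=
  foelner_of_finiteIndex (Subgroup.zpowers g) (foelner_cyclic g)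

end Vale.Agent.P239
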