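import Mathlib

/-! Functions of finite energy and harmonic functions on a group. -/

namespace Vale.Agent.P239

variable {G : Type*} [Group G]

/-- `f` has finite energy with respect to `S`. -/
def FinEn (S : Finset G) (f : G → ℝ) : Prop :=
  ∀ s ∈ S, Summable fun x => (f (x * s) - f x) ^ 2

/-- `f` is harmonic with respect to `S`. -/
def Harm (S : Finset G) (f : G → ℝ) : Prop :=
  ∀ x, ∑ s ∈ S, (f (x * s) - f x) = 0

end Vale.Agent.P239
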