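import Mathlib

/-!
Dirichlet functions on a finitely generated group and their potentials.
-/

namespace Vale.Agent.P239

open scoped ENNReal InnerProductSpace

variable {G : Type*} [Group G] (S : Finset G)

/-- `ℓ²` of the directed edges. -/
noncomputable abbrev HS (S : Finset G) : Type _ := lp (fun _ : S × G => ℝ) 2

/-- Functions of finite energy. -/
noncomputable def Dir : Submodule ℝ (G → ℝ) where
  carrier := {f | Memℓp (fun p : S × G => f (p.2 * (p.1 : G)) - f p.2) 2}
  add_mem' {f g} hf hg := by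
    have h := Memℓp.add hf hg
    refine (congrArg (Memℓp · 2) (funext fun p => ?_)).mp h
    simp only [Pi.add_apply]; ring
  zero_mem' := by
    have h : Memℓp (0 : S × G → ℝ) 2 := zero_memℓp
    refine (congrArg (Memℓp · 2) (funext fun p => ?_)).mp h
    simp
  smul_mem' c f hf := by
    have h := Memℓp.const_smul hf c
    refine (congrArg (Memℓp · 2) (funext fun p => ?_)).mp h
    simp only [Pi.smul_apply, smul_eq_mul]; ring

theorem mem_Dir {f : G → ℝ} :
    f ∈ Dir S ↔ Memℓp (fun p : S × G => f (p.2 * (p.1 : G)) - f p.2) 2 := Iff.rfl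

/-- The gradient. -/
noncomputable def grad : Dir S →ₗ[ℝ] HS S where
  toFun f := ⟨fun p => f.1 (p.2 * (p.1 : G)) - f.1 p.2, f.2⟩
  map_add' f g := by
    refine lp.ext (funext fun p => ?_)
    change (f.1 + g.1) _ - (f.1 + g.1) _ = (f.1 _ - f.1 _) + (g.1 _ - g.1 _)
    simp only [Pi.add_apply]; ring
  map_smul' c f := by
    refine lp.ext (funext fun p => ?_)
    change (c • f.1) _ - (c • f.1) _ = c * (f.1 _ - f.1 _)
    simp only [Pi.smul_apply, smul_eq_mul]; ring

@[simp] theorem grad_apply (f : Dir S) (p : S × G) :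
    grad S f p = f.1 (p.2 * (p.1 : G)) - f.1 p.2 := rfl

/-- The energy pairing. -/
noncomputable def en (f g : Dir S) : ℝ := ⟪grad S f, grad S g⟫_ℝ

theorem hasSum_en (f g : Dir S) :
    HasSum (fun p : S × G => (f.1 (p.2 * (p.1 : G)) - f.1 p.2) * (g.1 (p.2 * (p.1 : G)) - g.1 p.2))
      (en S f g) := by
  have h := lp.hasSum_inner (𝕜 := ℝ) (grad S f) (grad S g)
  refine (congrArg (HasSum · (en S f g)) (funext fun p => ?_)).mp h
  simp [mul_comm]

theorem en_comm (f g : Dir S) : en S f g = en S g f := real_inner_comm _ _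

theorem en_add_left (f g h : Dir S) : en S (f + g) h = en S f h + en S g h := by
  rw [en, map_add, inner_add_left]; rfl

theorem en_sub_left (f g h : Dir S) : en S (f - g) h = en S f h - en S g h := by
  rw [en, map_sub, inner_sub_left]; rfl

theorem en_sub_right (f g h : Dir S) : en S f (g - h) = en S f g - en S f h := by
  rw [en, map_sub, inner_sub_right]; rfl

theorem en_add_right (f g h : Dir S) : en S f (g + h) = en S f g + en S f h := by
  rw [en, map_add, inner_add_right]; rfl

theorem en_smul_left (c : ℝ) (f h : Dir S) : en S (c • f) h = c * en S f h := by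
  rw [en, map_smul, real_inner_smul_left]; rfl

theorem en_self_nonneg (f : Dir S) : 0 ≤ en S f f := real_inner_self_nonneg

theorem en_self (f : Dir S) : en S f f = ‖grad S f‖ ^ 2 := real_inner_self_eq_norm_sq _

variable {S} in
/-- Evaluation differences are continuous in the gradient. -/
theorem exists_eval (hS : Subgroup.closure (S : Set G) = ⊤) (x : G) :
    ∃ L : HS S →L[ℝ] ℝ, ∀ (ω : HS S) (f : G → ℝ),
      (∀ p : S × G, ω p = f (p.2 * (p.1 : G)) - f p.2) → L ω = f x - f 1 := by
  have hx : x ∈ Subgroup.closure (S : Set G) := by rw [hS]; trivial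
  induction hx using Subgroup.closure_induction_right with
  | one => exact ⟨0, fun ω f _ => by simp⟩
  | mul_right x _ s hs ih =>
    obtain ⟨L, hL⟩ := ih
    refine ⟨L + lp.evalCLM ℝ (fun _ : S × G => ℝ) 2 (⟨s, hs⟩, x), fun ω f hf => ?_⟩
    rw [add_apply, hL ω f hf]
    have : lp.evalCLM ℝ (fun _ : S × G => ℝ) 2 (⟨s, hs⟩, x) ω = ω (⟨s, hs⟩, x) := rfl
    rw [this, hf]
    ring
  | mul_inv_cancel x _ s hs ih =>
    obtain ⟨L, hL⟩ := ih
    refine ⟨L - lp.evalCLM ℝ (fun _ : S × G => ℝ) 2 (⟨s, hs⟩, x * s⁻¹), fun ω f hf => ?_⟩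
    rw [sub_apply, hL ω f hf]
    have : lp.evalCLM ℝ (fun _ : S × G => ℝ) 2 (⟨s, hs⟩, x * s⁻¹) ω = ω (⟨s, hs⟩, x * s⁻¹) := rfl
    rw [this, hf]
    simp only [inv_mul_cancel_right]
    ring

/-- The space of gradients. -/
noncomputable def Grad : Submodule ℝ (HS S) := LinearMap.range (grad S)

theorem mem_Grad {ω : HS S} :
    ω ∈ Grad S ↔ ∃ f : G → ℝ, ∀ p : S × G, ω p = f (p.2 * (p.1 : G)) - f p.2 := by
  constructor
  · rintro ⟨f, rfl⟩
    exact ⟨f.1, fun p => rfl⟩
  · rintro ⟨f, hf⟩
    refine ⟨⟨f, ?_⟩, ?_⟩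
    · rw [mem_Dir]
      have h := lp.memℓp ω
      exact (congrArg (Memℓp · 2) (funext fun p => hf p)).mp h
    · exact lp.ext (funext fun p => (hf p).symm)

variable {S} in
theorem isClosed_Grad (hS : Subgroup.closure (S : Set G) = ⊤) :
    IsClosed (Grad S : Set (HS S)) := by
  choose L hL using fun x : G => exists_eval hS x
  have key : (Grad S : Set (HS S)) =
      ⋂ p : S × G, {ω : HS S | lp.evalCLM ℝ (fun _ : S × G => ℝ) 2 p ω =
        L (p.2 * (p.1 : G)) ω - L p.2 ω} := by
    ext ω
    rw [SetLike.mem_coe, mem_Grad, Set.mem_iInter]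
    constructor
    · rintro ⟨f, hf⟩ p
      have h1 : lp.evalCLM ℝ (fun _ : S × G => ℝ) 2 p ω = ω p := rfl
      rw [Set.mem_ofPred_eq, h1, hf p, hL _ ω f hf, hL _ ω f hf]
      ring
    · intro h
      exact ⟨fun x => L x ω, fun p => h p⟩
  rw [key]
  refine isClosed_iInter fun p => isClosed_eq ?_ ?_
  · exact (lp.evalCLM ℝ (fun _ : S × G => ℝ) 2 p).continuous
  · exact ((L _).continuous.sub (L _).continuous)

variable {S} in
/-- Potentials: Riesz representers of evaluation differences. -/
theorem exists_pot (hS : Subgroup.closure (S : Set G) = ⊤) (x : G) :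
    ∃ v : Dir S, ∀ f : Dir S, en S v f = f.1 x - f.1 1 := by
  obtain ⟨L, hL⟩ := exists_eval hS x
  have : IsClosed (Grad S : Set (HS S)) := isClosed_Grad hS
  have : CompleteSpace (Grad S) := this.completeSpace_coe
  let r : HS S := (InnerProductSpace.toDual ℝ (HS S)).symm L
  obtain ⟨v, hv⟩ : ((Grad S).starProjection r) ∈ Grad S := Submodule.starProjection_apply_mem _ _
  refine ⟨v, fun f => ?_⟩
  have h1 : ⟪(Grad S).starProjection r, grad S f⟫_ℝ = ⟪r, grad S f⟫_ℝ := by
    have h := (Submodule.sub_starProjection_mem_orthogonal (K := Grad S) r)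
    rw [Submodule.mem_orthogonal'] at h
    have := h (grad S f) ⟨f, rfl⟩
    rw [inner_sub_left] at this
    linarith
  rw [en, hv, h1, InnerProductSpace.toDual_symm_apply]
  exact hL _ _ fun p => rfl

variable {S} in
theorem const_of_en_self (hS : Subgroup.closure (S : Set G) = ⊤) {f : Dir S} (h : en S f f = 0)
    (x : G) : f.1 x = f.1 1 := by
  obtain ⟨L, hL⟩ := exists_eval hS x
  have h0 : grad S f = 0 := by
    rw [en_self] at h
    exact norm_eq_zero.1 (pow_eq_zero_iff (two_ne_zero) |>.1 h)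
  have := hL (grad S f) f.1 fun p => rfl
  rw [h0, map_zero] at this
  linarith

end Vale.Agent.P239
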