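import Vale.Agent.P239.AHHarm

/-!
Existence of loxodromic elements.
-/

namespace Vale.Agent.P239

open scoped ENNReal InnerProductSpace
open Filter Topology

variable {G : Type*} [Group G] {S : Finset G}

theorem exists_decomp {C : ℝ} (hgap : ∀ f : G → ℝ, SqS f →
    ∑' x, f x ^ 2 ≤ C * ∑ s ∈ S, ∑' x, (f (x * s) - f x) ^ 2) (v : Dir S) :
    ∃ h φ : Dir S, v = h + φ ∧ SqS φ.1 ∧ Orth h := by
  have hbound : ∀ φ : lp (fun _ : G => ℝ) 2, ‖φ‖ ≤ (Real.sqrt (max C 0)).toNNReal *
      ‖gradL2 S φ‖ := by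
    intro φ
    have h1 : ‖φ‖ ^ 2 = ∑' x, φ x ^ 2 := by
      have h := lp.hasSum_norm (by norm_num : 0 < (2 : ℝ≥0∞).toReal) φ
      have h2 := h.tsum_eq
      simp only [ENNReal.toReal_ofNat, Real.rpow_ofNat, Real.norm_eq_abs, sq_abs] at h2
      exact h2.symm
    have h2 : ‖gradL2 S φ‖ ^ 2 = ∑ s ∈ S, ∑' x, (φ (x * s) - φ x) ^ 2 := by
      rw [gradL2_apply, ← en_self, en_self_eq_sum]
    have h3 := hgap φ (sqS_iff.2 (lp.memℓp φ))
    rw [← h1, ← h2] at h3
    rw [Real.coe_toNNReal _ (Real.sqrt_nonneg _)]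
    refine (pow_le_pow_iff_left₀ (norm_nonneg _) (by positivity) two_ne_zero).1 ?_
    rw [mul_pow, Real.sq_sqrt (le_max_right _ _)]
    exact h3.trans (mul_le_mul_of_nonneg_right (le_max_left _ _) (sq_nonneg _))
  have hanti : AntilipschitzWith (Real.sqrt (max C 0)).toNNReal (gradL2 S) :=
    ContinuousLinearMap.antilipschitz_of_bound _ hbound
  have hcl : IsClosed ((LinearMap.range (gradL2 S).toLinearMap : Submodule ℝ (HS S)) :
      Set (HS S)) := by
    have := hanti.isClosed_range (gradL2 S).uniformContinuous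
    rw [LinearMap.coe_range]
    exact this
  have : CompleteSpace (LinearMap.range (gradL2 S).toLinearMap) := hcl.completeSpace_coe
  obtain ⟨φ, hφ⟩ : (LinearMap.range (gradL2 S).toLinearMap).starProjection (grad S v) ∈
      LinearMap.range (gradL2 S).toLinearMap := Submodule.starProjection_apply_mem _ _
  refine ⟨v - l2Dir S φ, l2Dir S φ, by abel, sqS_iff.2 (lp.memℓp φ), fun ψ hψ => ?_⟩
  have h := (Submodule.sub_starProjection_mem_orthogonal
    (K := LinearMap.range (gradL2 S).toLinearMap) (grad S v))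
  rw [Submodule.mem_orthogonal'] at h
  have h2 := h (grad S ψ) ⟨⟨ψ.1, sqS_iff.1 hψ⟩, rfl⟩
  rw [← hφ] at h2
  have h3 : grad S v - (gradL2 S).toLinearMap φ = grad S (v - l2Dir S φ) := by
    rw [map_sub]; rfl
  rw [h3] at h2
  exact h2

/-- The maximum principle. -/
theorem exists_ge_of_harm [Infinite G] (hS : Subgroup.closure (S : Set G) = ⊤)
    (hsym : ∀ s ∈ S, s⁻¹ ∈ S) {h : G → ℝ} (hh : ∀ y : G, ∑ s ∈ S, (h (y * s) - h y) = 0)
    {A : Set G} (hA : A.Finite) (x : G) : ∃ z ∉ A, h x ≤ h z := by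
  by_contra hc
  push Not at hc
  have hxA : x ∈ A := by
    by_contra hx
    exact lt_irrefl _ (hc x hx)
  obtain ⟨y, hyA, hy⟩ := hA.exists_maximalFor h A ⟨x, hxA⟩
  have hmax : ∀ z, h z ≤ h y := by
    intro z
    have hxy : h x ≤ h y := by
      by_contra hlt
      push Not at hlt
      exact absurd (hy hxA hlt.le) (not_le.2 hlt)
    by_cases hz : z ∈ A
    · by_contra hlt
      push Not at hlt
      exact absurd (hy hz hlt.le) (not_le.2 hlt)
    · exact ((hc z hz).le).trans hxy
  have hstep : ∀ p, h p = h y → ∀ s ∈ S, h (p * s) = h y := by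
    intro p hp s hs
    have h0 : ∀ t ∈ S, h (p * t) - h p ≤ 0 := fun t _ => by
      rw [hp]; linarith [hmax (p * t)]
    have h1 := (Finset.sum_eq_zero_iff_of_nonpos h0).1 (hh p) s hs
    rw [hp] at h1
    linarith
  have hall : ∀ g : G, h (y * g) = h y := by
    intro g
    have hg : g ∈ Subgroup.closure (S : Set G) := by rw [hS]; trivial
    induction hg using Subgroup.closure_induction_right with
    | one => rw [mul_one]
    | mul_right g _ s hs ih =>
      rw [← mul_assoc]; exact hstep _ ih s hs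
    | mul_inv_cancel g _ s hs ih =>
      rw [← mul_assoc]; exact hstep _ ih s⁻¹ (hsym s hs)
  obtain ⟨z, hz⟩ := hA.exists_notMem
  have h1 := hc z hz
  have h2 := hall (y⁻¹ * z)
  rw [mul_inv_cancel_left] at h2
  have hxy : h x ≤ h y := hmax x
  linarith

theorem exists_le_of_harm [Infinite G] (hS : Subgroup.closure (S : Set G) = ⊤)
    (hsym : ∀ s ∈ S, s⁻¹ ∈ S) {h : G → ℝ} (hh : ∀ y : G, ∑ s ∈ S, (h (y * s) - h y) = 0)
    {A : Set G} (hA : A.Finite) (x : G) : ∃ z ∉ A, h z ≤ h x := by
  obtain ⟨z, hz, hxz⟩ := exists_ge_of_harm hS hsym (h := fun y => - h y) (fun y => by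
    have := hh y
    rw [← neg_eq_zero, ← Finset.sum_neg_distrib] at this
    refine (Finset.sum_congr rfl fun s _ => ?_).trans this
    ring) hA x
  exact ⟨z, hz, by linarith⟩

theorem exists_lox [Infinite G] (hS : Subgroup.closure (S : Set G) = ⊤)
    (hsym : ∀ s ∈ S, s⁻¹ ∈ S) {C : ℝ} (hgap : ∀ f : G → ℝ, SqS f →
      ∑' x, f x ^ 2 ≤ C * ∑ s ∈ S, ∑' x, (f (x * s) - f x) ^ 2)
    {δ : ℝ} (h4 : Four hS δ) {u : Dir S} (hu : ∀ y : G, ∑ s ∈ S, (u.1 (y * s) - u.1 y) = 0)
    (hne : ∃ x y, u.1 x ≠ u.1 y) : ∃ g : G, Lox hS g := by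
  choose H Φ hd hΦ hH using fun x : G => exists_decomp hgap (pot hS x)
  have hu' : Orth u := orth_of_harm hsym hu
  -- the pairing of harmonic parts
  have hpair : ∀ (w : Dir S), Orth w → ∀ x, en S w (H x) = w.1 x - w.1 1 := by
    intro w hw x
    have h1 : H x = pot hS x - Φ x := by rw [hd x]; abel
    rw [h1, en_sub_right, hw _ (hΦ x), sub_zero, en_comm, pot_isPot]
  set m : G → ℝ := fun x => en S (H x) (H x) with hm
  have hmx : ∀ x, m x = (H x).1 x - (H x).1 1 := fun x => hpair _ (hH x) x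
  -- invariance
  have hinv : ∀ g x y : G, en S (H (g * x) - H (g * y)) (H (g * x) - H (g * y)) =
      en S (H x - H y) (H x - H y) := by
    intro g x y
    set d := trD g (H x - H y) - (H (g * x) - H (g * y)) with hddef
    have hdo : Orth d := (((hH x).sub (hH y)).trans g).sub ((hH _).sub (hH _))
    have hd0 : en S d d = 0 := by
      have e1 : en S d (H (g * x) - H (g * y)) = d.1 (g * x) - d.1 (g * y) := by
        rw [en_sub_right, hpair d hdo, hpair d hdo]; ring
      have hdo' : Orth (trD g⁻¹ d) := hdo.trans g⁻¹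
      have e2 : en S d (trD g (H x - H y)) = d.1 (g * x) - d.1 (g * y) := by
        have e3 : d = trD g (trD g⁻¹ d) := by rw [trD_trD, mul_inv_cancel, trD_one]
        conv_lhs => rw [e3]
        rw [en_trD, en_sub_right, hpair _ hdo', hpair _ hdo']
        change d.1 (g⁻¹⁻¹ * x) - d.1 (g⁻¹⁻¹ * 1) - (d.1 (g⁻¹⁻¹ * y) - d.1 (g⁻¹⁻¹ * 1)) = _
        rw [inv_inv]; ring
      have e4 : en S d d = en S d (trD g (H x - H y)) - en S d (H (g * x) - H (g * y)) := by
        rw [← en_sub_right]
      rw [e4, e1, e2, sub_self]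
    have hg0 : grad S d = 0 := by
      rw [en_self] at hd0
      exact norm_eq_zero.1 (pow_eq_zero_iff two_ne_zero |>.1 hd0)
    have hg1 : grad S (trD g (H x - H y)) = grad S (H (g * x) - H (g * y)) := by
      rw [hddef, map_sub, sub_eq_zero] at hg0
      exact hg0
    rw [← en_trD g (H x - H y), en, en, hg1]
  set κ : ℝ := ∑ s ∈ S, en S (H s - H 1) (H s - H 1) with hκ
  have hκpos : 0 < κ := by
    refine lt_of_le_of_ne (Finset.sum_nonneg fun s _ => en_self_nonneg _ _) fun h0 => ?_
    have h1 : ∀ s ∈ S, en S (H s - H 1) (H s - H 1) = 0 :=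
      (Finset.sum_eq_zero_iff_of_nonneg fun s _ => en_self_nonneg _ _).1 h0.symm
    have h2 : ∀ (x : G) (s : G), s ∈ S → u.1 (x * s) = u.1 x := by
      intro x s hs
      have h3 := hinv x s 1
      rw [mul_one, h1 s hs] at h3
      have h4 : grad S (H (x * s) - H x) = 0 := by
        rw [en_self] at h3
        exact norm_eq_zero.1 (pow_eq_zero_iff two_ne_zero |>.1 h3)
      have h5 : en S u (H (x * s) - H x) = 0 := by rw [en, h4, inner_zero_right]
      rw [en_sub_right, hpair u hu', hpair u hu'] at h5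
      linarith
    have h3 : ∀ g : G, u.1 g = u.1 1 := by
      intro g
      have hg : g ∈ Subgroup.closure (S : Set G) := by rw [hS]; trivial
      induction hg using Subgroup.closure_induction_right with
      | one => rfl
      | mul_right g _ s hs ih => rw [h2 g s hs, ih]
      | mul_inv_cancel g _ s hs ih => rw [h2 g s⁻¹ (hsym s hs), ih]
    obtain ⟨x, y, hxy⟩ := hne
    exact hxy ((h3 x).trans (h3 y).symm)
  have hSne : S.Nonempty := by
    by_contra hemp
    rw [Finset.not_nonempty_iff_eq_empty] at hemp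
    have h0 : κ = 0 := Finset.sum_eq_zero fun s hs =>
      (Finset.eq_empty_iff_forall_notMem.1 hemp s hs).elim
    exact hκpos.ne' h0
  have hcard : (0 : ℝ) < S.card := by exact_mod_cast hSne.card_pos
  -- growth
  have hsum : ∀ x, ∑ s ∈ S, m (x * s) = ∑ s ∈ S, (m x) + κ := by
    intro x
    have h1 : ∀ s ∈ S, m (x * s) = m x + en S (H s - H 1) (H s - H 1) +
        2 * ((H x).1 (x * s) - (H x).1 x) := by
      intro s _
      have h2 := hinv x s 1
      rw [mul_one] at h2
      rw [← h2, en_sub_left, en_sub_right, en_sub_right, en_comm S (H (x * s)) (H x),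
        hpair (H x) (hH x) (x * s), hmx x, hpair (H x) (hH x) x]
      simp only [hm]
      ring
    rw [Finset.sum_congr rfl h1, Finset.sum_add_distrib, Finset.sum_add_distrib,
      ← Finset.mul_sum, (hH x).harm hsym x, mul_zero, add_zero]
  have hgrow : ∀ n : ℕ, ∃ x, n * κ ≤ S.card * m x := by
    intro n
    induction n with
    | zero =>
      refine ⟨1, ?_⟩
      have : 0 ≤ m 1 := en_self_nonneg _ _
      simp only [Nat.cast_zero, zero_mul]
      positivity
    | succ n ih =>
      obtain ⟨x, hx⟩ := ih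
      obtain ⟨s, hs, hle⟩ := Finset.exists_le_of_sum_le (s := S)
        (f := fun _ => m x + κ / S.card) (g := fun s => m (x * s)) hSne (by
          rw [hsum x, Finset.sum_add_distrib, Finset.sum_const, Finset.sum_const, nsmul_eq_mul,
            nsmul_eq_mul, mul_div_cancel₀ _ hcard.ne'])
      refine ⟨x * s, ?_⟩
      have h1 : (S.card : ℝ) * (m x + κ / S.card) ≤ S.card * m (x * s) :=
        mul_le_mul_of_nonneg_left hle hcard.le
      rw [mul_add, mul_div_cancel₀ _ hcard.ne'] at h1
      push_cast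
      linarith
  have hunb' : ∀ L : ℝ, ∃ x, L ≤ m x := by
    intro L
    obtain ⟨n, hn⟩ := exists_nat_ge ((S.card * max L 0) / κ)
    obtain ⟨x, hx⟩ := hgrow n
    refine ⟨x, ?_⟩
    rw [div_le_iff₀ hκpos] at hn
    exact (le_max_left L 0).trans (le_of_mul_le_mul_left (hn.trans hx) hcard)
  have hmle : ∀ x, m x ≤ res hS 1 x := by
    intro x
    have e1 : en S (pot hS x) (pot hS x) = m x + en S (Φ x) (Φ x) := by
      conv_lhs => rw [hd x]
      rw [en_add_left, en_add_right, en_add_right, en_comm S (Φ x) (H x), hH x _ (hΦ x)]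
      simp only [hm]; ring
    rw [res_one, gp, e1]
    have := en_self_nonneg S (Φ x)
    linarith
  by_contra hno
  push Not at hno
  by_cases hprop : ∀ L : ℝ, {g : G | res hS 1 g ≤ L}.Finite
  · obtain ⟨x, hx⟩ := hunb' (δ / 2 + 3)
    obtain ⟨A, hA, hosc⟩ := h4.osc hno hprop x
    have hB : {z : G | 1 ≤ (Φ x).1 z ^ 2}.Finite := by
      have h1 := (hΦ x).tendsto_cofinite_zero
      have h2 := (Metric.tendsto_nhds.1 h1 1 one_pos)
      rw [Filter.eventually_cofinite] at h2
      refine h2.subset fun z hz => ?_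
      simp only [Set.mem_ofPred_eq, not_lt, dist_zero_right] at hz ⊢
      rw [Real.norm_eq_abs, abs_of_nonneg (sq_nonneg _)]
      exact hz
    obtain ⟨z, hz, hz'⟩ := exists_ge_of_harm hS hsym (h := (H x).1)
      (fun y => (hH x).harm hsym y) (hA.union hB) x
    obtain ⟨w, hw, hw'⟩ := exists_le_of_harm hS hsym (h := (H x).1)
      (fun y => (hH x).harm hsym y) (hA.union hB) 1
    simp only [Set.mem_union, Set.mem_ofPred_eq, not_or, not_le] at hz hw
    have e1 := hosc w hw.1 z hz.1
    have e2 : ∀ y, (pot hS x).1 y = (H x).1 y + (Φ x).1 y := by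
      intro y
      have := congrArg (fun f : Dir S => f.1 y) (hd x)
      exact this
    rw [e2, e2] at e1
    have e3 := (sq_lt_one_iff_abs_lt_one _).1 hz.2
    have e4 := (sq_lt_one_iff_abs_lt_one _).1 hw.2
    rw [abs_lt] at e3 e4
    rw [hmx x] at hx
    linarith [e3.1, e4.2]
  · push Not at hprop
    obtain ⟨L, hL⟩ := hprop
    obtain ⟨g, hg⟩ := h4.exists_lox_of_infinite hL fun L' => by
      obtain ⟨x, hx⟩ := hunb' L'
      exact ⟨x, hx.trans (hmle x)⟩
    exact hno g hg

end Vale.Agent.P239
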