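import Vale.Agent.P239.Dim3

/-! Induction inequality for the extended dimension. -/

set_option linter.unusedSectionVars false

namespace Vale.Agent.P239

open scoped Matrix ENNReal
open Matrix

universe u v w

namespace TraceData

variable {N₁ : Type u} [Ring N₁] [StarRing N₁] [Algebra ℝ N₁] [StarModule ℝ N₁]
  {N₂ : Type v} [Ring N₂] [StarRing N₂] [Algebra ℝ N₂] [StarModule ℝ N₂]
  (D₁ : TraceData N₁) (D₂ : TraceData N₂)

section mapMatrix

variable (φ : N₁ →+* N₂) (hstar : ∀ x, φ (star x) = star (φ x)) (ht : ∀ x, D₂.t (φ x) = D₁.t x)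
  {m n : Type} [Fintype m] [Fintype n]

include hstar in
lemma map_conjT (A : Matrix m n N₁) : (A.map φ)ᴴ = Aᴴ.map φ := by
  ext i j
  simp [Matrix.conjTranspose_apply, hstar]

include hstar in
lemma IsProj.map {A : Matrix m m N₁} (h : IsProj A) : IsProj (A.map φ) :=
  ⟨by rw [← Matrix.map_mul, h.1], by rw [map_conjT φ hstar, h.2]⟩

include ht in
lemma Tr_map (A : Matrix m m N₁) : D₂.Tr (A.map φ) = D₁.Tr A := by
  simp [Tr, ht]

include hstar ht in
lemma hs_map (A : Matrix m n N₁) : D₂.hs (A.map φ) = D₁.hs A := by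
  simp [hs, ← hstar, ← map_mul, ht]

lemma vecMul_map (A : Matrix m n N₁) (x : m → N₁) : (φ ∘ x) ᵥ* (A.map φ) = φ ∘ (x ᵥ* A) := by
  ext j
  simp [Matrix.vecMul, dotProduct]

end mapMatrix

lemma exists_coords {N : Type*} [Ring N] {I : Type*} (F : Finset I) :
    ∃ (n : ℕ) (u : Fin n → I), ∀ z : I →₀ N, z.support ⊆ F →
      Fintype.linearCombination N (fun k : Fin n => Finsupp.single (u k) (1 : N))
        (fun k => z (u k)) = z := by
  classical
  refine ⟨F.card, fun k => (F.equivFin.symm k : I), fun z hz => ?_⟩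
  rw [Fintype.linearCombination_apply]
  have e : ∀ k : Fin F.card, z (F.equivFin.symm k : I) • Finsupp.single (F.equivFin.symm k : I)
      (1 : N) = (fun i : F => Finsupp.single (i : I) (z i)) (F.equivFin.symm k) := fun k => by
    rw [Finsupp.smul_single, smul_eq_mul, mul_one]
  simp only [e]
  rw [Equiv.sum_comp F.equivFin.symm (fun i : F => Finsupp.single (i : I) (z i)),
    Finset.sum_coe_sort F (fun i => Finsupp.single i (z i))]
  rw [← Finsupp.sum_of_support_subset z hz (fun i a => Finsupp.single i a) (by simp)]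
  exact Finsupp.sum_single z

/-- Induction inequality. -/
theorem tdim_induction (φ : N₁ →+* N₂) (hstar : ∀ x, φ (star x) = star (φ x))
    (ht : ∀ x, D₂.t (φ x) = D₁.t x) {I : Type*} (K₁ : Submodule N₁ (I →₀ N₁))
    (K₂ : Submodule N₂ (I →₀ N₂))
    (hsub : ∀ k ∈ K₁, Finsupp.mapRange φ (map_zero φ) k ∈ K₂)
    (μ₁ : ((I →₀ N₁) ⧸ K₁) →ₗ[N₁] N₁) (μ₂ : ((I →₀ N₂) ⧸ K₂) →ₗ[N₂] N₂)
    (hμ : ∀ i, μ₂ (K₂.mkQ (Finsupp.single i 1)) = φ (μ₁ (K₁.mkQ (Finsupp.single i 1)))) :
    D₂.tdim (LinearMap.ker μ₂) ≤ D₁.tdim (LinearMap.ker μ₁) := by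
  classical
  refine D₂.tdim_le fun m A g hA hg => ?_
  -- lifts of the images of the basis vectors
  choose z hz using fun j : Fin m => K₂.mkQ_surjective ((g (Pi.single j 1) : (I →₀ N₂) ⧸ K₂))
  obtain ⟨n, u, hu⟩ := exists_coords (N := N₂) (Finset.univ.biUnion fun j => (z j).support)
  let U₁ : (Fin n → N₁) →ₗ[N₁] (I →₀ N₁) :=
    Fintype.linearCombination N₁ (fun k : Fin n => Finsupp.single (u k) (1 : N₁))
  let U₂ : (Fin n → N₂) →ₗ[N₂] (I →₀ N₂) :=
    Fintype.linearCombination N₂ (fun k : Fin n => Finsupp.single (u k) (1 : N₂))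
  have hzU : ∀ j, U₂ (fun k => z j (u k)) = z j := fun j =>
    hu (z j) (Finset.subset_biUnion_of_mem (fun j => (z j).support) (Finset.mem_univ j))
  let B : Matrix (Fin n) Unit N₁ := Matrix.of fun k _ => μ₁ (K₁.mkQ (Finsupp.single (u k) 1))
  let B₂ : Matrix (Fin n) Unit N₂ := B.map φ
  have hμ₁ : ∀ x : Fin n → N₁, μ₁ (K₁.mkQ (U₁ x)) = (x ᵥ* B) () := by
    intro x
    simp only [U₁, Fintype.linearCombination_apply, map_sum, map_smul, smul_eq_mul]
    simp [B, Matrix.vecMul, dotProduct]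
  have hμ₂ : ∀ y : Fin n → N₂, μ₂ (K₂.mkQ (U₂ y)) = (y ᵥ* B₂) () := by
    intro y
    simp only [U₂, Fintype.linearCombination_apply, map_sum, map_smul, hμ, smul_eq_mul]
    simp [B₂, B, Matrix.vecMul, dotProduct]
  obtain ⟨S, hS, hSB, happ⟩ := D₁.exists_lsupp B
  have hQ : IsProj (1 - S) := hS.one_sub
  -- the second side
  let S₂ : Matrix (Fin n) (Fin n) N₂ := S.map φ
  have hS₂ : IsProj S₂ := hS.map φ hstar
  have hSB₂ : S₂ * B₂ = B₂ := by
    simp only [S₂, B₂, ← Matrix.map_mul, hSB]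
  have happ₂ : ∀ ε : ℝ, 0 < ε → ∃ X : Matrix (Fin n) (Fin n) N₂,
      D₂.hs (S₂ - B₂ * B₂ᴴ * X) < ε := by
    intro ε hε
    obtain ⟨X, hX⟩ := happ ε hε
    refine ⟨X.map φ, ?_⟩
    have : S₂ - B₂ * B₂ᴴ * X.map φ = (S - B * Bᴴ * X).map φ := by
      simp only [S₂, B₂]
      rw [map_conjT φ hstar, ← Matrix.map_mul, ← Matrix.map_mul, Matrix.map_sub _ (by simp)]
    rw [this, hs_map D₁ D₂ φ hstar ht]
    exact hX
  have hyS : ∀ y : Fin n → N₂, μ₂ (K₂.mkQ (U₂ y)) = 0 → y ᵥ* S₂ = 0 := by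
    intro y hy
    rw [hμ₂] at hy
    have h2 : (Matrix.replicateRow Unit y) * B₂ = 0 := by
      rw [← Matrix.replicateRow_vecMul]
      ext i j
      exact hy
    have h3 := D₂.lsupp_mul happ₂ h2
    rw [← Matrix.replicateRow_vecMul] at h3
    ext j
    exact congrFun (congrFun h3 ()) j
  have hxS : ∀ x : Fin n → N₁, μ₁ (K₁.mkQ (U₁ x)) = 0 → x ᵥ* S = 0 := by
    intro y hy
    rw [hμ₁] at hy
    have h2 : (Matrix.replicateRow Unit y) * B = 0 := by
      rw [← Matrix.replicateRow_vecMul]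
      ext i j
      exact hy
    have h3 := D₁.lsupp_mul happ h2
    rw [← Matrix.replicateRow_vecMul] at h3
    ext j
    exact congrFun (congrFun h3 ()) j
  -- closure projection of the relations
  let KF : Submodule N₁ (Fin n → N₁) := K₁.comap U₁
  have hKF : ∀ x ∈ KF, x ᵥ* S = 0 := by
    intro x hx
    refine hxS x ?_
    have : K₁.mkQ (U₁ x) = 0 := by
      rw [Submodule.mkQ_apply, Submodule.Quotient.mk_eq_zero]; exact hx
    rw [this, map_zero]
  obtain ⟨R, hR1, hR2, hRK, hRapp⟩ := D₁.proj (Fin n) KF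
  have hR : IsProj R := ⟨hR1, hR2⟩
  have hSR : S * R = 0 := by
    have h' : S * Rᴴ = 0 := by
      refine D₁.mul_eq_zero_of_approx S Rᴴ fun ε hε => ?_
      have hcard : (0 : ℝ) < Fintype.card (Fin n) + 1 := by positivity
      choose k hk hlt using fun i => hRapp (ε / (Fintype.card (Fin n) + 1)) (by positivity) i
      refine ⟨(Matrix.of k)ᴴ, ?_, ?_⟩
      · have : Matrix.of k * S = 0 := by
          ext i j
          have := congrFun (hKF _ (hk i)) j
          simpa [Matrix.mul_apply, Matrix.vecMul, dotProduct] using this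
        rw [← hS.2, ← Matrix.conjTranspose_mul, this, Matrix.conjTranspose_zero]
      · rw [← Matrix.conjTranspose_sub, hs_conjTranspose, ← hs_neg, neg_sub]
        have : D₁.hs (Matrix.of k - R) ≤ ∑ _i : Fin n, ε / (Fintype.card (Fin n) + 1) := by
          unfold hs
          exact Finset.sum_le_sum fun i _ => (hlt i).le
        refine this.trans_lt ?_
        rw [Finset.sum_const, Finset.card_univ, nsmul_eq_mul, mul_div_assoc']
        rw [div_lt_iff₀ hcard]
        nlinarith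
    rwa [hR2] at h'
  have hQR : (1 - S) * R = R := by rw [Matrix.sub_mul, hSR, Matrix.one_mul, sub_zero]
  have hRQ : R * (1 - S) = R := by
    have := congrArg Matrix.conjTranspose hQR
    rwa [Matrix.conjTranspose_mul, hR.2, hQ.2] at this
  have hQRp : IsProj (1 - S - R) := hQ.sub hR hQR
  have hQB : (1 - S) * B = 0 := by rw [Matrix.sub_mul, hSB, Matrix.one_mul, sub_self]
  -- lower bound on the first side
  have low : ENNReal.ofReal (D₁.Tr (1 - S - R)) ≤ D₁.tdim (LinearMap.ker μ₁) := by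
    let g₁ : (Fin n → N₁) →ₗ[N₁] LinearMap.ker μ₁ :=
      LinearMap.codRestrict (LinearMap.ker μ₁) ((K₁.mkQ.comp U₁).comp (1 - S).vecMulLinear)
        (fun x => by
          rw [LinearMap.mem_ker]
          change μ₁ (K₁.mkQ (U₁ (x ᵥ* (1 - S)))) = 0
          rw [hμ₁, Matrix.vecMul_vecMul, hQB, Matrix.vecMul_zero]; rfl)
    refine D₁.le_tdim _ hQRp g₁ fun x hx h0 => ?_
    have h1 : K₁.mkQ (U₁ (x ᵥ* (1 - S))) = 0 := congrArg Subtype.val h0
    have h2 : x ᵥ* (1 - S) ∈ KF := by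
      change U₁ (x ᵥ* (1 - S)) ∈ K₁
      simpa using h1
    have h3 := hRK _ h2
    rw [Matrix.vecMul_vecMul, hQR] at h3
    rw [← hx, Matrix.vecMul_sub, h3, sub_self]
  refine le_trans ?_ low
  -- upper bound on the second side
  let R₂ : Matrix (Fin n) (Fin n) N₂ := R.map φ
  have hR₂ : IsProj R₂ := hR.map φ hstar
  let P₂ : Submodule N₂ (Fin n → N₂) :=
    LinearMap.eqLocus (1 - S₂).vecMulLinear LinearMap.id
  have hP₂ : ∀ y, y ∈ P₂ ↔ y ᵥ* (1 - S₂) = y := fun y => Iff.rfl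
  have hP₂' : ∀ y, y ∈ P₂ ↔ y ᵥ* S₂ = 0 := fun y => by
    rw [hP₂, Matrix.vecMul_sub, Matrix.vecMul_one, sub_eq_self]
  have hQB₂ : (1 - S₂) * B₂ = 0 := by rw [Matrix.sub_mul, hSB₂, Matrix.one_mul, sub_self]
  let h : P₂ →ₗ[N₂] LinearMap.ker μ₂ :=
    LinearMap.codRestrict (LinearMap.ker μ₂) ((K₂.mkQ.comp U₂).comp P₂.subtype)
      (fun y => by
        rw [LinearMap.mem_ker]
        change μ₂ (K₂.mkQ (U₂ y)) = 0
        rw [hμ₂]
        have := (hP₂ _).1 y.2
        rw [← this, Matrix.vecMul_vecMul, hQB₂, Matrix.vecMul_zero]; rfl)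
  have e1 : D₂.tdim (LinearMap.ker h) + D₂.tdim (LinearMap.range h) ≤ D₂.tdim P₂ := by
    have e := D₂.tdim_congr (M := P₂ ⧸ LinearMap.ker h) (M' := LinearMap.range h)
      (LinearMap.quotKerEquivRange h)
    rw [← e, D₂.tdim_add_quot (LinearMap.ker h)]
  have e2 : D₂.tdim P₂ ≤ ENNReal.ofReal (D₂.Tr (1 - S₂)) := D₂.tdim_eqLocus_le hS₂.one_sub
  have e3 : ENNReal.ofReal (D₂.Tr R₂) ≤ D₂.tdim (LinearMap.ker h) := by
    let K' : Submodule N₂ (Fin n → N₂) := P₂ ⊓ LinearMap.ker (K₂.mkQ.comp U₂)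
    have h1 : ENNReal.ofReal (D₂.Tr R₂) ≤ D₂.tdim K' := by
      refine D₂.Tr_le_tdim_of_approx K' hR₂ fun ε hε i => ?_
      obtain ⟨k, hk, hlt⟩ := hRapp ε hε i
      refine ⟨φ ∘ k, ⟨?_, ?_⟩, ?_⟩
      · refine (hP₂' _).2 ?_
        rw [vecMul_map, hKF k hk]
        ext j; simp
      · have e : U₂ (φ ∘ k) = Finsupp.mapRange φ (map_zero φ) (U₁ k) := by
          ext j
          simp [U₁, U₂, Fintype.linearCombination_apply, Finsupp.finsetSum_apply,
            Finsupp.single_apply, apply_ite φ]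
        have hkK : U₁ k ∈ K₁ := hk
        have := hsub _ hkK
        rw [← e] at this
        simpa using this
      · have : ∀ j, D₂.t (star ((φ ∘ k) j - R₂ i j) * ((φ ∘ k) j - R₂ i j)) =
            D₁.t (star (k j - R i j) * (k j - R i j)) := fun j => by
          simp only [R₂, Function.comp_apply, Matrix.map_apply]
          rw [← map_sub, ← hstar, ← map_mul, ht]
        simp only [this]
        exact hlt
    refine h1.trans ?_
    refine D₂.tdim_mono (LinearMap.codRestrict (LinearMap.ker h)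
      (LinearMap.codRestrict P₂ K'.subtype fun x => x.2.1) fun x => ?_) ?_
    · rw [LinearMap.mem_ker]
      apply Subtype.ext
      have : K₂.mkQ (U₂ x) = 0 := x.2.2
      exact this
    · intro x y hxy
      have := congrArg (fun t : LinearMap.ker h => ((t : P₂) : Fin n → N₂)) hxy
      exact Subtype.ext this
  have e4 : ENNReal.ofReal (D₂.Tr A) ≤ D₂.tdim (LinearMap.range h) := by
    have hr : ∀ x, g x ∈ LinearMap.range h := by
      intro x
      have e : x = ∑ i, x i • (Pi.single i 1 : Fin m → N₂) := by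
        ext j
        simp [Pi.single_apply]
      rw [e, map_sum]
      refine Submodule.sum_mem _ fun j _ => ?_
      rw [map_smul]
      refine Submodule.smul_mem _ _ ?_
      have hy : μ₂ (K₂.mkQ (U₂ (fun k => z j (u k)))) = 0 := by
        rw [hzU, hz]
        exact (g (Pi.single j 1)).2
      refine ⟨⟨fun k => z j (u k), (hP₂' _).2 (hyS _ hy)⟩, ?_⟩
      apply Subtype.ext
      change K₂.mkQ (U₂ (fun k => z j (u k))) = _
      rw [hzU, hz]
    exact D₂.le_tdim A hA (g.codRestrict _ hr) fun x hx h0 => hg x hx (congrArg Subtype.val h0)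
  have e5 : D₂.Tr R₂ = D₁.Tr R := Tr_map D₁ D₂ φ ht R
  have e6 : D₂.Tr (1 - S₂) = D₁.Tr (1 - S - R) + D₁.Tr R := by
    have : (1 - S₂) = (1 - S).map φ := by
      rw [Matrix.map_sub _ (by simp)]
      simp [S₂]
    rw [this, Tr_map D₁ D₂ φ ht, Tr_sub D₁ (1 - S) R]; ring
  rw [e5] at e3
  rw [e6, ENNReal.ofReal_add (D₁.Tr_proj_nonneg hQRp) (D₁.Tr_proj_nonneg hR)] at e2
  have e7 : ENNReal.ofReal (D₂.Tr A) + ENNReal.ofReal (D₁.Tr R) ≤
      ENNReal.ofReal (D₁.Tr (1 - S - R)) + ENNReal.ofReal (D₁.Tr R) := by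
    calc _ ≤ D₂.tdim (LinearMap.range h) + D₂.tdim (LinearMap.ker h) := add_le_add e4 e3
      _ = D₂.tdim (LinearMap.ker h) + D₂.tdim (LinearMap.range h) := add_comm _ _
      _ ≤ _ := e1.trans e2
  exact (ENNReal.add_le_add_iff_right ENNReal.ofReal_ne_top).1 e7

end TraceData

end Vale.Agent.P239
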