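import Vale.Agent.P239.VN3
import Vale.Agent.P239.Dim4

/-! Extended dimension over the group von Neumann algebra: the interface. -/

set_option linter.unusedSectionVars false

namespace Vale.Agent.P239

open scoped ENNReal InnerProductSpace Matrix
open Matrix

section vnDim_eq

variable (G : Type*) [Group G] (M : Type*) [AddCommGroup M] [Module (VN G) M]

theorem vnData_Tr {ι : Type} [Fintype ι] (A : Matrix ι ι (VN G)) :
    (vnData G).Tr A = (∑ i, tr (A i i)).re := by
  rw [TraceData.Tr, Complex.re_sum]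
  rfl

theorem vnDim_eq_tdim : vnDim G M = (vnData G).tdim M := by
  classical
  apply le_antisymm
  · refine iSup_le fun P => iSup_le fun n => iSup_le fun A => iSup_le fun hA => iSup_le fun he => ?_
    obtain ⟨e⟩ := he
    rw [← vnData_Tr]
    -- right support of the idempotent `A`
    obtain ⟨T, hT, hTA, happ⟩ := (vnData G).exists_lsupp Aᴴ
    have hAT : A * T = A := by
      have := congrArg Matrix.conjTranspose hTA
      rwa [Matrix.conjTranspose_mul, hT.2, Matrix.conjTranspose_conjTranspose] at this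
    have hAA : Aᴴ * Aᴴ = Aᴴ := by rw [← Matrix.conjTranspose_mul, hA]
    have hT0 : (1 - Aᴴ) * T = 0 := by
      refine (vnData G).mul_eq_zero_of_approx _ _ fun ε hε => ?_
      obtain ⟨X, hX⟩ := happ ε hε
      refine ⟨_, ?_, hX⟩
      rw [← Matrix.mul_assoc, ← Matrix.mul_assoc, Matrix.sub_mul, Matrix.one_mul, hAA, sub_self,
        Matrix.zero_mul, Matrix.zero_mul]
    have hTA' : T * A = T := by
      rw [Matrix.sub_mul, Matrix.one_mul, sub_eq_zero] at hT0
      have := congrArg Matrix.conjTranspose hT0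
      rw [Matrix.conjTranspose_mul, hT.2, Matrix.conjTranspose_conjTranspose] at this
      exact this.symm
    have hTr : (vnData G).Tr A = (vnData G).Tr T := by
      rw [← hAT, (vnData G).Tr_comm, hTA']
    rw [hTr]
    let g : (Fin n → VN G) →ₗ[VN G] M :=
      P.subtype.comp (e.symm.toLinearMap.comp A.vecMulLinear.rangeRestrict)
    refine (vnData G).le_tdim T hT g fun x hx h0 => ?_
    have h1 : A.vecMulLinear.rangeRestrict x = 0 := by
      have h2 : e.symm (A.vecMulLinear.rangeRestrict x) = 0 := Subtype.ext h0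
      simpa using h2
    have h3 : x ᵥ* A = 0 := congrArg Subtype.val h1
    have h4 : x ᵥ* A = x := by
      conv_lhs => rw [← hx]
      rw [Matrix.vecMul_vecMul, hTA', hx]
    rw [← h4, h3]
  · refine (vnData G).tdim_le fun n A g hA hg => ?_
    rw [vnData_Tr]
    let f : LinearMap.range A.vecMulLinear →ₗ[VN G] M :=
      g.comp (LinearMap.range A.vecMulLinear).subtype
    have hf : Function.Injective f := by
      rw [← LinearMap.ker_eq_bot, LinearMap.ker_eq_bot']
      rintro ⟨_, ⟨x, rfl⟩⟩ h0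
      refine Subtype.ext (hg _ ?_ h0)
      change (x ᵥ* A) ᵥ* A = x ᵥ* A
      rw [Matrix.vecMul_vecMul, hA.1]
    refine le_iSup_of_le (LinearMap.range f) (le_iSup_of_le n (le_iSup_of_le A
      (le_iSup_of_le hA.1 (le_iSup_of_le ⟨(LinearEquiv.ofInjective f hf).symm⟩ le_rfl))))

end vnDim_eq

section interface

variable {G : Type*} [Group G]

/-- The 2-norm on the group von Neumann algebra. -/
noncomputable def d2 (x : VN G) : ℝ := ‖x.op (dl 1)‖

theorem t_eq_d2 (x : VN G) : (vnData G).t (star x * x) = d2 x ^ 2 := retr_star_mul_self x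

theorem d2_nonneg (x : VN G) : 0 ≤ d2 x := norm_nonneg _

theorem d2_star (x : VN G) : d2 (star x) = d2 x := by
  have h1 := retr_mul_star_self x
  have h2 := retr_star_mul_self x
  rw [h1] at h2
  exact (sq_eq_sq₀ (norm_nonneg _) (norm_nonneg _)).1 h2

theorem d2_mul_le (a b : VN G) : d2 (a * b) ≤ ‖a.op‖ * d2 b := by
  rw [d2, map_mul, mul_apply_eq_comp]
  exact a.op.le_opNorm _

theorem norm_op_star (a : VN G) : ‖(star a).op‖ = ‖a.op‖ := by
  rw [VN.op_star]
  exact LinearIsometryEquiv.norm_map _ _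

theorem d2_mul_le' (a b : VN G) : d2 (a * b) ≤ d2 a * ‖b.op‖ := by
  rw [← d2_star, star_mul, ← d2_star a, mul_comm, ← norm_op_star b]
  exact d2_mul_le _ _

theorem d2_sub_le (a b : VN G) : d2 (a + b) ≤ d2 a + d2 b := by
  rw [d2, map_add]
  exact norm_add_le _ _

/-- A left ideal with elements arbitrarily close to `1`. -/
def DenseIdeal (J : Submodule (VN G) (VN G)) : Prop :=
  ∀ ε : ℝ, 0 < ε → ∃ a ∈ J, d2 (1 - a) < ε

theorem denseIdeal_iff {J : Submodule (VN G) (VN G)} : DenseIdeal J ↔ (vnData G).Dense J := by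
  constructor
  · intro h ε hε
    obtain ⟨a, ha, hlt⟩ := h (Real.sqrt ε) (Real.sqrt_pos.2 hε)
    refine ⟨a, ha, ?_⟩
    rw [t_eq_d2]
    calc d2 (1 - a) ^ 2 < (Real.sqrt ε) ^ 2 := by gcongr; exact d2_nonneg _
      _ = ε := Real.sq_sqrt hε.le
  · intro h ε hε
    obtain ⟨a, ha, hlt⟩ := h (ε ^ 2) (by positivity)
    refine ⟨a, ha, ?_⟩
    rw [t_eq_d2] at hlt
    exact lt_of_pow_lt_pow_left₀ 2 hε.le hlt

theorem DenseIdeal.mono {J J' : Submodule (VN G) (VN G)} (h : J ≤ J') (hJ : DenseIdeal J) :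
    DenseIdeal J' :=
  fun ε hε => let ⟨a, ha, hlt⟩ := hJ ε hε; ⟨a, h ha, hlt⟩

theorem DenseIdeal.top : DenseIdeal (⊤ : Submodule (VN G) (VN G)) :=
  denseIdeal_iff.2 (vnData G).dense_top

/-- (T1) `(J : w)` is dense. -/
theorem DenseIdeal.colon {J : Submodule (VN G) (VN G)} (hJ : DenseIdeal J) (w : VN G) :
    DenseIdeal (J.comap (LinearMap.toSpanSingleton (VN G) (VN G) w)) :=
  denseIdeal_iff.2 ((vnData G).dense_iff.2 ((vnData G).dense_iff.1
    (TraceData.Dense.colon _ (denseIdeal_iff.1 hJ) w)))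

theorem DenseIdeal.exists_mul_mem {J : Submodule (VN G) (VN G)} (hJ : DenseIdeal J) (w : VN G)
    (ε : ℝ) (hε : 0 < ε) : ∃ x, x * w ∈ J ∧ d2 (1 - x) < ε := by
  obtain ⟨x, hx, hlt⟩ := hJ.colon w ε hε
  exact ⟨x, hx, hlt⟩

theorem DenseIdeal.inf {J J' : Submodule (VN G) (VN G)} (hJ : DenseIdeal J)
    (hJ' : DenseIdeal J') : DenseIdeal (J ⊓ J') :=
  denseIdeal_iff.2 (TraceData.Dense.inf _ (denseIdeal_iff.1 hJ) (denseIdeal_iff.1 hJ'))

theorem DenseIdeal.finset_inf {κ : Type*} (s : Finset κ) (J : κ → Submodule (VN G) (VN G))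
    (h : ∀ i ∈ s, DenseIdeal (J i)) : DenseIdeal (s.inf J) :=
  denseIdeal_iff.2 (TraceData.Dense.finset_inf _ s J fun i hi => denseIdeal_iff.1 (h i hi))

/-- averages over distinct group elements are small in 2-norm -/
theorem d2_average (s : Finset G) (hs : s.Nonempty) :
    d2 ((s.card : ℂ)⁻¹ • ∑ g ∈ s, lam g) ^ 2 = (s.card : ℝ)⁻¹ := by
  classical
  have h1 : ((s.card : ℂ)⁻¹ • ∑ g ∈ s, lam g : VN G).op (dl 1) =
      (s.card : ℂ)⁻¹ • ∑ g ∈ s, (dl g : L2 G) := by
    rw [map_smul, map_sum, _root_.smul_apply, _root_.sum_apply]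
    congr 1
    refine Finset.sum_congr rfl fun g _ => ?_
    rw [lam_dl, mul_one]
  have h2 : ‖∑ g ∈ s, (dl g : L2 G)‖ ^ 2 = s.card := by
    rw [norm_sq_eq_tsum, tsum_eq_sum (s := s)]
    · have : ∀ x ∈ s, ‖(∑ g ∈ s, (dl g : L2 G)) x‖ ^ 2 = 1 := by
        intro x hx
        rw [lp.coeFn_sum, Finset.sum_apply, Finset.sum_eq_single x]
        · rw [dl_apply, if_pos rfl]; simp
        · intro y _ hy
          rw [dl_apply, if_neg (Ne.symm hy)]
        · intro h; exact absurd hx h
      rw [Finset.sum_congr rfl this]; simp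
    · intro x hx
      rw [lp.coeFn_sum, Finset.sum_apply, Finset.sum_eq_zero]
      · simp
      · intro y hy
        rw [dl_apply, if_neg]
        rintro rfl
        exact hx hy
  have hpos : (0 : ℝ) < s.card := by exact_mod_cast hs.card_pos
  rw [d2, h1, norm_smul, mul_pow, h2, norm_inv, Complex.norm_natCast]
  field_simp

/-- for an infinite subgroup (or submonoid, or set) `S`, a left ideal containing all
`lam g - 1`, `g ∈ S`, is dense. -/
theorem denseIdeal_of_infinite {S : Set G} (hS : S.Infinite) {J : Submodule (VN G) (VN G)}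
    (hJ : ∀ g ∈ S, lam g - 1 ∈ J) : DenseIdeal J := by
  intro ε hε
  obtain ⟨n, hn⟩ := exists_nat_gt ((ε ^ 2)⁻¹)
  obtain ⟨s, hsS, hsn⟩ := hS.exists_subset_card_eq (n + 1)
  have hne : s.Nonempty := by
    rw [← Finset.card_pos, hsn]; omega
  set a : VN G := (s.card : ℂ)⁻¹ • ∑ g ∈ s, lam g with ha
  have hcard : (s.card : ℂ) ≠ 0 := by
    rw [hsn]; exact_mod_cast Nat.succ_ne_zero n
  refine ⟨1 - a, ?_, ?_⟩
  · have e : (1 : VN G) - a = algebraMap ℂ (VN G) (-(s.card : ℂ)⁻¹) * ∑ g ∈ s, (lam g - 1) := by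
      rw [← Algebra.smul_def, Finset.sum_sub_distrib, ha, smul_sub]
      simp only [Finset.sum_const, neg_smul]
      have : (s.card : ℂ)⁻¹ • (s.card • (1 : VN G)) = 1 := by
        rw [← Nat.cast_smul_eq_nsmul ℂ, smul_smul, inv_mul_cancel₀ hcard, one_smul]
      rw [this]
      abel
    rw [e]
    exact J.smul_mem _ (Submodule.sum_mem _ fun g hg => hJ g (hsS hg))
  · have h1 := d2_average s hne
    rw [← ha] at h1
    rw [sub_sub_cancel]
    have h2 : d2 a ^ 2 < ε ^ 2 := by
      rw [h1, hsn]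
      have hε2 : 0 < ε ^ 2 := by positivity
      rw [inv_lt_comm₀ (by positivity) hε2]
      push_cast
      linarith
    exact lt_of_pow_lt_pow_left₀ 2 hε.le h2

variable {M : Type*} [AddCommGroup M] [Module (VN G) M]
  {M' : Type*} [AddCommGroup M'] [Module (VN G) M']

/-- (D1) -/
theorem vnDim_mono (f : M →ₗ[VN G] M') (hf : Function.Injective f) : vnDim G M ≤ vnDim G M' := by
  rw [vnDim_eq_tdim, vnDim_eq_tdim]
  exact (vnData G).tdim_mono f hf

theorem vnDim_congr (f : M ≃ₗ[VN G] M') : vnDim G M = vnDim G M' :=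
  le_antisymm (vnDim_mono f.toLinearMap f.injective) (vnDim_mono f.symm.toLinearMap
    f.symm.injective)

theorem vnDim_le_of_surjective (f : M →ₗ[VN G] M') (hf : Function.Surjective f) :
    vnDim G M' ≤ vnDim G M := by
  rw [vnDim_eq_tdim, vnDim_eq_tdim]
  exact (vnData G).tdim_le_of_surjective f hf

/-- (D2) -/
theorem vnDim_le_of_almost_surjective (f : M →ₗ[VN G] M')
    (h : ∀ b : M', ∀ ε : ℝ, 0 < ε → ∃ x : VN G, x • b ∈ LinearMap.range f ∧ d2 (1 - x) < ε) :
    vnDim G M' ≤ vnDim G M := by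
  rw [vnDim_eq_tdim, vnDim_eq_tdim]
  refine (vnData G).tdim_le_of_almost_surjective f fun b ε hε => ?_
  obtain ⟨x, hx, hlt⟩ := h b (Real.sqrt ε) (Real.sqrt_pos.2 hε)
  refine ⟨x, hx, ?_⟩
  rw [t_eq_d2]
  calc d2 (1 - x) ^ 2 < (Real.sqrt ε) ^ 2 := by gcongr; exact d2_nonneg _
    _ = ε := Real.sq_sqrt hε.le

/-- subadditivity -/
theorem vnDim_le_add {M₁ : Type*} [AddCommGroup M₁] [Module (VN G) M₁] (f : M₁ →ₗ[VN G] M)
    (p : M →ₗ[VN G] M') (h : LinearMap.ker p ≤ LinearMap.range f) :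
    vnDim G M ≤ vnDim G M₁ + vnDim G M' := by
  rw [vnDim_eq_tdim, vnDim_eq_tdim, vnDim_eq_tdim]
  exact (vnData G).tdim_le_add f p h

/-- additivity -/
theorem vnDim_add_quot (K : Submodule (VN G) M) : vnDim G K + vnDim G (M ⧸ K) = vnDim G M := by
  rw [vnDim_eq_tdim, vnDim_eq_tdim, vnDim_eq_tdim]
  exact (vnData G).tdim_add_quot K

theorem vnDim_iSup_le {κ : Type*} (S : κ → Submodule (VN G) M) :
    vnDim G (⨆ i, S i : Submodule (VN G) M) ≤ ∑' i, vnDim G (S i) := by
  simp only [vnDim_eq_tdim]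
  exact (vnData G).tdim_iSup_le S

/-- (D3) -/
theorem vnDim_pi_le {κ : Type} [Fintype κ] (F : κ → Type*) [∀ i, AddCommGroup (F i)]
    [∀ i, Module (VN G) (F i)] : vnDim G (∀ i, F i) ≤ ∑ i, vnDim G (F i) := by
  simp only [vnDim_eq_tdim]
  exact (vnData G).tdim_pi_le F

theorem vnDim_free_le (ι : Type) [Fintype ι] : vnDim G (ι → VN G) ≤ Fintype.card ι := by
  rw [vnDim_eq_tdim]
  exact (vnData G).tdim_free_le ι

theorem vnDim_self_le : vnDim G (VN G) ≤ 1 := by
  rw [vnDim_eq_tdim]
  exact (vnData G).tdim_self_le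

theorem vnDim_of_torsion
    (h : ∀ m : M, DenseIdeal (LinearMap.ker (LinearMap.toSpanSingleton (VN G) M m))) :
    vnDim G M = 0 := by
  rw [vnDim_eq_tdim]
  exact (vnData G).tdim_of_torsion fun m => denseIdeal_iff.1 (h m)

theorem vnDim_of_subsingleton [Subsingleton M] : vnDim G M = 0 := by
  rw [vnDim_eq_tdim]
  exact (vnData G).tdim_of_subsingleton

end interface

section induction

variable {G : Type*} [Group G] (H : Subgroup G)

/-- General induction inequality for modules presented by generators. -/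
theorem vnDim_induction {I : Type*} (K₁ : Submodule (VN H) (I →₀ VN H))
    (K₂ : Submodule (VN G) (I →₀ VN G))
    (hsub : ∀ k ∈ K₁, Finsupp.mapRange (indHom H) (map_zero (indHom H)) k ∈ K₂)
    (μ₁ : ((I →₀ VN H) ⧸ K₁) →ₗ[VN H] VN H) (μ₂ : ((I →₀ VN G) ⧸ K₂) →ₗ[VN G] VN G)
    (hμ : ∀ i, μ₂ (K₂.mkQ (Finsupp.single i 1)) =
      indHom H (μ₁ (K₁.mkQ (Finsupp.single i 1)))) :
    vnDim G (LinearMap.ker μ₂) ≤ vnDim H (LinearMap.ker μ₁) := by
  rw [vnDim_eq_tdim, vnDim_eq_tdim]
  refine TraceData.tdim_induction (vnData H) (vnData G) (indHom H) (indHom_star H) (fun x => ?_)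
    K₁ K₂ hsub μ₁ μ₂ hμ
  change retr (indHom H x) = retr x
  rw [retr_apply, retr_apply, tr_indHom]

/-- (D4) -/
theorem vnDim_K_induction :
    vnDim G (K ((lamHom G).comp H.subtype)) ≤ vnDim H (K (lamHom H)) := by
  refine vnDim_induction H (omRel (lamHom H)) (omRel ((lamHom G).comp H.subtype)) ?_
    (mu (lamHom H)) (mu ((lamHom G).comp H.subtype)) ?_
  · intro k hk
    rw [omRel] at hk
    induction hk using Submodule.span_induction with
    | mem x hx =>
      obtain ⟨h, k, a, rfl⟩ := hx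
      have e : Finsupp.mapRange (indHom H) (map_zero (indHom H))
          (Finsupp.single (h * k) a - Finsupp.single h a -
            Finsupp.single k (a * (lamHom H) h)) =
          Finsupp.single (h * k) (indHom H a) - Finsupp.single h (indHom H a) -
            Finsupp.single k (indHom H a * ((lamHom G).comp H.subtype) h) := by
        rw [Finsupp.mapRange_sub (fun a b => map_sub _ a b),
          Finsupp.mapRange_sub (fun a b => map_sub _ a b)]
        simp only [Finsupp.mapRange_single, map_mul, lamHom_apply, indHom_lam]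
        rfl
      rw [e]
      exact Submodule.subset_span ⟨h, k, indHom H a, rfl⟩
    | zero => rw [Finsupp.mapRange_zero]; exact Submodule.zero_mem _
    | add x y _ _ hx hy =>
      rw [Finsupp.mapRange_add (fun a b => map_add _ a b)]
      exact Submodule.add_mem _ hx hy
    | smul a x _ hx =>
      have e : Finsupp.mapRange (indHom H) (map_zero (indHom H)) (a • x) =
          indHom H a • Finsupp.mapRange (indHom H) (map_zero (indHom H)) x := by
        ext i
        simp
      rw [e]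
      exact Submodule.smul_mem _ _ hx
  · intro i
    change mu ((lamHom G).comp H.subtype) (om _ i) = indHom H (mu (lamHom H) (om _ i))
    rw [mu_om, mu_om, map_sub, map_one, lamHom_apply, indHom_lam]
    rfl

end induction

end Vale.Agent.P239
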