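import Vale.Agent.P239.AHDef
import Vale.Agent.P239.Analysis

/-! If harmonic functions of finite energy are constant, the first L2-Betti number vanishes. -/

set_option linter.unusedSectionVars false

namespace Vale.Agent.P239

open scoped ENNReal InnerProductSpace Matrix
open Matrix

section closure

variable {G : Type*} [Group G] {ι : Type} [Fintype ι] [DecidableEq ι]

theorem UU_mono {R Z : Submodule (VN G) (ι → VN G)} (h : R ≤ Z) : UU R ≤ UU Z := by
  refine Submodule.topologicalClosure_mono ?_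
  rintro _ ⟨k, hk, rfl⟩
  exact ⟨k, h hk, rfl⟩

theorem vec_mem_UU {K : Submodule (VN G) (ι → VN G)} {k : ι → VN G} (hk : k ∈ K) :
    vec k ∈ UU K := (vecSub K).le_topologicalClosure (mem_vecSub hk)

theorem sum_op_eq_zero (K : Submodule (VN G) (ι → VN G)) {u : HH ι G}
    (hu : ∀ w ∈ UU K, ⟪w, u⟫_ℂ = 0) {k : ι → VN G} (hk : k ∈ K) : ∑ i, (k i).op (u i) = 0 := by
  refine lp.ext (funext fun y => ?_)
  rw [← inner_dl, inner_sum]
  have h1 := hu (vec (lam y⁻¹ • k)) (vec_mem_UU (K.smul_mem _ hk))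
  rw [PiLp.inner_apply] at h1
  rw [lp.coeFn_zero, Pi.zero_apply, ← h1]
  refine Finset.sum_congr rfl fun i _ => ?_
  rw [vec_apply, Pi.smul_apply, smul_eq_mul, star_mul, star_lam, inv_inv, map_mul,
    mul_apply_eq_comp, lam_dl, mul_one, VN.inner_star_left]

theorem projMat_congr {R Z : Submodule (VN G) (ι → VN G)} (h : UU Z = UU R) :
    projMat Z = projMat R := by
  have key : ∀ (U V : Submodule ℂ (HH ι G)) [U.HasOrthogonalProjection]
      [V.HasOrthogonalProjection] (v : HH ι G), U = V → U.starProjection v = V.starProjection v := by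
    rintro U V _ _ v rfl; rfl
  ext i j
  refine VN.ext_op fun v => ?_
  rw [projMat_op, projMat_op, key _ _ _ h]

/-- If `R ≤ Z` have the same closure then `Z / R` has dimension zero. -/
theorem vnDim_of_UU_le (R Z : Submodule (VN G) (ι → VN G)) (hR : R ≤ Z) (hU : UU Z ≤ UU R)
    {M : Type*} [AddCommGroup M] [Module (VN G) M] (q : Z →ₗ[VN G] M)
    (hq : Function.Surjective q) (hker : ∀ z : Z, (z : ι → VN G) ∈ R → q z = 0) :
    vnDim G M = 0 := by
  have hUU : UU Z = UU R := le_antisymm hU (UU_mono hR)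
  rw [vnDim_eq_tdim]
  have h1 : (vnData G).tdim Z ≤ ENNReal.ofReal ((vnData G).Tr (projMat Z)) := by
    have hle : Z ≤ LinearMap.eqLocus (projMat Z).vecMulLinear LinearMap.id := fun k hk =>
      projMat_vecMul Z hk
    exact ((vnData G).tdim_mono (Submodule.inclusion hle)
      (Submodule.inclusion_injective _)).trans
        ((vnData G).tdim_eqLocus_le ⟨projMat_mul Z, projMat_star Z⟩)
  have h2 : ENNReal.ofReal ((vnData G).Tr (projMat R)) ≤ (vnData G).tdim R :=
    (vnData G).Tr_le_tdim_of_approx R ⟨projMat_mul R, projMat_star R⟩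
      (fun ε hε i => projMat_approx R ε hε i)
  have h3 : (vnData G).tdim R ≤ (vnData G).tdim (LinearMap.ker q) := by
    refine (vnData G).tdim_mono (LinearMap.codRestrict _ (Submodule.inclusion hR) fun x => ?_) ?_
    · exact hker _ x.2
    · intro x y hxy
      have := congrArg (fun z => ((z : LinearMap.ker q) : Z)) hxy
      exact Submodule.inclusion_injective hR this
  have h4 := (vnData G).tdim_add_quot (LinearMap.ker q)
  have h5 : (vnData G).tdim (Z ⧸ LinearMap.ker q) = (vnData G).tdim M :=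
    (vnData G).tdim_congr (q.quotKerEquivOfSurjective hq)
  rw [h5] at h4
  rw [projMat_congr hUU] at h1
  have h6 : (vnData G).tdim Z ≤ (vnData G).tdim (LinearMap.ker q) := h1.trans (h2.trans h3)
  have hfin : (vnData G).tdim (LinearMap.ker q) ≠ ⊤ := by
    have : (vnData G).tdim (LinearMap.ker q) ≤ (vnData G).tdim Z := by
      rw [← h4]; exact le_self_add
    exact ((this.trans h1).trans_lt ENNReal.ofReal_lt_top).ne
  rw [← h4] at h6
  have h7 : (vnData G).tdim (LinearMap.ker q) + (vnData G).tdim M ≤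
      (vnData G).tdim (LinearMap.ker q) + 0 := by rw [add_zero]; exact h6
  exact le_antisymm ((ENNReal.add_le_add_iff_left hfin).1 h7) bot_le

end closure

section link

variable {G : Type*} [Group G]

/-- a gradient field without divergence vanishes -/
theorem field_eq_zero (S : Finset G) (hsym : ∀ g ∈ S, g⁻¹ ∈ S)
    (h : ∀ f : G → ℝ, FinEn S f → Harm S f → ∀ x y, f x = f y) {n : ℕ} (s : Fin n → G)
    (hsum : ∀ F : G → ℂ, ∑ i, F (s i) = ∑ g ∈ S, F g) (hsurjS : ∀ g ∈ S, ∃ i, s i = g)
    (ξ : HH (Fin n) G) (hdiv : ∑ i, ((lam (s i)⁻¹).op (ξ i) - ξ i) = 0) (f : G → ℂ)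
    (hf : ∀ x i, f (x * s i) - f x = ξ i x⁻¹) : ξ = 0 := by
  have hharm : ∀ y, ∑ g ∈ S, (f (y * g) - f y) = 0 := by
    intro y
    have h2 := congrArg (fun v : L2 G => v y⁻¹) hdiv
    simp only [lp.coeFn_sum, Finset.sum_apply, lp.coeFn_sub, Pi.sub_apply, lp.coeFn_zero,
      Pi.zero_apply, lam_op_apply, inv_inv] at h2
    have e1 : ∀ i, ξ i (s i * y⁻¹) = f y - f (y * (s i)⁻¹) := by
      intro i
      have := hf (y * (s i)⁻¹) i
      rw [_root_.mul_inv_rev, inv_inv, inv_mul_cancel_right] at this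
      exact this.symm
    have e2 : ∀ i, ξ i y⁻¹ = f (y * s i) - f y := fun i => (hf y i).symm
    simp only [e1, e2, Finset.sum_sub_distrib] at h2
    have e3 : ∑ i, f (y * (s i)⁻¹) = ∑ g ∈ S, f (y * g) := by
      rw [hsum (fun g => f (y * g⁻¹))]
      refine Finset.sum_nbij' (fun g => g⁻¹) (fun g => g⁻¹) (fun g hg => hsym g hg)
        (fun g hg => hsym g hg) (by simp) (by simp) (by simp)
    have e4 : ∑ i, f (y * s i) = ∑ g ∈ S, f (y * g) := hsum (fun g => f (y * g))
    have e5 : ∑ _i : Fin n, f y = ∑ _g ∈ S, f y := hsum (fun _ => f y)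
    rw [e3, e4, e5] at h2
    rw [Finset.sum_sub_distrib]
    linear_combination (-1 / 2 : ℂ) * h2
  have hsq : ∀ i, Summable fun x => ‖ξ i x⁻¹‖ ^ 2 := fun i =>
    (Equiv.inv G).summable_iff.2 (summable_norm_sq (ξ i))
  have hre := h (fun x => (f x).re) (by
    intro g hg
    obtain ⟨i, rfl⟩ := hsurjS g hg
    refine Summable.of_nonneg_of_le (fun _ => sq_nonneg _) (fun x => ?_) (hsq i)
    rw [← Complex.sub_re, hf, ← sq_abs]
    gcongr
    exact Complex.abs_re_le_norm _) (by
    intro x
    have := congrArg Complex.re (hharm x)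
    simpa using this)
  have him := h (fun x => (f x).im) (by
    intro g hg
    obtain ⟨i, rfl⟩ := hsurjS g hg
    refine Summable.of_nonneg_of_le (fun _ => sq_nonneg _) (fun x => ?_) (hsq i)
    rw [← Complex.sub_im, hf, ← sq_abs]
    gcongr
    exact Complex.abs_im_le_norm _) (by
    intro x
    have := congrArg Complex.im (hharm x)
    simpa using this)
  ext1 i
  refine lp.ext (funext fun x => ?_)
  have h1 := hf x⁻¹ i
  rw [inv_inv] at h1
  rw [← h1, Complex.ext (hre (x⁻¹ * s i) x⁻¹) (him (x⁻¹ * s i) x⁻¹), sub_self]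
  rfl

/-- the divergence of vectors in the closure of the cycles -/
theorem div_eq_zero {n : ℕ} (s : Fin n → G) (Z : Submodule (VN G) (Fin n → VN G))
    (hZ : ∀ k ∈ Z, ∑ i, k i * (lam (s i) - 1) = 0) (v : HH (Fin n) G) (hv : v ∈ UU Z) :
    ∑ i, ((lam (s i)⁻¹).op (v i) - v i) = 0 := by
  let T : HH (Fin n) G →L[ℂ] L2 G :=
    ∑ i, (((lam (s i)⁻¹).op - 1).comp (prj (Fin n) G i))
  have hT : ∀ v, T v = ∑ i, ((lam (s i)⁻¹).op (v i) - v i) := by
    intro v
    rw [_root_.sum_apply]
    rfl
  have hcl : IsClosed ((LinearMap.ker (T : HH (Fin n) G →ₗ[ℂ] L2 G) :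
      Submodule ℂ (HH (Fin n) G)) : Set (HH (Fin n) G)) := by
    exact T.isClosed_ker
  have hle : vecSub Z ≤ LinearMap.ker (T : HH (Fin n) G →ₗ[ℂ] L2 G) := by
    rintro _ ⟨k, hk, rfl⟩
    change T (vec k) = 0
    rw [hT]
    have h2 := congrArg (fun a : VN G => (star a).op (dl 1)) (hZ k hk)
    simp only [star_sum, star_mul, star_sub, star_one, star_lam, star_zero, map_zero,
      map_sum, _root_.sum_apply] at h2
    rw [show (0 : L2 G →L[ℂ] L2 G) (dl 1) = 0 from rfl] at h2
    rw [← h2]
    refine Finset.sum_congr rfl fun i _ => ?_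
    rw [vec_apply, map_mul, mul_apply_eq_comp, map_sub, map_one]
    rfl
  rw [← hT]
  exact (vecSub Z).topologicalClosure_minimal hle hcl hv

/-- a field orthogonal to the relations is a gradient -/
theorem exists_potential {n : ℕ} (s : Fin n → G) (q : (Fin n → VN G) →ₗ[VN G] Om (lamHom G))
    (hqe : ∀ i, q (Pi.single i 1) = om (lamHom G) (s i))
    (hqs : ∀ g, ∃ k, q k = om (lamHom G) g) (ξ : HH (Fin n) G)
    (hξR : ∀ w ∈ UU (LinearMap.ker q), ⟪w, ξ⟫_ℂ = 0) :
    ∃ f : G → ℂ, ∀ x i, f (x * s i) - f x = ξ i x⁻¹ := by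
  choose kk hkk using hqs
  let c : G → L2 G := fun g => ∑ i, (kk g i).op (ξ i)
  have hc : ∀ g k, q k = om (lamHom G) g → c g = ∑ i, (k i).op (ξ i) := by
    intro g k hk
    have hmem : kk g - k ∈ LinearMap.ker q := by
      change q (kk g - k) = 0
      rw [map_sub, hkk, hk, sub_self]
    have h0 := sum_op_eq_zero _ hξR hmem
    simp only [Pi.sub_apply, map_sub, _root_.sub_apply, Finset.sum_sub_distrib] at h0
    exact sub_eq_zero.1 h0
  have hcs : ∀ x i, c (x * s i) = c x + (lam x).op (ξ i) := by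
    intro x i
    rw [hc (x * s i) (kk x + lam x • Pi.single i 1) (by
      rw [map_add, map_smul, hkk, hqe, om_mul, lamHom_apply])]
    simp only [Pi.add_apply, map_add, _root_.add_apply, Finset.sum_add_distrib]
    congr 1
    rw [Finset.sum_eq_single i]
    · simp
    · intro j _ hj
      simp [hj]
    · intro hh; exact absurd (Finset.mem_univ i) hh
  refine ⟨fun x => c x 1, fun x i => ?_⟩
  change c (x * s i) 1 - c x 1 = _
  rw [hcs, lp.coeFn_add, Pi.add_apply, add_sub_cancel_left, lam_op_apply, mul_one]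

theorem vnDim_K_eq_zero_of_harm (S : Finset G) (hS : Subgroup.closure (S : Set G) = ⊤)
    (hsym : ∀ s ∈ S, s⁻¹ ∈ S)
    (h : ∀ f : G → ℝ, FinEn S f → Harm S f → ∀ x y, f x = f y) :
    vnDim G (K (lamHom G)) = 0 := by
  classical
  let s : Fin S.card → G := fun i => (S.equivFin.symm i : G)
  have hs : ∀ i, s i ∈ S := fun i => (S.equivFin.symm i).2
  have hsum : ∀ F : G → ℂ, ∑ i, F (s i) = ∑ g ∈ S, F g := by
    intro F
    rw [← Finset.sum_coe_sort S]
    exact Fintype.sum_equiv S.equivFin.symm _ _ (fun _ => rfl)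
  have hsurjS : ∀ g ∈ S, ∃ i, s i = g := fun g hg =>
    ⟨S.equivFin ⟨g, hg⟩, by simp [s]⟩
  let q : (Fin S.card → VN G) →ₗ[VN G] Om (lamHom G) :=
    Fintype.linearCombination (VN G) (fun i => om (lamHom G) (s i))
  have hqe : ∀ i, q (Pi.single i 1) = om (lamHom G) (s i) := by
    intro i
    simp [q, Fintype.linearCombination_apply, Pi.single_apply, ite_smul]
  have hqs : ∀ g, ∃ k, q k = om (lamHom G) g := by
    intro g
    have hg : g ∈ Subgroup.closure (S : Set G) := by rw [hS]; trivial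
    induction hg using Subgroup.closure_induction with
    | mem x hx =>
      obtain ⟨i, rfl⟩ := hsurjS x hx
      exact ⟨_, hqe i⟩
    | one => exact ⟨0, by rw [map_zero, om_one]⟩
    | mul x y _ _ hx hy =>
      obtain ⟨k, hk⟩ := hx
      obtain ⟨l, hl⟩ := hy
      exact ⟨k + lam x • l, by rw [map_add, map_smul, hk, hl, om_mul, lamHom_apply]⟩
    | inv x _ hx =>
      obtain ⟨k, hk⟩ := hx
      exact ⟨-(lam x⁻¹ • k), by rw [map_neg, map_smul, hk, om_inv, lamHom_apply]⟩
  have hqsurj : ∀ z, ∃ k, q k = z := by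
    intro z
    have hz := om_span (lamHom G) z
    have hle : Submodule.span (VN G) (Set.range (om (lamHom G))) ≤ LinearMap.range q := by
      rw [Submodule.span_le]
      rintro _ ⟨g, rfl⟩
      exact hqs g
    exact hle hz
  let R : Submodule (VN G) (Fin S.card → VN G) := LinearMap.ker q
  let Z : Submodule (VN G) (Fin S.card → VN G) := (K (lamHom G)).comap q
  have hRZ : R ≤ Z := by
    intro k hk
    change q k ∈ K (lamHom G)
    rw [show q k = 0 from hk]
    exact Submodule.zero_mem _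
  have hZ : ∀ k ∈ Z, ∑ i, k i * (lam (s i) - 1) = 0 := by
    intro k hk
    have h1 : mu (lamHom G) (q k) = 0 := hk
    rw [show q k = ∑ i, k i • om (lamHom G) (s i) from
      Fintype.linearCombination_apply _ _ _] at h1
    rw [map_sum] at h1
    rw [← h1]
    refine Finset.sum_congr rfl fun i _ => ?_
    rw [map_smul, mu_om, lamHom_apply, smul_eq_mul]
  have hU : UU Z ≤ UU R := by
    intro v hv
    have h1 : v - (UU R).starProjection v = 0 := by
      have hm : v - (UU R).starProjection v ∈ UU Z :=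
        Submodule.sub_mem _ hv (UU_mono hRZ (Submodule.starProjection_apply_mem _ _))
      obtain ⟨f, hf⟩ := exists_potential s q hqe hqs (v - (UU R).starProjection v) (by
        intro w hw
        rw [← inner_conj_symm, Submodule.starProjection_inner_eq_zero _ _ hw, map_zero])
      exact field_eq_zero S hsym h s hsum hsurjS _ (div_eq_zero s Z hZ _ hm) f hf
    rw [sub_eq_zero.1 h1]
    exact Submodule.starProjection_apply_mem _ _
  refine vnDim_of_UU_le R Z hRZ hU (q.restrict (p := Z) (q := K (lamHom G)) fun k hk => hk) ?_ ?_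
  · rintro ⟨z, hz⟩
    obtain ⟨k, hk⟩ := hqsurj z
    have hkZ : k ∈ Z := by
      change q k ∈ K (lamHom G)
      rw [hk]; exact hz
    exact ⟨⟨k, hkZ⟩, Subtype.ext hk⟩
  · intro z hz
    exact Subtype.ext hz

end link

end Vale.Agent.P239
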