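import Mathlib

namespace Vale.Agent.P239

/-- `G` is acylindrically hyperbolic: it is not virtually cyclic, and it has a left-invariant
pseudometric `d` which is Gromov hyperbolic (four point condition) and for which some element `g`
is loxodromic (its powers move `1` by at least a linear amount) and weakly properly discontinuous
(WPD: for every `ε` there is `N` such that only finitely many elements `h` move both `1` and `g ^ N`
by at most `ε`). -/
def AcylHyp (G : Type*) [Group G] : Prop :=
  (¬ ∃ g : G, (Subgroup.zpowers g).FiniteIndex) ∧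
  ∃ d : G → G → ℝ, (∀ x, d x x = 0) ∧ (∀ x y, d x y = d y x) ∧
    (∀ x y z, d x z ≤ d x y + d y z) ∧ (∀ g x y, d (g * x) (g * y) = d x y) ∧
    (∃ δ : ℝ, ∀ x y z w, d x w + d y z ≤ max (d x y + d z w) (d x z + d y w) + δ) ∧
    ∃ g : G, (∃ c : ℝ, 0 < c ∧ ∀ n : ℕ, c * n ≤ d 1 (g ^ n)) ∧
      ∀ ε : ℝ, ∃ N : ℕ, {h : G | d 1 h ≤ ε ∧ d (g ^ N) (h * g ^ N) ≤ ε}.Finite

end Vale.Agent.P239
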