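import Vale.Agent.P239.Normal

/-! Vanishing of the first L2-Betti number for groups with a finitely generated infinite normal
subgroup of infinite index, and for groups containing such a group as an almost normal subgroup. -/

set_option linter.unusedSectionVars false

namespace Vale.Agent.P239

open scoped ENNReal Pointwise

variable {G : Type*} [Group G] (H : Subgroup G)

theorem stabilizer_coset_of_normal [H.Normal] (w : G ⧸ H) : MulAction.stabilizer G w = H := by
  obtain ⟨g, rfl⟩ := QuotientGroup.mk_surjective w
  ext x
  rw [MulAction.mem_stabilizer_iff, MulAction.Quotient.smul_mk, smul_eq_mul, eq_comm,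
    QuotientGroup.eq, ← mul_assoc]
  have := ‹H.Normal›.conj_mem
  constructor
  · intro h
    have h2 := this _ h g
    simpa [mul_assoc] using h2
  · intro h
    have h2 := this _ h g⁻¹
    simpa [mul_assoc] using h2

/-- For an infinite normal subgroup `H` and at most index-many cosets,
`n * b₁(G) ≤ b₁(H)`. -/
theorem normal_index_le [H.Normal] [Infinite H] {κ : Type} [Fintype κ] (q : κ → G ⧸ H)
    (hq : Function.Injective q) :
    (Fintype.card κ : ℝ≥0∞) * vnDim G (K (lamHom G)) ≤ vnDim H (K (lamHom H)) := by
  have hT : ∀ z ∈ K (lamHom G), TM DenseId (OmA (lamHom G) H ⊓ K (lamHom G)) z := by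
    refine graph_core denseId_isGabriel (lamHom G) (fun D hD => denseId_augId D hD)
      (W := G ⧸ H) (fun _ _ => True) (fun w w' => Relation.EqvGen.rel _ _ trivial) ?_
      ((1 : G) : G ⧸ H) ?_ _ inf_le_right ?_
    · intro w w' _
      rw [stabilizer_coset_of_normal, stabilizer_coset_of_normal, inf_idem]
      infer_instance
    · rw [stabilizer_coset_of_normal]
      infer_instance
    · intro w
      rw [stabilizer_coset_of_normal]
  have h1 : vnDim G (K (lamHom G)) ≤
      vnDim G (OmA (lamHom G) H ⊓ K (lamHom G) : Submodule (VN G) (Om (lamHom G))) := by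
    let f : (OmA (lamHom G) H ⊓ K (lamHom G) : Submodule (VN G) (Om (lamHom G))) →ₗ[VN G]
        K (lamHom G) := Submodule.inclusion inf_le_right
    refine vnDim_le_of_dense_range f ?_
    rintro ⟨z, hz⟩
    refine denseId_isGabriel.mono ?_ (hT z hz)
    intro x hx
    exact ⟨⟨x • z, hx⟩, rfl⟩
  have h2 : vnDim G (OmA (lamHom G) H ⊓ K (lamHom G) : Submodule (VN G) (Om (lamHom G))) ≤
      vnDim G (Submodule.span (VN G) (Set.range (kF H))) :=
    vnDim_le_of_injective (Submodule.inclusion (K_inf_le_span_kF H))
      (Submodule.inclusion_injective _)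
  refine (mul_le_mul_right (h1.trans h2) _).trans ?_
  exact vnDim_index_le H (kF H) (kF_smul H) (kF_stable H) q hq

/-- If `H` is infinite and almost normal, in the sense that it meets all its conjugates in infinite
subgroups, then `b₁(G) ≤ b₁(H)`. -/
theorem vnDim_K_le_of_almost_normal
    (hH : ∀ g : G, Infinite (H ⊓ H.map (MulAut.conj g).toMonoidHom : Subgroup G)) :
    vnDim G (K (lamHom G)) ≤ vnDim H (K (lamHom H)) := by
  have hst : ∀ g : G, MulAction.stabilizer G ((g : G) : G ⧸ H) =
      H.map (MulAut.conj g).toMonoidHom := by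
    intro g
    have : ((g : G) : G ⧸ H) = g • ((1 : G) : G ⧸ H) := by
      rw [MulAction.Quotient.smul_mk, smul_eq_mul, mul_one]
    rw [this, MulAction.stabilizer_smul_eq_stabilizer_map_conj, MulAction.stabilizer_quotient]
  have h := vnDim_K_le_tsum (G := G) (W := G ⧸ H) (fun _ _ => True)
    (fun w w' => Relation.EqvGen.rel _ _ trivial) (by
      intro w w' _
      obtain ⟨g, rfl⟩ := QuotientGroup.mk_surjective w
      obtain ⟨g', rfl⟩ := QuotientGroup.mk_surjective w'
      rw [hst, hst]
      have h1 := hH (g⁻¹ * g')
      refine Infinite.of_injective (β := (H ⊓ H.map (MulAut.conj (g⁻¹ * g')).toMonoidHom :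
        Subgroup G)) (fun x => ⟨g * x * g⁻¹, ?_, ?_⟩) ?_
      · exact ⟨x, x.2.1, by simp⟩
      · obtain ⟨y, hy, hy2⟩ := x.2.2
        refine ⟨y, hy, ?_⟩
        rw [← hy2]
        simp only [MulEquiv.coe_toMonoidHom, MulAut.conj_apply]
        group
      · intro x y hxy
        have h2 := congrArg Subtype.val hxy
        apply Subtype.ext
        simpa using h2)
    (ι := Unit) (fun _ => ((1 : G) : G ⧸ H)) (by
      intro w
      obtain ⟨g, rfl⟩ := QuotientGroup.mk_surjective w
      exact ⟨(), g, by rw [MulAction.Quotient.smul_mk, smul_eq_mul, mul_one]⟩)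
  rw [tsum_fintype, Finset.univ_unique, Finset.sum_singleton] at h
  rwa [MulAction.stabilizer_quotient] at h

theorem om_mem_span {R : Type*} [Ring R] (φ : G →* R) {S : Set G}
    (hS : Subgroup.closure S = ⊤) (g : G) : om φ g ∈ Submodule.span R (om φ '' S) := by
  have hg : g ∈ Subgroup.closure S := by rw [hS]; exact Subgroup.mem_top g
  induction hg using Subgroup.closure_induction with
  | mem x hx => exact Submodule.subset_span ⟨x, hx, rfl⟩
  | one => rw [om_one]; exact Submodule.zero_mem _
  | mul x y _ _ hx hy => rw [om_mul]; exact Submodule.add_mem _ hx (Submodule.smul_mem _ _ hy)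
  | inv x _ hx =>
    rw [om_inv]
    exact Submodule.neg_mem _ (Submodule.smul_mem _ _ hx)

/-- The first L2-Betti number of a finitely generated group is finite. -/
theorem vnDim_K_lt_top (hG : Group.FG G) : vnDim G (K (lamHom G)) < ⊤ := by
  classical
  obtain ⟨S, hS⟩ := Group.fg_def.1 hG
  have h1 : vnDim G (K (lamHom G)) ≤ vnDim G (Om (lamHom G)) :=
    vnDim_le_of_injective (K (lamHom G)).subtype Subtype.val_injective
  let f : (Fin S.card → VN G) →ₗ[VN G] Om (lamHom G) :=
    Fintype.linearCombination (VN G) (fun i => om (lamHom G) (S.equivFin.symm i : G))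
  have hf : Function.Surjective f := by
    rw [← LinearMap.range_eq_top, Fintype.range_linearCombination, eq_top_iff]
    intro z _
    have hz := om_span (lamHom G) z
    have hle : Submodule.span (VN G) (Set.range (om (lamHom G))) ≤ Submodule.span (VN G)
        (Set.range fun i => om (lamHom G) (S.equivFin.symm i : G)) := by
      rw [Submodule.span_le]
      rintro _ ⟨g, rfl⟩
      refine Submodule.span_mono ?_ (om_mem_span (lamHom G) hS g)
      rintro _ ⟨s, hs, rfl⟩
      exact ⟨S.equivFin ⟨s, hs⟩, by simp⟩
    exact hle hz
  refine (h1.trans ((vnDim_le_of_surjective f hf).trans (vnDim_free_le _))).trans_lt ?_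
  exact ENNReal.natCast_lt_top _

/-- Infinite normal subgroups of infinite index with finite first L2-Betti number. -/
theorem vnDim_K_eq_zero_of_normal [H.Normal] [Infinite H] [Infinite (G ⧸ H)]
    (hfin : vnDim H (K (lamHom H)) < ⊤) : vnDim G (K (lamHom G)) = 0 := by
  by_contra hne
  obtain ⟨n, hn⟩ := ENNReal.exists_nat_mul_gt hne hfin.ne
  have h := normal_index_le H (κ := Fin n) (fun i => Infinite.natEmbedding (G ⧸ H) i)
    (fun i j hij => Fin.ext ((Infinite.natEmbedding (G ⧸ H)).injective hij))
  rw [Fintype.card_fin] at h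
  exact absurd (hn.trans_le h) (lt_irrefl _)

/-- A group has property `Fib` if some subgroup `A`, infinitely intersecting all its conjugates
(for instance an infinite subgroup of finite index or an infinite normal subgroup), has a finitely
generated infinite normal subgroup `B` of infinite index in `A`. -/
def Fib (G : Type*) [Group G] : Prop :=
  ∃ (A : Subgroup G) (B : Subgroup A),
    (∀ g : G, Infinite (A ⊓ A.map (MulAut.conj g).toMonoidHom : Subgroup G)) ∧
    B.Normal ∧ B.FG ∧ Infinite B ∧ Infinite (A ⧸ B)

theorem Fib.vnDim_K_eq_zero (h : Fib G) : vnDim G (K (lamHom G)) = 0 := by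
  obtain ⟨A, B, hA, hN, hFG, hB, hAB⟩ := h
  have h1 := vnDim_K_lt_top (G := B) ((Group.fg_iff_subgroup_fg B).2 hFG)
  have h2 := vnDim_K_eq_zero_of_normal B h1
  exact le_antisymm ((vnDim_K_le_of_almost_normal A hA).trans h2.le) bot_le

/-- An infinite group with a finite index subgroup having a finitely generated infinite normal
subgroup of infinite index has property `Fib`. -/
theorem Fib.of_finiteIndex (A : Subgroup G) [A.FiniteIndex] (B : Subgroup A) [B.Normal]
    (hB : B.FG) [Infinite B] [Infinite (A ⧸ B)] : Fib G := by
  refine ⟨A, B, fun g => ?_, inferInstance, hB, inferInstance, inferInstance⟩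
  have hA : Infinite A := Infinite.of_injective B.subtype Subtype.val_injective
  have hG : Infinite G := Infinite.of_injective A.subtype Subtype.val_injective
  have hC : Infinite A.normalCore := by
    by_contra hne
    rw [not_infinite_iff_finite] at hne
    exact hG.not_finite ((Subgroup.finite_iff_finite_and_finiteIndex A.normalCore).2
      ⟨hne, inferInstance⟩)
  have hle : A.normalCore ≤ A ⊓ A.map (MulAut.conj g).toMonoidHom := by
    refine le_inf A.normalCore_le fun x hx => ?_
    refine ⟨g⁻¹ * x * g, A.normalCore_le ?_, by simp [mul_assoc]⟩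
    have := (inferInstance : A.normalCore.Normal).conj_mem x hx g⁻¹
    simpa using this
  exact Infinite.of_injective (Subgroup.inclusion hle) (Subgroup.inclusion_injective hle)

/-- Vanishing for the action of a subgroup with property `Fib` on a contractible free space. -/
theorem l2Betti_one_eq_zero_of_fib {X : Type*} [TopologicalSpace X] [MulAction G X]
    [ContinuousConstSMul G X] [ContractibleSpace X]
    (hfree : ∀ (g : G) (x : X), g • x = x → g = 1) (S : Subgroup G) (hS : Fib S) :
    l2Betti S X 1 = 0 := by
  rw [l2Betti_one_eq (G := S) (X := X)]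
  · exact hS.vnDim_K_eq_zero
  · rintro ⟨g, hg⟩ x hx
    exact Subtype.ext (hfree g x hx)

end Vale.Agent.P239
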