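import Vale.Agent.P239.CubeDefs

/-!
Median graph facts.
-/

namespace Vale.Agent.P239

open scoped Pointwise

variable {V : Type*} {Y : SimpleGraph V}

section Median

theorem IsMedian.dist_ne (hY : IsMedian Y) {a b : V} (c : V) (hab : Y.Adj a b) :
    Y.dist c a ≠ Y.dist c b := by
  intro h
  obtain ⟨m, ⟨h1, h2, h3⟩, -⟩ := hY.2 c a b
  -- m between a and b
  have hab1 : Y.dist a b = 1 := SimpleGraph.dist_eq_one_iff_adj.mpr hab
  rw [Btw] at h1 h2 h3
  rw [hab1] at h2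
  have e1 := Y.dist_comm (u := a) (v := m)
  omega

theorem IsMedian.dist_adj (hY : IsMedian Y) {a b : V} (c : V) (hab : Y.Adj a b) :
    Y.dist c b = Y.dist c a + 1 ∨ Y.dist c a = Y.dist c b + 1 := by
  have h1 := hY.dist_ne c hab
  have hab1 : Y.dist a b = 1 := SimpleGraph.dist_eq_one_iff_adj.mpr hab
  have h2 := hY.1.dist_triangle (u := c) (v := a) (w := b)
  have h3 := hY.1.dist_triangle (u := c) (v := b) (w := a)
  have e1 := Y.dist_comm (u := a) (v := b)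
  omega

theorem IsMedian.dist_two (hY : IsMedian Y) {a b x : V} (ha : Y.Adj x a) (hb : Y.Adj x b)
    (hne : a ≠ b) : Y.dist a b = 2 := by
  have h1 : Y.dist a x = 1 := SimpleGraph.dist_eq_one_iff_adj.mpr ha.symm
  have h2 := hY.dist_adj a hb
  have h3 : Y.dist a b ≠ 0 := by
    rw [Ne, hY.1.dist_eq_zero_iff]; exact hne
  omega

/-- Two vertices with three common neighbours are equal. -/
theorem IsMedian.k23 (hY : IsMedian Y) {x t a b c : V} (hxa : Y.Adj x a) (hxb : Y.Adj x b)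
    (hxc : Y.Adj x c) (hta : Y.Adj t a) (htb : Y.Adj t b) (htc : Y.Adj t c) (hab : a ≠ b)
    (hbc : b ≠ c) (hac : a ≠ c) : x = t := by
  obtain ⟨m, -, hu⟩ := hY.2 a b c
  have key : ∀ y, Y.Adj y a → Y.Adj y b → Y.Adj y c →
      Btw Y a y b ∧ Btw Y b y c ∧ Btw Y a y c := by
    intro y ha hb hc
    have h1 : Y.dist a y = 1 := SimpleGraph.dist_eq_one_iff_adj.mpr ha.symm
    have h2 : Y.dist b y = 1 := SimpleGraph.dist_eq_one_iff_adj.mpr hb.symm
    have h3 : Y.dist y b = 1 := SimpleGraph.dist_eq_one_iff_adj.mpr hb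
    have h4 : Y.dist y c = 1 := SimpleGraph.dist_eq_one_iff_adj.mpr hc
    rw [Btw, Btw, Btw, hY.dist_two ha hb hab, hY.dist_two hb hc hbc, hY.dist_two ha hc hac]
    omega
  exact (hu x (key x hxa hxb hxc)).trans (hu t (key t hta htb htc)).symm

/-- The quadrangle condition. -/
theorem IsMedian.quad (hY : IsMedian Y) {s p q c : V} (hp : Y.Adj c p) (hq : Y.Adj c q)
    (hne : p ≠ q) (h1 : Y.dist s c = Y.dist s p + 1) (h2 : Y.dist s c = Y.dist s q + 1) :
    ∃ u, Y.Adj p u ∧ Y.Adj q u ∧ Y.dist s u + 1 = Y.dist s p := by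
  obtain ⟨m, ⟨e1, e2, e3⟩, -⟩ := hY.2 s p q
  have hpq := hY.dist_two hp hq hne
  rw [Btw] at e1 e2 e3
  rw [hpq] at e2
  have e4 := Y.dist_comm (u := m) (v := p)
  have hpm : Y.dist p m = 1 := by omega
  have hmq : Y.dist m q = 1 := by omega
  exact ⟨m, SimpleGraph.dist_eq_one_iff_adj.mp hpm,
    (SimpleGraph.dist_eq_one_iff_adj.mp hmq).symm, by omega⟩

/-- The cube condition: three pairwise adjacent vertices in a link span a cube. -/
theorem IsMedian.cube (hY : IsMedian Y) {x y z c : V} (h1 : LinkAdj Y x y z)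
    (h2 : LinkAdj Y x y c) (h3 : LinkAdj Y x z c) :
    ∃ yc zc, LinkAdj Y c yc zc ∧ Y.Adj y yc ∧ Y.Adj z zc ∧ x ≠ yc ∧ x ≠ zc := by
  obtain ⟨hxy, hxz, hyz, s, hsx, hys, hzs⟩ := h1
  obtain ⟨-, hxc, hyc, yc, hycx, hyyc, hcyc⟩ := h2
  obtain ⟨-, -, hzc, zc, hzcx, hzzc, hczc⟩ := h3
  refine ⟨yc, zc, ⟨hcyc, hczc, ?_, ?_⟩, hyyc, hzzc, hycx.symm, hzcx.symm⟩
  · rintro rfl
    exact hycx (hY.k23 hxy hxz hxc hyyc.symm hzzc.symm hcyc.symm hyz hzc hyc).symm
  · -- distances from s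
    have hsy : Y.dist s y = 1 := SimpleGraph.dist_eq_one_iff_adj.mpr hys.symm
    have hsz : Y.dist s z = 1 := SimpleGraph.dist_eq_one_iff_adj.mpr hzs.symm
    have hsx2 : Y.dist s x = 2 := hY.dist_two hys hxy.symm hsx
    have hsc1 : ¬ Y.Adj s c := fun h =>
      hsx (hY.k23 hxy hxz hxc hys.symm hzs.symm h hyz hzc hyc).symm
    have hsc : Y.dist s c = 3 := by
      have h4 := hY.dist_adj s hxc
      have h5 : Y.dist s c ≠ 1 := fun h => hsc1 (SimpleGraph.dist_eq_one_iff_adj.mp h)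
      omega
    have hsyc : Y.dist s yc = 2 := by
      have h4 := hY.dist_adj s hyyc
      have h5 := hY.dist_adj s hcyc
      omega
    have hszc : Y.dist s zc = 2 := by
      have h4 := hY.dist_adj s hzzc
      have h5 := hY.dist_adj s hczc
      omega
    have hne : yc ≠ zc := by
      rintro rfl
      exact hycx (hY.k23 hxy hxz hxc hyyc.symm hzzc.symm hcyc.symm hyz hzc hyc).symm
    obtain ⟨u, hu1, hu2, hu3⟩ := hY.quad (s := s) hcyc hczc hne (by omega) (by omega)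
    refine ⟨u, ?_, hu1, hu2⟩
    rintro rfl
    omega

end Median

section Hyp

theorem Par.refl (e : V × V) : Par Y e e := Relation.EqvGen.refl e

theorem Par.symm {e f : V × V} (h : Par Y e f) : Par Y f e := Relation.EqvGen.symm _ _ h

theorem Par.trans {e f g : V × V} (h : Par Y e f) (h' : Par Y f g) : Par Y e g :=
  Relation.EqvGen.trans _ _ _ h h'

theorem hyp_eq_iff {e f : V × V} : hyp Y e = hyp Y f ↔ Par Y e f := by
  constructor
  · intro h
    have : f ∈ hyp Y f := Par.refl f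
    rw [← h] at this
    exact this
  · intro h
    ext g
    exact ⟨fun h' => h.symm.trans h', fun h' => h.trans h'⟩

theorem hyp_swap (a b : V) : hyp Y (a, b) = hyp Y (b, a) :=
  hyp_eq_iff.mpr (Relation.EqvGen.rel _ _ (Or.inl rfl))

theorem par_square {a b c d : V} (h1 : Y.Adj a b) (h2 : Y.Adj c d) (h3 : Y.Adj a c)
    (h4 : Y.Adj b d) (h5 : a ≠ d) (h6 : b ≠ c) : Par Y (a, b) (c, d) :=
  Relation.EqvGen.rel _ _ (Or.inr ⟨h1, h2, h3, h4, h5, h6⟩)

variable {G : Type*} [Group G] [MulAction G V]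

theorem Par.smul (hG : ∀ (g : G) a b, Y.Adj (g • a) (g • b) ↔ Y.Adj a b) (g : G) {e f : V × V}
    (h : Par Y e f) : Par Y (g • e) (g • f) := by
  induction h with
  | rel x y h =>
    refine Relation.EqvGen.rel _ _ ?_
    rcases h with h | ⟨h1, h2, h3, h4, h5, h6⟩
    · left; rw [h]; rfl
    · right
      refine ⟨(hG g _ _).mpr h1, (hG g _ _).mpr h2, (hG g _ _).mpr h3, (hG g _ _).mpr h4, ?_, ?_⟩
      · intro h7; exact h5 (smul_left_cancel g h7)
      · intro h7; exact h6 (smul_left_cancel g h7)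
  | refl x => exact Par.refl _
  | symm x y _ h => exact h.symm
  | trans x y z _ _ h1 h2 => exact h1.trans h2

theorem smul_hyp (hG : ∀ (g : G) a b, Y.Adj (g • a) (g • b) ↔ Y.Adj a b) (g : G) (e : V × V) :
    g • hyp Y e = hyp Y (g • e) := by
  ext f
  rw [Set.mem_smul_set_iff_inv_smul_mem]
  constructor
  · intro h
    have := Par.smul hG g h
    rwa [smul_inv_smul] at this
  · intro h
    have := Par.smul hG g⁻¹ h
    rwa [inv_smul_smul] at this

/-- Crossing hyperplanes have infinite common stabilizer. -/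
theorem infinite_inf (hY : IsMedian Y) (hG : ∀ (g : G) a b, Y.Adj (g • a) (g • b) ↔ Y.Adj a b)
    (hlf : ∀ v, (Y.neighborSet v).Finite)
    (hcoc : ∃ S : Set V, S.Finite ∧ ∀ v, ∃ g : G, ∃ s ∈ S, g • s = v)
    (hsq : ∀ v a b, LinkAdj Y v a b →
      (∃ c, LinkAdj Y v a c ∧ LinkAdj Y v b c) ∧
      ∀ c, LinkAdj Y v a c → LinkAdj Y v b c →
        ∃ c', c' ≠ c ∧ LinkAdj Y v a c' ∧ LinkAdj Y v b c' ∧ ¬ LinkAdj Y v c c')
    {v a b : V} (h : LinkAdj Y v a b) :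
    Infinite (MulAction.stabilizer G (hyp Y (v, a)) ⊓ MulAction.stabilizer G (hyp Y (v, b)) :
      Subgroup G) := by
  classical
  -- the corners at which both hyperplanes cross
  let Q : Set (V × V × V) := {q | LinkAdj Y q.1 q.2.1 q.2.2 ∧ Par Y (v, a) (q.1, q.2.1) ∧
    Par Y (v, b) (q.1, q.2.2)}
  have hQne : Q.Nonempty := ⟨(v, a, b), h, Par.refl _, Par.refl _⟩
  have hQ : Q.Infinite := by
    intro hfin
    obtain ⟨⟨x, y, z⟩, ⟨h1, h2, h3⟩, hmax⟩ :=
      Set.exists_max_image Q (fun q => Y.dist v q.1) hfin hQne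
    -- all link vertices are closer to v
    have hcl : ∀ c, LinkAdj Y x y c → LinkAdj Y x z c → Y.dist v x = Y.dist v c + 1 := by
      intro c hyc hzc
      obtain ⟨yc, zc, h4, h5, h6, h7, h8⟩ := hY.cube h1 hyc hzc
      have h9 : (c, yc, zc) ∈ Q := by
        refine ⟨h4, h2.trans ?_, h3.trans ?_⟩
        · exact par_square h1.1 h4.1 hyc.2.1 h5 h7 hyc.2.2.1
        · exact par_square h1.2.1 h4.2.1 hyc.2.1 h6 h8 hzc.2.2.1
      have h10 := hmax _ h9
      have h11 := hY.dist_adj v hyc.2.1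
      dsimp only at h10
      omega
    obtain ⟨⟨c, hc1, hc2⟩, hno⟩ := hsq x y z h1
    obtain ⟨c', hne, hc1', hc2', hnot⟩ := hno c hc1 hc2
    have d1 := hcl c hc1 hc2
    have d2 := hcl c' hc1' hc2'
    obtain ⟨u, hu1, hu2, hu3⟩ := hY.quad (s := v) hc1.2.1 hc1'.2.1 hne.symm d1 d2
    refine hnot ⟨hc1.2.1, hc1'.2.1, hne.symm, u, ?_, hu1, hu2⟩
    rintro rfl
    omega
  -- finitely many orbits of corners
  obtain ⟨S, hS, hSc⟩ := hcoc
  let T : Set (V × V × V) := S ×ˢ ((⋃ s ∈ S, Y.neighborSet s) ×ˢ (⋃ s ∈ S, Y.neighborSet s))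
  have hT : T.Finite := hS.prod ((hS.biUnion fun s _ => hlf s).prod (hS.biUnion fun s _ => hlf s))
  have hrep : ∀ q ∈ Q, ∃ t ∈ T, ∃ g : G, g • t = q := by
    rintro ⟨x, y, z⟩ ⟨h1, -, -⟩
    obtain ⟨g, s, hs, hgs⟩ := hSc x
    refine ⟨(s, g⁻¹ • y, g⁻¹ • z), ⟨hs, ?_, ?_⟩, g, ?_⟩
    · refine Set.mem_biUnion hs ?_
      change Y.Adj s (g⁻¹ • y)
      rw [← hG g, hgs, smul_inv_smul]
      exact h1.1
    · refine Set.mem_biUnion hs ?_
      change Y.Adj s (g⁻¹ • z)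
      rw [← hG g, hgs, smul_inv_smul]
      exact h1.2.1
    · change (g • s, g • g⁻¹ • y, g • g⁻¹ • z) = (x, y, z)
      rw [hgs, smul_inv_smul, smul_inv_smul]
  -- pigeonhole
  have hpig : ∃ t ∈ T, {q ∈ Q | ∃ g : G, g • t = q}.Infinite := by
    by_contra hcon
    push Not at hcon
    apply hQ
    refine (hT.biUnion (t := fun t => {q ∈ Q | ∃ g : G, g • t = q}) ?_).subset ?_
    · intro t ht
      exact hcon t ht
    · intro q hq
      obtain ⟨t, ht, g, hg⟩ := hrep q hq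
      exact Set.mem_biUnion ht ⟨hq, g, hg⟩
  obtain ⟨t, -, hinf⟩ := hpig
  obtain ⟨q₀, ⟨⟨hq1, hq2, hq3⟩, g₀, hg₀⟩⟩ := hinf.nonempty
  have hinf' : Infinite {q // q ∈ {q ∈ Q | ∃ g : G, g • t = q}} := hinf.to_subtype
  choose γ hγ using fun q : {q // q ∈ {q ∈ Q | ∃ g : G, g • t = q}} => q.2.2
  refine Infinite.of_injective
    (fun q : {q // q ∈ {q ∈ Q | ∃ g : G, g • t = q}} => (⟨γ q * g₀⁻¹, ?_⟩ :
      (MulAction.stabilizer G (hyp Y (v, a)) ⊓ MulAction.stabilizer G (hyp Y (v, b)) :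
      Subgroup G))) ?_
  · have e : (γ q * g₀⁻¹) • q₀ = q.1 := by
      rw [← hg₀, ← mul_smul, inv_mul_cancel_right, hγ]
    obtain ⟨k1, k2, k3⟩ := q.2.1
    refine ⟨?_, ?_⟩
    · change (γ q * g₀⁻¹) • hyp Y (v, a) = hyp Y (v, a)
      rw [hyp_eq_iff.mpr hq2, smul_hyp hG]
      have e1 : (γ q * g₀⁻¹) • ((q₀.1, q₀.2.1) : V × V) = (q.1.1, q.1.2.1) := by
        rw [← e]; rfl
      rw [e1, ← hyp_eq_iff.mpr hq2]
      exact (hyp_eq_iff.mpr k2).symm
    · change (γ q * g₀⁻¹) • hyp Y (v, b) = hyp Y (v, b)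
      rw [hyp_eq_iff.mpr hq3, smul_hyp hG]
      have e1 : (γ q * g₀⁻¹) • ((q₀.1, q₀.2.2) : V × V) = (q.1.1, q.1.2.2) := by
        rw [← e]; rfl
      rw [e1, ← hyp_eq_iff.mpr hq3]
      exact (hyp_eq_iff.mpr k3).symm
  · intro q q' hqq
    have h1 : γ q * g₀⁻¹ = γ q' * g₀⁻¹ := congrArg Subtype.val hqq
    have h2 : γ q = γ q' := mul_right_cancel h1
    apply Subtype.ext
    rw [← hγ q, ← hγ q', h2]

end Hyp

end Vale.Agent.P239
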