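import Vale.Agent.P239.Om

/-!
The first homology of `N ⊗_{ℤG} C_*(X)` for a free action on a contractible space.
-/

namespace Vale.Agent.P239

section ChainBasics

variable {G X : Type*} [Group G] [TopologicalSpace X] [MulAction G X] [ContinuousConstSMul G X]

/-- The class of `1 ⊗ s`. -/
noncomputable def ch (G : Type*) {X : Type*} [Group G] [TopologicalSpace X] [MulAction G X]
    [ContinuousConstSMul G X] {n : ℕ} (s : Sing X n) : Chain G X n :=
  Submodule.Quotient.mk (Finsupp.single s 1)

theorem mk_single_ch {n : ℕ} (s : Sing X n) (a : VN G) :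
    (Submodule.Quotient.mk (Finsupp.single s a) : Chain G X n) = a • ch G s := by
  rw [ch, ← Submodule.Quotient.mk_smul, Finsupp.smul_single, smul_eq_mul, mul_one]

theorem ch_smul {n : ℕ} (g : G) (s : Sing X n) : ch G (g • s) = lam g • ch G s := by
  rw [← mk_single_ch, ch, Submodule.Quotient.eq]
  have : Finsupp.single (g • s) (1 : VN G) - Finsupp.single s (lam g) =
      Finsupp.single (g • s) 1 - Finsupp.single s (1 * lam g) := by
    rw [one_mul]
  rw [this]
  exact Submodule.subset_span ⟨g, s, 1, rfl⟩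

theorem ch_span {n : ℕ} (z : Chain G X n) :
    z ∈ Submodule.span (VN G) (Set.range (ch G (X := X) (n := n))) := by
  obtain ⟨f, rfl⟩ := Submodule.Quotient.mk_surjective _ z
  induction f using Finsupp.induction_linear with
  | zero => simp
  | add f g hf hg => rw [Submodule.Quotient.mk_add]; exact Submodule.add_mem _ hf hg
  | single h a =>
    rw [mk_single_ch]
    exact Submodule.smul_mem _ _ (Submodule.subset_span ⟨h, rfl⟩)

/-- Universal property of `N ⊗_{ℤG} C_n(X)`. -/
noncomputable def Chain.lift {n : ℕ} {M : Type*} [AddCommGroup M] [Module (VN G) M]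
    (f : Sing X n → M) (hf : ∀ (g : G) s, f (g • s) = lam g • f s) : Chain G X n →ₗ[VN G] M :=
  Submodule.liftQ _ (Finsupp.lsum ℕ fun s => (LinearMap.toSpanSingleton (VN G) M (f s)))
    (by
      rw [rel, Submodule.span_le]
      rintro _ ⟨g, s, a, rfl⟩
      rw [SetLike.mem_coe, LinearMap.mem_ker, map_sub, Finsupp.lsum_single,
        Finsupp.lsum_single, LinearMap.toSpanSingleton_apply,
        LinearMap.toSpanSingleton_apply, hf, mul_smul, sub_self])

@[simp] theorem Chain.lift_ch {n : ℕ} {M : Type*} [AddCommGroup M] [Module (VN G) M]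
    (f : Sing X n → M) (hf : ∀ (g : G) s, f (g • s) = lam g • f s) (s : Sing X n) :
    Chain.lift f hf (ch G s) = f s := by
  rw [ch, Chain.lift, Submodule.liftQ_apply, Finsupp.lsum_single, LinearMap.toSpanSingleton_apply,
    one_smul]

theorem Chain.hom_ext {n : ℕ} {M : Type*} [AddCommGroup M] [Module (VN G) M]
    {f g : Chain G X n →ₗ[VN G] M} (h : ∀ s, f (ch G s) = g (ch G s)) : f = g := by
  refine LinearMap.ext fun z => ?_
  have : Submodule.span (VN G) (Set.range (ch G (X := X) (n := n))) ≤ LinearMap.eqLocus f g := by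
    rw [Submodule.span_le]
    rintro _ ⟨x, rfl⟩
    exact h x
  exact this (ch_span z)

theorem bd_ch {n : ℕ} (s : Sing X (n + 1)) :
    bd G X n (ch G s) = ∑ i : Fin (n + 2), ((-1 : ℤ) ^ (i : ℕ)) • ch G (face i s) := by
  rw [ch, bd, Submodule.mapQ_apply, Finsupp.lsum_single, LinearMap.sum_apply]
  rw [← Submodule.mkQ_apply, map_sum]
  refine Finset.sum_congr rfl fun i _ => ?_
  rw [LinearMap.smul_apply, map_zsmul]
  rfl

theorem bd_ch_zero (s : Sing X 1) :
    bd G X 0 (ch G s) = ch G (face 0 s) - ch G (face 1 s) := by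
  rw [bd_ch, Fin.sum_univ_two]
  simp [sub_eq_add_neg]

theorem bd_ch_one (s : Sing X 2) :
    bd G X 1 (ch G s) = ch G (face 0 s) - ch G (face 1 s) + ch G (face 2 s) := by
  rw [bd_ch, Fin.sum_univ_three]
  simp [sub_eq_add_neg]

/-- The `j`-th vertex of a singular simplex. -/
noncomputable def vtx {X : Type*} [TopologicalSpace X] {n : ℕ} (j : Fin (n + 1)) (s : Sing X n) :
    X := s (stdSimplex.vertex j)

theorem vtx_face {X : Type*} [TopologicalSpace X] {n : ℕ} (i : Fin (n + 2)) (j : Fin (n + 1))
    (s : Sing X (n + 1)) : vtx j (face i s) = vtx (i.succAbove j) s := by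
  change s (stdSimplex.map i.succAbove (stdSimplex.vertex j)) = s (stdSimplex.vertex (i.succAbove j))
  rw [stdSimplex.map_vertex]

theorem vtx_smul {n : ℕ} (j : Fin (n + 1)) (g : G) (s : Sing X n) :
    vtx j (g • s) = g • vtx j s := rfl

/-- A point as a singular 0-simplex. -/
def pt {X : Type*} [TopologicalSpace X] (x : X) : Sing X 0 := ContinuousMap.const _ x

theorem pt_vtx {X : Type*} [TopologicalSpace X] (s : Sing X 0) : pt (vtx 0 s) = s := by
  ext t
  rw [pt, vtx, ContinuousMap.const_apply]
  exact congrArg s (Subsingleton.elim _ _)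

theorem pt_smul (g : G) (x : X) : (pt (g • x) : Sing X 0) = g • pt x := rfl

end ChainBasics

section Cone

variable {X : Type*} [TopologicalSpace X]

/-- The collapse map `I × Δ^1 → Δ^2`. -/
noncomputable def coll : C(unitInterval × stdSimplex ℝ (Fin 2), stdSimplex ℝ (Fin 3)) where
  toFun q := ⟨![(q.1 : ℝ), (1 - q.1) * q.2 0, (1 - q.1) * q.2 1], by
    have h := stdSimplex.add_eq_one q.2
    have h1 := unitInterval.nonneg q.1
    have h2 := unitInterval.one_minus_nonneg q.1
    refine ⟨fun i => ?_, ?_⟩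
    · fin_cases i
      · exact h1
      · exact mul_nonneg h2 (stdSimplex.zero_le q.2 0)
      · exact mul_nonneg h2 (stdSimplex.zero_le q.2 1)
    · rw [Fin.sum_univ_three]
      change (q.1 : ℝ) + (1 - q.1) * q.2 0 + (1 - q.1) * q.2 1 = 1
      rw [add_assoc, ← mul_add, h]; ring⟩
  continuous_toFun := by
    refine Continuous.subtype_mk (continuous_pi fun i => ?_) _
    have h0 : Continuous fun q : unitInterval × stdSimplex ℝ (Fin 2) => (q.1 : ℝ) :=
      continuous_subtype_val.comp continuous_fst
    have h1 : ∀ j : Fin 2, Continuous fun q : unitInterval × stdSimplex ℝ (Fin 2) => q.2 j :=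
      fun j => (continuous_apply j).comp (continuous_subtype_val.comp continuous_snd)
    fin_cases i
    · exact h0
    · exact (continuous_const.sub h0).mul (h1 0)
    · exact (continuous_const.sub h0).mul (h1 1)

theorem coll0 (q : unitInterval × stdSimplex ℝ (Fin 2)) : coll q 0 = q.1 := rfl

theorem coll1 (q : unitInterval × stdSimplex ℝ (Fin 2)) : coll q 1 = (1 - q.1) * q.2 0 := rfl

theorem coll2 (q : unitInterval × stdSimplex ℝ (Fin 2)) : coll q 2 = (1 - q.1) * q.2 1 := rfl

theorem simplex_ext3 {s t : stdSimplex ℝ (Fin 3)} (h0 : s 0 = t 0) (h1 : s 1 = t 1)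
    (h2 : s 2 = t 2) : s = t := by
  refine stdSimplex.ext (funext fun i => ?_)
  match i with
  | 0 => exact h0
  | 1 => exact h1
  | 2 => exact h2

theorem coll_surj : Function.Surjective coll := by
  intro t
  have ht : t 0 + t 1 + t 2 = 1 := by
    rw [← stdSimplex.sum_eq_one t, Fin.sum_univ_three]
  have h0 := stdSimplex.zero_le t 0
  have h1 := stdSimplex.zero_le t 1
  have h2 := stdSimplex.zero_le t 2
  by_cases h : t 0 = 1
  · refine ⟨(1, stdSimplex.vertex 0), ?_⟩
    have e1 : t 1 = 0 := by linarith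
    have e2 : t 2 = 0 := by linarith
    ext i
    fin_cases i
    · exact h.symm
    · change (1 - ((1 : unitInterval) : ℝ)) * _ = t 1
      rw [e1]; simp
    · change (1 - ((1 : unitInterval) : ℝ)) * _ = t 2
      rw [e2]; simp
  · have hlt : t 0 < 1 := lt_of_le_of_ne (by linarith) h
    have hne : (1 - t 0) ≠ 0 := by linarith
    refine ⟨(⟨t 0, h0, hlt.le⟩, ⟨![t 1 / (1 - t 0), t 2 / (1 - t 0)], ?_, ?_⟩), ?_⟩
    · intro i
      fin_cases i
      · exact div_nonneg h1 (by linarith)
      · exact div_nonneg h2 (by linarith)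
    · rw [Fin.sum_univ_two]
      change t 1 / (1 - t 0) + t 2 / (1 - t 0) = 1
      rw [← add_div, div_eq_one_iff_eq hne]; linarith
    · ext i
      fin_cases i
      · rfl
      · change (1 - t 0) * (t 1 / (1 - t 0)) = t 1
        field_simp
      · change (1 - t 0) * (t 2 / (1 - t 0)) = t 2
        field_simp

theorem coll_quot : Topology.IsQuotientMap coll :=
  (coll.continuous.isClosedMap).isQuotientMap coll.continuous coll_surj

theorem map_apply_fin (f : Fin 2 → Fin 3) (u : stdSimplex ℝ (Fin 2)) (i : Fin 3) :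
    stdSimplex.map f u i = (if f 0 = i then u 0 else 0) + (if f 1 = i then u 1 else 0) := by
  rw [stdSimplex.map_coe, FunOnFinite.linearMap_apply_apply, Finset.sum_filter, Fin.sum_univ_two]

theorem face_apply {X : Type*} [TopologicalSpace X] {n : ℕ} (i : Fin (n + 2))
    (s : Sing X (n + 1)) (u : stdSimplex ℝ (Fin (n + 1))) :
    face i s u = s (stdSimplex.map i.succAbove u) := rfl

theorem exists_cone [ContractibleSpace X] : ∃ p : X → Sing X 1, ∀ s : Sing X 1,
    ∃ t : Sing X 2, face 0 t = s ∧ face 1 t = p (vtx 1 s) ∧ face 2 t = p (vtx 0 s) := by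
  obtain ⟨x₀, ⟨F⟩⟩ := id_nullhomotopic X
  have hI : ∀ u : stdSimplex ℝ (Fin 2), u 0 ∈ unitInterval := fun u =>
    ⟨stdSimplex.zero_le u 0, stdSimplex.le_one u 0⟩
  let c : C(stdSimplex ℝ (Fin 2), unitInterval) :=
    ⟨fun u => ⟨u 0, hI u⟩,
      Continuous.subtype_mk ((continuous_apply 0).comp continuous_subtype_val) _⟩
  let p : X → Sing X 1 := fun x =>
    ⟨fun u => F (c u, x), F.continuous.comp (c.continuous.prodMk continuous_const)⟩
  refine ⟨p, fun s => ?_⟩
  let g : C(unitInterval × stdSimplex ℝ (Fin 2), X) :=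
    ⟨fun q => F (q.1, s q.2), F.continuous.comp
      (continuous_fst.prodMk (s.continuous.comp continuous_snd))⟩
  have hg : Function.FactorsThrough g coll := by
    intro q q' h
    have h0 : (q.1 : ℝ) = q'.1 := congrArg (fun t => t 0) h
    have h1 : (1 - (q.1 : ℝ)) * q.2 0 = (1 - q'.1) * q'.2 0 := congrArg (fun t => t 1) h
    have h2 : (1 - (q.1 : ℝ)) * q.2 1 = (1 - q'.1) * q'.2 1 := congrArg (fun t => t 2) h
    have h0' : q.1 = q'.1 := Subtype.ext h0
    by_cases hq : q.1 = 1
    · have hq' : q'.1 = 1 := h0' ▸ hq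
      change F (q.1, s q.2) = F (q'.1, s q'.2)
      rw [hq, hq']
      simp
    · have hne : (1 - (q.1 : ℝ)) ≠ 0 := by
        intro h3
        apply hq
        apply Subtype.ext
        change (q.1 : ℝ) = 1
        linarith
      have h3 : q.2 = q'.2 := by
        ext i
        rw [← h0] at h1 h2
        fin_cases i
        · exact mul_left_cancel₀ hne h1
        · exact mul_left_cancel₀ hne h2
      change F (q.1, s q.2) = F (q'.1, s q'.2)
      rw [h0', h3]
  let t : Sing X 2 := coll_quot.lift g hg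
  have ht : ∀ q, t (coll q) = F (q.1, s q.2) := fun q => by
    have := coll_quot.lift_comp g hg
    exact congrArg (fun f => f q) this
  refine ⟨t, ?_, ?_, ?_⟩
  · ext u
    have e : (stdSimplex.map (Fin.succAbove 0) u : stdSimplex ℝ (Fin 3)) = coll (0, u) := by
      refine simplex_ext3 ?_ ?_ ?_
      · rw [map_apply_fin, coll0]; simp [Fin.succAbove]
      · rw [map_apply_fin, coll1]; simp [Fin.succAbove]
      · rw [map_apply_fin, coll2]; simp [Fin.succAbove]
    rw [face_apply, e, ht]
    simp
  · ext u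
    have e : (stdSimplex.map (Fin.succAbove 1) u : stdSimplex ℝ (Fin 3)) =
        coll (c u, stdSimplex.vertex 1) := by
      have := stdSimplex.add_eq_one u
      refine simplex_ext3 ?_ ?_ ?_
      · rw [map_apply_fin, coll0]; simp [Fin.succAbove, c]
      · rw [map_apply_fin, coll1]; simp [Fin.succAbove, c]; try linarith
      · rw [map_apply_fin, coll2]; simp [Fin.succAbove, c]; try linarith
    rw [face_apply, e, ht]
    rfl
  · ext u
    have e : (stdSimplex.map (Fin.succAbove 2) u : stdSimplex ℝ (Fin 3)) =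
        coll (c u, stdSimplex.vertex 0) := by
      have := stdSimplex.add_eq_one u
      refine simplex_ext3 ?_ ?_ ?_
      · rw [map_apply_fin, coll0]; simp [Fin.succAbove, c]
      · rw [map_apply_fin, coll1]; simp [Fin.succAbove, c]; try linarith
      · rw [map_apply_fin, coll2]; simp [Fin.succAbove, c]; try linarith
    rw [face_apply, e, ht]
    rfl

end Cone

section Iso

variable {G X : Type*} [Group G] [TopologicalSpace X] [MulAction G X] [ContinuousConstSMul G X]

set_option linter.unusedSectionVars false in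
/-- An equivariant map to `G`, from freeness. -/
theorem exists_equivariant (hfree : ∀ (g : G) (x : X), g • x = x → g = 1) :
    ∃ κ : X → G, ∀ (g : G) (x : X), κ (g • x) = g * κ x := by
  classical
  have h : ∀ x : X, ∃ g : G, g • (Quotient.out (Quotient.mk (MulAction.orbitRel G X) x)) = x := by
    intro x
    have h1 : (MulAction.orbitRel G X) x
        (Quotient.out (Quotient.mk (MulAction.orbitRel G X) x)) :=
      Quotient.exact (Quotient.out_eq (Quotient.mk (MulAction.orbitRel G X) x)).symm
    exact MulAction.mem_orbit_iff.mp (MulAction.orbitRel_apply.mp h1)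
  choose κ hκ using h
  refine ⟨κ, fun g x => ?_⟩
  have h1 := hκ (g • x)
  have h2 : (Quotient.mk (MulAction.orbitRel G X) (g • x)) =
      Quotient.mk (MulAction.orbitRel G X) x := Quotient.sound ⟨g, rfl⟩
  rw [h2] at h1
  have h3 := hκ x
  have h4 : (κ x)⁻¹ • (g⁻¹ • (κ (g • x) •
      (Quotient.out (Quotient.mk (MulAction.orbitRel G X) x)))) =
      Quotient.out (Quotient.mk (MulAction.orbitRel G X) x) := by
    rw [h1, inv_smul_smul, inv_smul_eq_iff, h3]
  rw [← mul_smul, ← mul_smul] at h4
  have h5 := hfree _ _ h4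
  rw [mul_eq_one_iff_inv_eq, mul_inv_rev, inv_inv, inv_inv] at h5
  exact h5.symm

/-- For a free action on a contractible space, `H_1(N ⊗ C_*(X))` is the kernel of
`N ⊗ I_G → N`. -/
theorem homol_one_equiv [ContractibleSpace X]
    (hfree : ∀ (g : G) (x : X), g • x = x → g = 1) :
    Nonempty (Homol G X 1 ≃ₗ[VN G] K (lamHom G)) := by
  classical
  obtain ⟨κ, hκ⟩ := exists_equivariant hfree
  obtain ⟨p, hp⟩ := exists_cone (X := X)
  -- the map Φ
  let Φ : Chain G X 1 →ₗ[VN G] Om (lamHom G) :=
    Chain.lift (fun s => om (lamHom G) (κ (vtx 1 s)) - om (lamHom G) (κ (vtx 0 s)))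
      (fun g s => by
        simp only [vtx_smul, hκ, om_mul, lamHom_apply, smul_sub]
        abel)
  have hΦ : ∀ s : Sing X 1, Φ (ch G s) =
      om (lamHom G) (κ (vtx 1 s)) - om (lamHom G) (κ (vtx 0 s)) := fun s => Chain.lift_ch _ _ s
  let Φ0 : Chain G X 0 →ₗ[VN G] VN G :=
    Chain.lift (fun s => lam (κ (vtx 0 s))) (fun g s => by
      simp only [vtx_smul, hκ, lam_mul, smul_eq_mul])
  have hΦ0 : ∀ s : Sing X 0, Φ0 (ch G s) = lam (κ (vtx 0 s)) := fun s => Chain.lift_ch _ _ s
  have hcomm : ∀ z, mu (lamHom G) (Φ z) = Φ0 (bd G X 0 z) := by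
    intro z
    have : (mu (lamHom G)).comp Φ = Φ0.comp (bd G X 0) := by
      refine Chain.hom_ext fun s => ?_
      rw [LinearMap.comp_apply, LinearMap.comp_apply, hΦ, bd_ch_zero, map_sub, map_sub, mu_om,
        mu_om, hΦ0, hΦ0, vtx_face, vtx_face]
      simp [Fin.succAbove]
    exact LinearMap.congr_fun this z
  have hbd : ∀ z, Φ (bd G X 1 z) = 0 := by
    intro z
    have : Φ.comp (bd G X 1) = 0 := by
      refine Chain.hom_ext fun s => ?_
      rw [LinearMap.comp_apply, bd_ch_one, map_add, map_sub, hΦ, hΦ, hΦ]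
      simp only [vtx_face]
      have e1 : (Fin.succAbove (0 : Fin 3) (1 : Fin 2)) = 2 := rfl
      have e2 : (Fin.succAbove (0 : Fin 3) (0 : Fin 2)) = 1 := rfl
      have e3 : (Fin.succAbove (1 : Fin 3) (1 : Fin 2)) = 2 := rfl
      have e4 : (Fin.succAbove (1 : Fin 3) (0 : Fin 2)) = 0 := rfl
      have e5 : (Fin.succAbove (2 : Fin 3) (1 : Fin 2)) = 1 := rfl
      have e6 : (Fin.succAbove (2 : Fin 3) (0 : Fin 2)) = 0 := rfl
      rw [e1, e2, e3, e4, e5, e6, LinearMap.zero_apply]
      abel
    exact LinearMap.congr_fun this z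
  -- base point
  let b : X := (κ (p (Classical.arbitrary X) (stdSimplex.vertex 0)))⁻¹ •
    (p (Classical.arbitrary X) (stdSimplex.vertex 0))
  have hb : κ b = 1 := by
    change κ (_ • _) = 1
    rw [hκ, inv_mul_cancel]
  -- the class of the path to a point
  let c : X → Chain G X 1 ⧸ LinearMap.range (bd G X 1) := fun x => Submodule.Quotient.mk (ch G (p x))
  have hc : ∀ s : Sing X 1, (Submodule.Quotient.mk (ch G s) :
      Chain G X 1 ⧸ LinearMap.range (bd G X 1)) = c (vtx 1 s) - c (vtx 0 s) := by
    intro s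
    obtain ⟨t, ht0, ht1, ht2⟩ := hp s
    rw [← Submodule.Quotient.mk_sub, Submodule.Quotient.eq]
    refine ⟨ch G t, ?_⟩
    rw [bd_ch_one, ht0, ht1, ht2]
    abel
  have hceq : ∀ (g : G) (x y : X), c (g • y) - c (g • x) = lam g • (c y - c x) := by
    intro g x y
    obtain ⟨γ⟩ := PathConnectedSpace.joined x y
    let s : Sing X 1 := ⟨fun u => γ (stdSimplexHomeomorphUnitInterval u),
      γ.continuous.comp stdSimplexHomeomorphUnitInterval.continuous⟩
    have h0 : vtx 0 s = x := by
      change γ (stdSimplexHomeomorphUnitInterval _) = x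
      rw [stdSimplexHomeomorphUnitInterval_zero, γ.source]
    have h1 : vtx 1 s = y := by
      change γ (stdSimplexHomeomorphUnitInterval _) = y
      rw [stdSimplexHomeomorphUnitInterval_one, γ.target]
    have e1 := hc s
    have e2 := hc (g • s)
    rw [h0, h1] at e1
    rw [vtx_smul, vtx_smul, h0, h1, ch_smul, Submodule.Quotient.mk_smul, e1] at e2
    exact e2.symm
  let Ψ : Om (lamHom G) →ₗ[VN G] Chain G X 1 ⧸ LinearMap.range (bd G X 1) :=
    Om.lift (lamHom G) (fun g => c (g • b) - c b) (fun g h => by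
      rw [lamHom_apply, ← hceq, mul_smul]
      abel)
  have hΨ : ∀ g, Ψ (om (lamHom G) g) = c (g • b) - c b := fun g => Om.lift_om _ _ _ g
  let P : Chain G X 0 →ₗ[VN G] Chain G X 1 ⧸ LinearMap.range (bd G X 1) :=
    Chain.lift (fun s => c (κ (vtx 0 s) • b) - c (vtx 0 s)) (fun g s => by
      rw [← hceq, vtx_smul, hκ, mul_smul])
  have hP : ∀ s : Sing X 0, P (ch G s) = c (κ (vtx 0 s) • b) - c (vtx 0 s) :=
    fun s => Chain.lift_ch _ _ s
  have hid : ∀ z : Chain G X 1, (Submodule.Quotient.mk z :
      Chain G X 1 ⧸ LinearMap.range (bd G X 1)) = Ψ (Φ z) - P (bd G X 0 z) := by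
    intro z
    have : (Submodule.mkQ (LinearMap.range (bd G X 1))) = Ψ.comp Φ - P.comp (bd G X 0) := by
      refine Chain.hom_ext fun s => ?_
      rw [Submodule.mkQ_apply, hc, LinearMap.sub_apply, LinearMap.comp_apply,
        LinearMap.comp_apply, hΦ, map_sub, hΨ, hΨ, bd_ch_zero, map_sub, hP, hP]
      simp only [vtx_face]
      have e1 : (Fin.succAbove (0 : Fin 2) (0 : Fin 1)) = 1 := rfl
      have e2 : (Fin.succAbove (1 : Fin 2) (0 : Fin 1)) = 0 := rfl
      rw [e1, e2]
      abel
    exact LinearMap.congr_fun this z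
  -- the map on homology
  let F : cyc G X 1 →ₗ[VN G] K (lamHom G) :=
    LinearMap.codRestrict _ (Φ.comp (cyc G X 1).subtype) (fun z => by
      rw [LinearMap.mem_ker, LinearMap.comp_apply, hcomm, Submodule.subtype_apply,
        (LinearMap.mem_ker.mp z.2 : bd G X 0 z = 0), map_zero])
  have hFker : LinearMap.ker F = (LinearMap.range (bd G X 1)).submoduleOf (cyc G X 1) := by
    ext z
    rw [LinearMap.mem_ker, Submodule.submoduleOf, Submodule.mem_comap, Submodule.subtype_apply]
    constructor
    · intro h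
      have h1 : Φ z = 0 := congrArg Subtype.val h
      have h2 := hid z
      rw [h1, (LinearMap.mem_ker.mp z.2 : bd G X 0 z = 0), map_zero, map_zero, sub_zero] at h2
      exact (Submodule.Quotient.mk_eq_zero _).mp h2
    · rintro ⟨y, hy⟩
      apply Subtype.ext
      change Φ z = 0
      rw [← hy, hbd]
  have hFsurj : LinearMap.range F = ⊤ := by
    rw [LinearMap.range_eq_top]
    rintro ⟨k, hk⟩
    -- choose paths
    have hpath : ∀ g : G, ∃ s : Sing X 1, vtx 0 s = b ∧ vtx 1 s = g • b := by
      intro g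
      obtain ⟨γ⟩ := PathConnectedSpace.joined b (g • b)
      refine ⟨⟨fun u => γ (stdSimplexHomeomorphUnitInterval u),
        γ.continuous.comp stdSimplexHomeomorphUnitInterval.continuous⟩, ?_, ?_⟩
      · change γ (stdSimplexHomeomorphUnitInterval _) = b
        rw [stdSimplexHomeomorphUnitInterval_zero, γ.source]
      · change γ (stdSimplexHomeomorphUnitInterval _) = g • b
        rw [stdSimplexHomeomorphUnitInterval_one, γ.target]
    choose γ hγ0 hγ1 using hpath
    let S : (G →₀ VN G) →ₗ[VN G] Chain G X 1 :=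
      Finsupp.lsum ℕ fun g => LinearMap.toSpanSingleton (VN G) _ (ch G (γ g))
    have hS : ∀ g a, S (Finsupp.single g a) = a • ch G (γ g) := fun g a => by
      simp only [S, Finsupp.lsum_single, LinearMap.toSpanSingleton_apply]
    have hΦS : Φ.comp S = (omRel (lamHom G)).mkQ := by
      refine Finsupp.lhom_ext fun g a => ?_
      rw [LinearMap.comp_apply, hS, map_smul, hΦ, hγ0, hγ1, hκ, hb, mul_one, om_one, sub_zero,
        Submodule.mkQ_apply, mk_single]
    have hbdS : (bd G X 0).comp S =
        (LinearMap.toSpanSingleton (VN G) _ (ch G (pt b))).comp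
          ((mu (lamHom G)).comp (omRel (lamHom G)).mkQ) := by
      refine Finsupp.lhom_ext fun g a => ?_
      rw [LinearMap.comp_apply, hS, map_smul, bd_ch_zero, LinearMap.comp_apply,
        LinearMap.comp_apply, Submodule.mkQ_apply, mk_single, map_smul, mu_om,
        LinearMap.toSpanSingleton_apply]
      have e1 : face 0 (γ g) = pt (g • b) := by
        rw [← pt_vtx (face 0 (γ g)), vtx_face, ← hγ1]; rfl
      have e2 : face 1 (γ g) = pt b := by
        rw [← pt_vtx (face 1 (γ g)), vtx_face]; exact congrArg pt (hγ0 g)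
      rw [e1, e2, pt_smul, ch_smul, smul_eq_mul, mul_smul, sub_smul, one_smul, lamHom_apply]
    obtain ⟨f, rfl⟩ := Submodule.Quotient.mk_surjective _ k
    have h1 : bd G X 0 (S f) = 0 := by
      have := LinearMap.congr_fun hbdS f
      rw [LinearMap.comp_apply] at this
      rw [this, LinearMap.comp_apply, LinearMap.comp_apply, Submodule.mkQ_apply,
        LinearMap.mem_ker.mp hk, map_zero]
    refine ⟨⟨S f, LinearMap.mem_ker.mpr h1⟩, Subtype.ext ?_⟩
    exact LinearMap.congr_fun hΦS f
  exact ⟨(Submodule.quotEquivOfEq _ _ hFker.symm).trans (F.quotKerEquivOfSurjective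
    (LinearMap.range_eq_top.mp hFsurj))⟩

end Iso

end Vale.Agent.P239
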