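import Vale.Agent.P239.Iface
import Vale.Agent.P239.Sing
import Vale.Agent.P239.Median

/-!
Assembly of the graph inequality for first L2-Betti numbers.
-/

namespace Vale.Agent.P239

open scoped ENNReal Pointwise

section

variable {G : Type*} [Group G]

theorem l2Betti_one_eq {X : Type*} [TopologicalSpace X] [MulAction G X] [ContinuousConstSMul G X]
    [ContractibleSpace X] (hfree : ∀ (g : G) (x : X), g • x = x → g = 1) :
    l2Betti G X 1 = vnDim G (K (lamHom G)) := by
  obtain ⟨e⟩ := homol_one_equiv (G := G) (X := X) hfree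
  exact vnDim_congr e

/-- The natural map `N ⊗_{ℤH} I_H → N ⊗_{ℤG} I_G`. -/
noncomputable def omIncl (H : Subgroup G) :
    Om ((lamHom G).comp H.subtype) →ₗ[VN G] Om (lamHom G) :=
  Om.lift _ (fun h => om (lamHom G) (h : G)) (fun h k => by
    rw [Subgroup.coe_mul, om_mul]; rfl)

theorem omIncl_om (H : Subgroup G) (h : H) :
    omIncl H (om _ h) = om (lamHom G) (h : G) := Om.lift_om _ _ _ h

theorem mu_omIncl (H : Subgroup G) (z : Om ((lamHom G).comp H.subtype)) :
    mu (lamHom G) (omIncl H z) = mu _ z := by
  have : (mu (lamHom G)).comp (omIncl H) = mu ((lamHom G).comp H.subtype) := by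
    refine Om.hom_ext fun h => ?_
    rw [LinearMap.comp_apply, omIncl_om, mu_om, mu_om]; rfl
  exact LinearMap.congr_fun this z

theorem range_omIncl (H : Subgroup G) : OmA (lamHom G) H ≤ LinearMap.range (omIncl H) := by
  rw [OmA, Submodule.span_le]
  rintro _ ⟨h, hh, rfl⟩
  exact ⟨om _ ⟨h, hh⟩, omIncl_om H ⟨h, hh⟩⟩

/-- The map on kernels. -/
noncomputable def kIncl (H : Subgroup G) :
    K ((lamHom G).comp H.subtype) →ₗ[VN G]
      (OmA (lamHom G) H ⊓ K (lamHom G) : Submodule (VN G) (Om (lamHom G))) :=
  LinearMap.codRestrict _ ((omIncl H).comp (Submodule.subtype _)) (fun z => by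
    refine ⟨?_, ?_⟩
    · have h : LinearMap.range (omIncl H) ≤ OmA (lamHom G) H := by
        rintro _ ⟨y, rfl⟩
        have hy := om_span _ y
        induction hy using Submodule.span_induction with
        | mem x hx =>
          obtain ⟨h, rfl⟩ := hx
          rw [omIncl_om]
          exact om_mem _ h.2
        | zero => rw [map_zero]; exact Submodule.zero_mem _
        | add x y _ _ hx hy => rw [map_add]; exact Submodule.add_mem _ hx hy
        | smul a x _ hx => rw [map_smul]; exact Submodule.smul_mem _ _ hx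
      exact h ⟨z, rfl⟩
    · rw [SetLike.mem_coe, LinearMap.mem_ker, LinearMap.comp_apply, mu_omIncl]
      exact z.2)

theorem kIncl_surj (H : Subgroup G) : Function.Surjective (kIncl H) := by
  rintro ⟨z, hz⟩
  obtain ⟨y, hy⟩ := range_omIncl H hz.1
  refine ⟨⟨y, ?_⟩, Subtype.ext hy⟩
  rw [LinearMap.mem_ker, ← mu_omIncl, hy]
  exact hz.2

theorem vnDim_K_le_tsum {W : Type*} [MulAction G W] (adj : W → W → Prop)
    (hconn : ∀ w w', Relation.EqvGen adj w w')
    (hadj : ∀ w w', adj w w' →
      Infinite (MulAction.stabilizer G w ⊓ MulAction.stabilizer G w' : Subgroup G))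
    {ι : Type*} (r : ι → W) (hr : ∀ w, ∃ i, ∃ g : G, g • r i = w) [Nonempty W] :
    vnDim G (K (lamHom G)) ≤
      ∑' i, vnDim (MulAction.stabilizer G (r i)) (K (lamHom (MulAction.stabilizer G (r i)))) := by
  classical
  -- the submodule generated by the stabilizer parts
  let I : Submodule (VN G) (Om (lamHom G)) :=
    ⨆ i, (OmA (lamHom G) (MulAction.stabilizer G (r i)) ⊓ K (lamHom G))
  have hI : I ≤ K (lamHom G) := iSup_le fun i => inf_le_right
  have hst : ∀ w : W, OmA (lamHom G) (MulAction.stabilizer G w) ⊓ K (lamHom G) ≤ I := by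
    intro w
    obtain ⟨i, g, rfl⟩ := hr w
    refine le_trans ?_ (le_iSup (fun i => OmA (lamHom G) (MulAction.stabilizer G (r i)) ⊓
      K (lamHom G)) i)
    rintro z ⟨hz1, hz2⟩
    refine ⟨?_, hz2⟩
    rw [MulAction.stabilizer_smul_eq_stabilizer_map_conj] at hz1
    have := OmA_conj (lamHom G) _ g z hz1
    rwa [LinearMap.mem_ker.mp hz2, zero_smul, add_zero] at this
  -- torsion
  have hT : ∀ z ∈ K (lamHom G), TM DenseId I z := by
    by_cases h : ∃ w w', adj w w'
    · obtain ⟨w, w', hww'⟩ := h
      refine graph_core denseId_isGabriel (lamHom G) (fun D hD => denseId_augId D hD) adj hconn hadj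
        w ?_ I hI hst
      have h1 := hadj w w' hww'
      exact Infinite.of_injective (Subgroup.inclusion inf_le_left)
        (Subgroup.inclusion_injective (inf_le_left : (MulAction.stabilizer G w ⊓
          MulAction.stabilizer G w' : Subgroup G) ≤ MulAction.stabilizer G w))
    · have hsub : ∀ w w' : W, w = w' := by
        intro w w'
        induction hconn w w' with
        | rel x y hxy => exact absurd ⟨x, y, hxy⟩ h
        | refl x => rfl
        | symm x y _ ih => exact ih.symm
        | trans x y z _ _ h1 h2 => exact h1.trans h2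
      intro z hz
      refine TM.of_mem denseId_isGabriel (hst (Classical.arbitrary W) ⟨?_, hz⟩)
      have htop : MulAction.stabilizer G (Classical.arbitrary W) = ⊤ := by
        rw [eq_top_iff]
        intro g _
        exact hsub _ _
      rw [htop, OmA]
      have := om_span (lamHom G) z
      rwa [← Set.image_univ] at this
  let f : I →ₗ[VN G] K (lamHom G) := Submodule.inclusion hI
  have hf : ∀ b, TM DenseId (LinearMap.range f) b := by
    rintro ⟨z, hz⟩
    refine denseId_isGabriel.mono ?_ (hT z hz)
    intro x hx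
    exact ⟨⟨x • z, hx⟩, rfl⟩
  calc vnDim G (K (lamHom G))
      ≤ vnDim G I := vnDim_le_of_dense_range f hf
    _ ≤ ∑' i, vnDim G (OmA (lamHom G) (MulAction.stabilizer G (r i)) ⊓ K (lamHom G) :
          Submodule (VN G) (Om (lamHom G))) := vnDim_iSup_le _
    _ ≤ _ := ENNReal.tsum_le_tsum fun i =>
        (vnDim_le_of_surjective (kIncl _) (kIncl_surj _)).trans (vnDim_K_le _)

/-- The graph inequality, for a free action on a contractible space. -/
theorem l2Betti_le_tsum {X : Type*} [TopologicalSpace X] [MulAction G X] [ContinuousConstSMul G X]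
    [ContractibleSpace X] (hfree : ∀ (g : G) (x : X), g • x = x → g = 1)
    {W : Type*} [MulAction G W] (adj : W → W → Prop)
    (hconn : ∀ w w', Relation.EqvGen adj w w')
    (hadj : ∀ w w', adj w w' →
      Infinite (MulAction.stabilizer G w ⊓ MulAction.stabilizer G w' : Subgroup G))
    {ι : Type*} (r : ι → W) (hr : ∀ w, ∃ i, ∃ g : G, g • r i = w) [Nonempty W] :
    l2Betti G X 1 ≤ ∑' i, l2Betti (MulAction.stabilizer G (r i)) X 1 := by
  rw [l2Betti_one_eq hfree]
  refine (vnDim_K_le_tsum adj hconn hadj r hr).trans (ENNReal.tsum_le_tsum fun i => ?_)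
  rw [l2Betti_one_eq (G := MulAction.stabilizer G (r i)) (X := X)]
  rintro ⟨g, hg⟩ x hx
  exact Subtype.ext (hfree g x hx)

end

end Vale.Agent.P239
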