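import Vale.Agent.P239.Std
import Vale.Agent.P239.Assembly

/-!
The compact definitions agree with the operator-theoretic ones.
-/

namespace Vale.Agent.P239

open scoped ENNReal Matrix

section Elementary

variable {R : Type*} [Ring R] (t : R → ℂ)

/-- elementary form of the dimension -/
theorem dimOf_eq (M : Type*) [AddCommGroup M] [Module R M] :
    dimOf t M = sSup {d | ∃ (n : ℕ) (A : Matrix (Fin n) (Fin n) R) (v : Fin n → M), A * A = A ∧
      (∀ a : Fin n → R, ∑ i, a i • v i = 0 ↔ a ᵥ* A = 0) ∧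
      d = ENNReal.ofReal (∑ i, t (A i i)).re} := by
  rw [dimOf]
  congr 1
  ext d
  constructor
  · rintro ⟨P, n, A, hA, ⟨e⟩, rfl⟩
    refine ⟨n, A, fun i => (e.symm (A.vecMulLinear.rangeRestrict (Pi.single i 1)) : M), hA,
      fun a => ?_, rfl⟩
    have h1 : ∑ i, a i • (e.symm (A.vecMulLinear.rangeRestrict (Pi.single i 1)) : M) =
        (e.symm (A.vecMulLinear.rangeRestrict a) : M) := by
      have h2 : a = ∑ i, a i • (Pi.single i (1 : R) : Fin n → R) := by
        funext j
        simp [Finset.sum_apply, Pi.single_apply]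
      conv_rhs => rw [h2]
      simp only [map_sum, map_smul, Submodule.coe_sum, Submodule.coe_smul]
    rw [h1]
    constructor
    · intro h
      have h3 : e.symm (A.vecMulLinear.rangeRestrict a) = 0 := Subtype.ext h
      rw [LinearEquiv.map_eq_zero_iff] at h3
      exact congrArg Subtype.val h3
    · intro h
      have h3 : A.vecMulLinear.rangeRestrict a = 0 := Subtype.ext h
      rw [h3, map_zero]; rfl
  · rintro ⟨n, A, v, hA, hv, rfl⟩
    let f : (Fin n → R) →ₗ[R] M := Fintype.linearCombination R v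
    have hf : ∀ a, f a = ∑ i, a i • v i := fun a => Fintype.linearCombination_apply R v a
    have hk : LinearMap.ker f = LinearMap.ker A.vecMulLinear := by
      ext a
      rw [LinearMap.mem_ker, LinearMap.mem_ker, hf, hv]; rfl
    exact ⟨LinearMap.range f, n, A, hA, ⟨f.quotKerEquivRange.symm.trans
      ((Submodule.quotEquivOfEq _ _ hk).trans A.vecMulLinear.quotKerEquivRange)⟩, rfl⟩

theorem quoDim_eq {M : Type*} [AddCommGroup M] [Module R M] (Z B : Submodule R M) :
    quoDim t Z B = sSup {d | ∃ (n : ℕ) (A : Matrix (Fin n) (Fin n) R) (v : Fin n → M),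
      (∀ i, v i ∈ Z) ∧ A * A = A ∧ (∀ a : Fin n → R, ∑ i, a i • v i ∈ B ↔ a ᵥ* A = 0) ∧
      d = ENNReal.ofReal (∑ i, t (A i i)).re} := by
  rw [quoDim, dimOf_eq]
  congr 1
  ext d
  have key : ∀ (n : ℕ) (a : Fin n → R) (w : Fin n → Z),
      (∑ i, a i • (B.submoduleOf Z).mkQ (w i) = 0 ↔ ∑ i, a i • (w i : M) ∈ B) := by
    intro n a w
    have h1 : ∑ i, a i • (B.submoduleOf Z).mkQ (w i) = (B.submoduleOf Z).mkQ (∑ i, a i • w i) := by
      rw [map_sum]; simp only [map_smul]
    rw [h1, Submodule.mkQ_apply, Submodule.Quotient.mk_eq_zero, Submodule.submoduleOf,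
      Submodule.mem_comap]
    simp
  constructor
  · rintro ⟨n, A, v, hA, hv, rfl⟩
    choose w hw using fun i => Submodule.mkQ_surjective (B.submoduleOf Z) (v i)
    refine ⟨n, A, fun i => w i, fun i => (w i).2, hA, fun a => ?_, rfl⟩
    rw [← hv, ← key]
    simp only [hw]
  · rintro ⟨n, A, v, hZ, hA, hv, rfl⟩
    refine ⟨n, A, fun i => (B.submoduleOf Z).mkQ ⟨v i, hZ i⟩, hA, fun a => ?_, rfl⟩
    rw [key n a (fun i => ⟨v i, hZ i⟩)]
    exact hv a

end Elementary

section Transfer

variable {R R' : Type*} [Ring R] [Ring R'] (e : R ≃+* R') {t : R → ℂ} {t' : R' → ℂ}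
  (ht : ∀ a, t' (e a) = t a)

include ht in
theorem quoDim_le_of_ringEquiv {M M' : Type*} [AddCommGroup M] [Module R M] [AddCommGroup M']
    [Module R' M'] (φ : M ≃+ M') (hφ : ∀ a m, φ (a • m) = e a • φ m) {Z B : Submodule R M}
    {Z' B' : Submodule R' M'} (hZ : ∀ m, φ m ∈ Z' ↔ m ∈ Z) (hB : ∀ m, φ m ∈ B' ↔ m ∈ B) :
    quoDim t Z B ≤ quoDim t' Z' B' := by
  rw [quoDim_eq, quoDim_eq]
  refine sSup_le_sSup ?_
  rintro d ⟨n, A, v, hvZ, hA, hv, rfl⟩
  refine ⟨n, A.map e, fun i => φ (v i), fun i => (hZ _).mpr (hvZ i), ?_, fun a => ?_, ?_⟩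
  · rw [← Matrix.map_mul, hA]
  · have h1 : ∑ i, a i • φ (v i) = φ (∑ i, e.symm (a i) • v i) := by
      rw [map_sum]
      simp only [hφ, RingEquiv.apply_symm_apply]
    rw [h1, hB, hv]
    have h2 : ∀ j, ((fun i => e.symm (a i)) ᵥ* A) j = e.symm ((a ᵥ* A.map e) j) := by
      intro j
      simp only [Matrix.vecMul, dotProduct, map_sum, map_mul, Matrix.map_apply,
        RingEquiv.symm_apply_apply]
    constructor
    · intro h
      funext j
      have := congrFun h j
      rw [h2] at this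
      simpa using this
    · intro h
      funext j
      rw [h2, h]; simp
  · congr 2
    refine Finset.sum_congr rfl fun i _ => ?_
    rw [Matrix.map_apply, ht]

include ht in
theorem quoDim_eq_of_ringEquiv {M M' : Type*} [AddCommGroup M] [Module R M] [AddCommGroup M']
    [Module R' M'] (φ : M ≃+ M') (hφ : ∀ a m, φ (a • m) = e a • φ m) {Z B : Submodule R M}
    {Z' B' : Submodule R' M'} (hZ : ∀ m, φ m ∈ Z' ↔ m ∈ Z) (hB : ∀ m, φ m ∈ B' ↔ m ∈ B) :
    quoDim t Z B = quoDim t' Z' B' := by
  refine le_antisymm (quoDim_le_of_ringEquiv e ht φ hφ hZ hB)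
    (quoDim_le_of_ringEquiv e.symm (fun a => ?_) φ.symm (fun a m => ?_) (fun m => ?_) fun m => ?_)
  · rw [← ht, RingEquiv.apply_symm_apply]
  · rw [AddEquiv.symm_apply_eq, hφ, RingEquiv.apply_symm_apply, AddEquiv.apply_symm_apply]
  · rw [← hZ, AddEquiv.apply_symm_apply]
  · rw [← hB, AddEquiv.apply_symm_apply]

variable {G S T U : Type*} [Group G] [MulAction G S] [MulAction G T]

/-- The change of coefficients. -/
noncomputable def coeffEquiv (S : Type*) : (S →₀ R) ≃+ (S →₀ R') :=
  Finsupp.mapRange.addEquiv e.toAddEquiv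

theorem coeffEquiv_single (s : S) (a : R) : coeffEquiv e S (.single s a) = .single s (e a) := by
  simp [coeffEquiv]

theorem coeffEquiv_smul (a : R) (m : S →₀ R) :
    coeffEquiv e S (a • m) = e a • coeffEquiv e S m := by
  ext s
  simp [coeffEquiv]

theorem coeffEquiv_symm (m : S →₀ R') : (coeffEquiv e S).symm m = coeffEquiv e.symm S m := by
  ext s
  rfl

theorem coeffEquiv_rel {u : G → R} {u' : G → R'} (hu : ∀ g, u' g = e (u g)) (m : S →₀ R)
    (hm : m ∈ tensorRel u S) : coeffEquiv e S m ∈ tensorRel u' S := by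
  rw [tensorRel] at hm
  induction hm using Submodule.span_induction with
  | mem x hx =>
    obtain ⟨g, s, a, rfl⟩ := hx
    rw [map_sub, coeffEquiv_single, coeffEquiv_single, map_mul, ← hu]
    exact Submodule.subset_span ⟨g, s, e a, rfl⟩
  | zero => rw [map_zero]; exact Submodule.zero_mem _
  | add x y _ _ hx hy => rw [map_add]; exact Submodule.add_mem _ hx hy
  | smul a x _ hx => rw [coeffEquiv_smul]; exact Submodule.smul_mem _ _ hx

theorem coeffEquiv_rel_iff {u : G → R} {u' : G → R'} (hu : ∀ g, u' g = e (u g)) (m : S →₀ R) :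
    coeffEquiv e S m ∈ tensorRel u' S ↔ m ∈ tensorRel u S := by
  refine ⟨fun h => ?_, coeffEquiv_rel e hu m⟩
  have := coeffEquiv_rel e.symm (u := u') (u' := u) (fun g => by rw [hu, e.symm_apply_apply]) _ h
  rwa [← coeffEquiv_symm, AddEquiv.symm_apply_apply] at this

theorem coeffEquiv_bdry {m : ℕ} (d : Fin m → T → S) (x : T →₀ R) :
    coeffEquiv e S (bdry R d x) = bdry R' d (coeffEquiv e T x) := by
  induction x using Finsupp.induction_linear with
  | zero => simp only [map_zero]
  | add x y hx hy => simp only [map_add, hx, hy]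
  | single s a =>
    rw [coeffEquiv_single, bdry, bdry, Finsupp.linearCombination_single,
      Finsupp.linearCombination_single, coeffEquiv_smul, map_sum]
    simp only [coeffEquiv_single, map_pow, map_neg, map_one]

include ht in
theorem homDim_eq_of_ringEquiv {u : G → R} {u' : G → R'} (hu : ∀ g, u' g = e (u g)) {m n : ℕ}
    (d : Fin m → T → S) (d' : Fin n → U → T) : homDim t u d d' = homDim t' u' d d' := by
  refine quoDim_eq_of_ringEquiv e ht (coeffEquiv e T) (coeffEquiv_smul e) (fun x => ?_)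
    fun x => ?_
  · rw [Submodule.mem_comap, Submodule.mem_comap, ← coeffEquiv_bdry, coeffEquiv_rel_iff e hu]
  · rw [Submodule.mem_sup, Submodule.mem_sup]
    constructor
    · rintro ⟨_, ⟨y, rfl⟩, z, hz, h⟩
      obtain ⟨y, rfl⟩ := (coeffEquiv e U).surjective y
      obtain ⟨z, rfl⟩ := (coeffEquiv e T).surjective z
      refine ⟨_, ⟨y, rfl⟩, z, (coeffEquiv_rel_iff e hu z).mp hz, ?_⟩
      apply (coeffEquiv e T).injective
      rw [map_add, coeffEquiv_bdry, h]
    · rintro ⟨_, ⟨y, rfl⟩, z, hz, rfl⟩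
      exact ⟨_, ⟨coeffEquiv e U y, rfl⟩, coeffEquiv e T z, (coeffEquiv_rel_iff e hu z).mpr hz, by
        rw [map_add, coeffEquiv_bdry]⟩

end Transfer

section Concrete

variable {G : Type*} [Group G]

theorem NG.add_fn (a b : NG G) (x : G) : (a + b).fn x = a.fn x + b.fn x :=
  ((NG.exists_ring G).choose_spec a b x).1

theorem NG.mul_fn (a b : NG G) (x : G) : (a * b).fn x = ∑' y, a.fn (x * y⁻¹) * b.fn y :=
  ((NG.exists_ring G).choose_spec a b x).2

theorem NG.equivVN_add (a b : NG G) :
    NG.equivVN G (a + b) = NG.equivVN G a + NG.equivVN G b := by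
  refine VN.op_ext_one (lp.ext (funext fun x => ?_))
  rw [NG.equivVN_op, map_add VN.op, add_apply, lp.coeFn_add, Pi.add_apply, NG.equivVN_op,
    NG.equivVN_op, NG.add_fn]

theorem NG.equivVN_mul (a b : NG G) :
    NG.equivVN G (a * b) = NG.equivVN G a * NG.equivVN G b := by
  refine VN.op_ext_one (lp.ext (funext fun x => ?_))
  rw [NG.equivVN_op, map_mul VN.op, mul_apply_eq_comp, NG.mul_fn,
    ← (VN.hasSum_op (NG.equivVN G a) _ x).tsum_eq]
  simp only [NG.equivVN_op]

/-- The ring isomorphism. -/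
noncomputable def NG.ringEquivVN (G : Type*) [Group G] : NG G ≃+* VN G :=
  { NG.equivVN G with
    map_add' := NG.equivVN_add
    map_mul' := NG.equivVN_mul }

theorem NG.ringEquivVN_op (a : NG G) (x : G) : (NG.ringEquivVN G a).op (dl 1) x = a.fn x :=
  NG.equivVN_op a x

theorem NG.ringEquivVN_of (g : G) : NG.ringEquivVN G (NG.of g) = lam g := by
  classical
  refine VN.op_ext_one (lp.ext (funext fun x => ?_))
  rw [NG.ringEquivVN_op, lam_dl, mul_one, dl_apply]
  rfl

theorem NG.tr_ringEquivVN (a : NG G) : tr (NG.ringEquivVN G a) = a.fn 1 := by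
  rw [tr_eq, inner_dl, NG.ringEquivVN_op]

theorem vnDim_eq_dimOf (M : Type*) [AddCommGroup M] [Module (VN G) M] :
    vnDim G M = dimOf (tr (G := G)) M := by
  apply le_antisymm
  · refine iSup_le fun P => iSup_le fun n => iSup_le fun A => iSup_le fun hA => iSup_le fun he => ?_
    exact le_sSup ⟨P, n, A, hA, he, rfl⟩
  · refine sSup_le ?_
    rintro d ⟨P, n, A, hA, he, rfl⟩
    exact le_iSup_of_le P (le_iSup_of_le n (le_iSup_of_le A (le_iSup_of_le hA
      (le_iSup_of_le he le_rfl))))

theorem homDim_NG {S T U : Type*} [MulAction G S] [MulAction G T] {m n : ℕ}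
    (d : Fin m → T → S) (d' : Fin n → U → T) :
    homDim (fun a : NG G => a.fn 1) NG.of d d' = homDim (tr (G := G)) lam d d' :=
  homDim_eq_of_ringEquiv (NG.ringEquivVN G) (fun a => NG.tr_ringEquivVN a)
    (fun g => (NG.ringEquivVN_of g).symm) d d'

theorem quoDim_comap {R : Type*} [Ring R] (t : R → ℂ) {M M' : Type*} [AddCommGroup M]
    [Module R M] [AddCommGroup M'] [Module R M'] (π : M →ₗ[R] M') (hπ : Function.Surjective π)
    (Z B : Submodule R M') : quoDim t (Z.comap π) (B.comap π) = quoDim t Z B := by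
  rw [quoDim_eq, quoDim_eq]
  congr 1
  ext d
  constructor
  · rintro ⟨n, A, v, hZ, hA, hv, rfl⟩
    refine ⟨n, A, fun i => π (v i), hZ, hA, fun a => ?_, rfl⟩
    rw [← hv, Submodule.mem_comap, map_sum]
    simp only [map_smul]
  · rintro ⟨n, A, v, hZ, hA, hv, rfl⟩
    choose w hw using fun i => hπ (v i)
    refine ⟨n, A, w, fun i => ?_, hA, fun a => ?_, rfl⟩
    · rw [Submodule.mem_comap, hw]; exact hZ i
    · rw [← hv, Submodule.mem_comap, map_sum]
      simp only [map_smul, hw]

variable (G) (X : Type*) [TopologicalSpace X] [MulAction G X] [ContinuousConstSMul G X]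

theorem tensorRel_eq (n : ℕ) : tensorRel (lam (G := G)) (Sing X n) = rel G X n := rfl

theorem bdry_eq (n : ℕ) (z : Sing X (n + 1) →₀ VN G) :
    (rel G X n).mkQ (bdry (VN G) (face (X := X) (n := n)) z) =
      bd G X n ((rel G X (n + 1)).mkQ z) := by
  rw [bd, Submodule.mkQ_apply, Submodule.mkQ_apply, Submodule.mapQ_apply]
  congr 1
  induction z using Finsupp.induction_linear with
  | zero => simp only [map_zero]
  | add x y hx hy => simp only [map_add, hx, hy]
  | single s a =>
    rw [bdry, Finsupp.linearCombination_single, Finsupp.lsum_single, LinearMap.sum_apply,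
      Finset.smul_sum]
    refine Finset.sum_congr rfl fun i _ => ?_
    rw [Finsupp.smul_single, LinearMap.smul_apply, Finsupp.lsingle_apply, Finsupp.smul_single]
    congr 1
    rcases neg_one_pow_eq_or ℤ (i : ℕ) with h | h
    · have h' : (-1 : VN G) ^ (i : ℕ) = 1 := by
        have := congrArg (Int.cast : ℤ → VN G) h
        simpa using this
      rw [h, h', one_smul, smul_eq_mul, mul_one]
    · have h' : (-1 : VN G) ^ (i : ℕ) = -1 := by
        have := congrArg (Int.cast : ℤ → VN G) h
        simpa using this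
      rw [h, h', neg_one_smul, smul_eq_mul, mul_neg, mul_one]

theorem homol_eq (n : ℕ) :
    vnDim G (Homol G X (n + 1)) =
      homDim (tr (G := G)) lam (face (X := X) (n := n)) (face (X := X) (n := n + 1)) := by
  rw [vnDim_eq_dimOf]
  change quoDim (tr (G := G)) (cyc G X (n + 1)) (LinearMap.range (bd G X (n + 1))) = _
  rw [← quoDim_comap _ (rel G X (n + 1)).mkQ (Submodule.mkQ_surjective _)]
  rw [homDim]
  congr 1
  · ext z
    rw [Submodule.mem_comap, Submodule.mem_comap, cyc, LinearMap.mem_ker, ← bdry_eq,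
      Submodule.mkQ_apply, Submodule.Quotient.mk_eq_zero]
    rfl
  · ext z
    rw [Submodule.mem_comap, Submodule.mem_sup]
    constructor
    · rintro ⟨w, hw⟩
      obtain ⟨w, rfl⟩ := Submodule.mkQ_surjective _ w
      rw [← bdry_eq] at hw
      refine ⟨_, ⟨w, rfl⟩, z - bdry (VN G) (face (X := X) (n := n + 1)) w, ?_, by abel⟩
      rw [tensorRel_eq, ← Submodule.Quotient.mk_eq_zero, Submodule.Quotient.mk_sub]
      exact sub_eq_zero.mpr hw.symm
    · rintro ⟨_, ⟨w, rfl⟩, y, hy, rfl⟩
      refine ⟨(rel G X (n + 1 + 1)).mkQ w, ?_⟩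
      rw [← bdry_eq, map_add]
      have : (rel G X (n + 1)).mkQ y = 0 := by
        rw [Submodule.mkQ_apply, Submodule.Quotient.mk_eq_zero]; exact hy
      rw [this, add_zero]

theorem bettiTwo_succ (n : ℕ) : bettiTwo G X (n + 1) = l2Betti G X (n + 1) := by
  rw [l2Betti, homol_eq]
  exact homDim_NG _ _

end Concrete

end Vale.Agent.P239
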