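import Vale.Agent.P239.AmenDef
import Vale.Agent.P239.Fiber
import Vale.Agent.P239.Transfer

/-! Amenable groups have vanishing first L2-Betti number. -/

set_option linter.unusedSectionVars false

namespace Vale.Agent.P239

open scoped ENNReal InnerProductSpace Matrix
open Matrix

/-- trace of an orthogonal projection compressed to an orthonormal family is bounded by the rank -/
theorem sum_sq_proj_le {E : Type*} [NormedAddCommGroup E] [InnerProductSpace ℂ E] {I : Type*}
    [Fintype I] (T : E →ₗ[ℂ] E) (hsym : ∀ x y, ⟪T x, y⟫_ℂ = ⟪x, T y⟫_ℂ)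
    (hidem : ∀ x, T (T x) = T x) (e : I → E) (he : Orthonormal ℂ e) {B : Type*} [Fintype B]
    (L : E →ₗ[ℂ] (B → ℂ))
    (hL : ∀ v ∈ Submodule.span ℂ (Set.range fun i => T (e i)), L v = 0 → v = 0) :
    ∑ i, ‖T (e i)‖ ^ 2 ≤ Fintype.card B := by
  classical
  set W : Submodule ℂ E := Submodule.span ℂ (Set.range fun i => T (e i)) with hW
  have hfd : FiniteDimensional ℂ W := FiniteDimensional.span_of_finite ℂ (Set.finite_range _)
  have hdim : Module.finrank ℂ W ≤ Fintype.card B := by
    have h1 := LinearMap.finrank_le_finrank_of_injective (f := L.comp W.subtype) (by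
      rw [← LinearMap.ker_eq_bot, LinearMap.ker_eq_bot']
      rintro ⟨v, hv⟩ h0
      exact Subtype.ext (hL v hv h0))
    rwa [Module.finrank_fintype_fun_eq_card] at h1
  have hTW : ∀ v ∈ W, T v = v := by
    intro v hv
    induction hv using Submodule.span_induction with
    | mem x hx => obtain ⟨i, rfl⟩ := hx; exact hidem _
    | zero => exact map_zero _
    | add x y _ _ hx hy => rw [map_add, hx, hy]
    | smul a x _ hx => rw [map_smul, hx]
  let b := stdOrthonormalBasis ℂ W
  have h2 : ∀ i, ‖T (e i)‖ ^ 2 = ∑ k, ‖⟪e i, (b k : E)⟫_ℂ‖ ^ 2 := by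
    intro i
    have hm : T (e i) ∈ W := Submodule.subset_span ⟨i, rfl⟩
    have h3 := b.sum_sq_norm_inner_right (⟨T (e i), hm⟩ : W)
    have h4 : ‖(⟨T (e i), hm⟩ : W)‖ = ‖T (e i)‖ := rfl
    rw [h4] at h3
    rw [← h3]
    refine Finset.sum_congr rfl fun k _ => ?_
    have h5 : ⟪b k, (⟨T (e i), hm⟩ : W)⟫_ℂ = ⟪(b k : E), T (e i)⟫_ℂ := rfl
    rw [h5, ← hsym, hTW _ (b k).2, norm_inner_symm]
  calc ∑ i, ‖T (e i)‖ ^ 2 = ∑ i, ∑ k, ‖⟪e i, (b k : E)⟫_ℂ‖ ^ 2 := Finset.sum_congr rfl fun i _ => h2 i
    _ = ∑ k, ∑ i, ‖⟪e i, (b k : E)⟫_ℂ‖ ^ 2 := Finset.sum_comm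
    _ ≤ ∑ k : Fin (Module.finrank ℂ W), (1 : ℝ) := by
        refine Finset.sum_le_sum fun k _ => ?_
        have h6 := he.sum_inner_products_le (b k : E) (s := Finset.univ)
        have h7 : ‖(b k : E)‖ = 1 := b.orthonormal.1 k
        rw [h7, one_pow] at h6
        exact h6
    _ = Module.finrank ℂ W := by simp
    _ ≤ Fintype.card B := by exact_mod_cast hdim

section setup

variable {G : Type*} [Group G]

/-- the vector of `ℓ²(G)` of a finitely supported function -/
noncomputable def toL (f : G →₀ ℂ) : L2 G := f.sum fun g a => a • dl g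

theorem toL_add (f g : G →₀ ℂ) : toL (f + g) = toL f + toL g :=
  Finsupp.sum_add_index' (by simp) (by intro a b c; rw [add_smul])

theorem toL_single (g : G) (a : ℂ) : toL (Finsupp.single g a) = a • dl g :=
  Finsupp.sum_single_index (by simp)

theorem toL_apply (f : G →₀ ℂ) (x : G) : toL f x = f x := by
  induction f using Finsupp.induction_linear with
  | zero =>
    have : toL (0 : G →₀ ℂ) = 0 := Finsupp.sum_zero_index
    rw [this]; rfl
  | add f g hf hg =>
    rw [toL_add, Finsupp.add_apply, ← hf, ← hg]; rfl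
  | single g a =>
    classical
    rw [toL_single, lp.coeFn_smul, Pi.smul_apply, dl_apply, Finsupp.single_apply, smul_eq_mul]
    by_cases h : g = x
    · rw [if_pos h, if_pos h.symm, mul_one]
    · rw [if_neg h, if_neg (Ne.symm h), mul_zero]

/-- the operator of a finitely supported function (adjoint version) -/
noncomputable def toN (f : G →₀ ℂ) : VN G := f.sum fun g a => star a • lam g⁻¹

theorem toN_add (f g : G →₀ ℂ) : toN (f + g) = toN f + toN g :=
  Finsupp.sum_add_index' (by simp) (by intro a b c; rw [star_add, add_smul])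

theorem toN_zero : toN (0 : G →₀ ℂ) = 0 := Finsupp.sum_zero_index

theorem toL_zero : toL (0 : G →₀ ℂ) = 0 := Finsupp.sum_zero_index

theorem toN_single (g : G) (a : ℂ) : toN (Finsupp.single g a) = star a • lam g⁻¹ :=
  Finsupp.sum_single_index (by simp)

theorem star_toN_op (f : G →₀ ℂ) : (star (toN f)).op (dl 1) = toL f := by
  induction f using Finsupp.induction_linear with
  | zero => rw [toN_zero, toL_zero, star_zero, map_zero]; rfl
  | add f g hf hg => rw [toN_add, toL_add, star_add, map_add, ← hf, ← hg]; rfl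
  | single g a =>
    rw [toN_single, toL_single, star_smul, star_star, star_lam, inv_inv, map_smul]
    change a • (lam g).op (dl 1) = _
    rw [lam_dl, mul_one]

/-- the element of `Om` of a finitely supported function -/
noncomputable def toOm (f : G →₀ ℂ) : Om (lamHom G) :=
  f.sum fun g a => algebraMap ℂ (VN G) (star a) • om (lamHom G) g⁻¹

theorem toOm_add (f g : G →₀ ℂ) : toOm (f + g) = toOm f + toOm g :=
  Finsupp.sum_add_index' (by simp) (by intro a b c; rw [star_add, map_add, add_smul])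

theorem toOm_zero : toOm (0 : G →₀ ℂ) = 0 := Finsupp.sum_zero_index

theorem toOm_single (g : G) (a : ℂ) :
    toOm (Finsupp.single g a) = algebraMap ℂ (VN G) (star a) • om (lamHom G) g⁻¹ :=
  Finsupp.sum_single_index (by simp)

/-- additive version -/
noncomputable def toOmA : (G →₀ ℂ) →+ Om (lamHom G) where
  toFun := toOm
  map_zero' := toOm_zero
  map_add' := toOm_add

theorem toN_smul_om (f : G →₀ ℂ) (s : G) :
    toN f • om (lamHom G) s = toOm (f.mapDomain (s⁻¹ * ·)) - toOm f := by
  induction f using Finsupp.induction_linear with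
  | zero => rw [toN_zero, Finsupp.mapDomain_zero, toOm_zero, zero_smul, sub_zero]
  | add f g hf hg =>
    rw [toN_add, add_smul, hf, hg, Finsupp.mapDomain_add, toOm_add, toOm_add]; abel
  | single g a =>
    rw [toN_single, Finsupp.mapDomain_single, toOm_single, toOm_single, _root_.mul_inv_rev, inv_inv,
      om_mul, smul_add, add_sub_cancel_left, lamHom_apply, ← mul_smul, Algebra.smul_def]

variable {ι : Type} [Fintype ι] [DecidableEq ι] (s : ι → G)

/-- the map `N^ι → Om` -/
noncomputable def psi : (ι → VN G) →ₗ[VN G] Om (lamHom G) :=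
  Fintype.linearCombination (VN G) (fun i => om (lamHom G) (s i))

theorem psi_apply (k : ι → VN G) : psi s k = ∑ i, k i • om (lamHom G) (s i) :=
  Fintype.linearCombination_apply _ _ _

/-- the divergence operator on `ℓ²` -/
noncomputable def AA : HH ι G →L[ℂ] L2 G :=
  ∑ i, ((lam (s i)⁻¹ - 1 : VN G).op).comp (prj ι G i)

theorem AA_eq (v : HH ι G) : AA s v = ∑ i, (lam (s i)⁻¹ - 1 : VN G).op (v i) := by
  rw [AA, _root_.sum_apply]; rfl

theorem AA_apply (v : HH ι G) (x : G) : AA s v x = ∑ i, (v i (s i * x) - v i x) := by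
  rw [AA_eq, lp.coeFn_sum, Finset.sum_apply]
  refine Finset.sum_congr rfl fun i _ => ?_
  rw [map_sub, map_one]
  change (lam (s i)⁻¹).op (v i) x - v i x = _
  rw [lam_op_apply, inv_inv]

theorem AA_vec (k : ι → VN G) : AA s (vec k) = (star (mu (lamHom G) (psi s k))).op (dl 1) := by
  rw [AA_eq, psi_apply, map_sum, star_sum, map_sum, _root_.sum_apply]
  refine Finset.sum_congr rfl fun i _ => ?_
  rw [vec_apply, map_smul, mu_om, smul_eq_mul, star_mul, star_sub, star_one, lamHom_apply,
    star_lam, map_mul, mul_apply_eq_comp]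

/-- relations after applying `mu` -/
noncomputable def K1 : Submodule (VN G) (ι → VN G) := LinearMap.ker ((mu (lamHom G)).comp (psi s))

/-- relations in `Om` -/
noncomputable def K2 : Submodule (VN G) (ι → VN G) := LinearMap.ker (psi s)

theorem K2_le : K2 s ≤ K1 s := by
  intro k hk
  rw [K2, LinearMap.mem_ker] at hk
  rw [K1, LinearMap.mem_ker, LinearMap.comp_apply, hk, map_zero]

theorem AA_UU (v : HH ι G) (hv : v ∈ UU (K1 s)) : AA s v = 0 := by
  have h1 : vecSub (K1 s) ≤ LinearMap.ker (AA s : HH ι G →ₗ[ℂ] L2 G) := by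
    rintro _ ⟨k, hk, rfl⟩
    rw [LinearMap.mem_ker]
    change AA s (vec k) = 0
    rw [AA_vec]
    have : mu (lamHom G) (psi s k) = 0 := hk
    rw [this, star_zero, map_zero]; rfl
  have h2 : IsClosed ((LinearMap.ker (AA s : HH ι G →ₗ[ℂ] L2 G) : Submodule ℂ (HH ι G)) :
      Set (HH ι G)) := (AA s).isClosed_ker
  exact (vecSub (K1 s)).topologicalClosure_minimal h1 h2 hv

/-- finitely supported cycles come from relations in `Om` -/
theorem fin_mem (c : ι → G →₀ ℂ) (hc : AA s (WithLp.toLp 2 fun i => toL (c i)) = 0) :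
    (WithLp.toLp 2 fun i => toL (c i) : HH ι G) ∈ UU (K2 s) := by
  refine (vecSub (K2 s)).le_topologicalClosure ⟨fun i => toN (c i), ?_, ?_⟩
  · rw [K2, LinearMap.mem_ker, psi_apply]
    simp only [toN_smul_om]
    have h1 : ∑ i, ((c i).mapDomain ((s i)⁻¹ * ·) - c i) = 0 := by
      ext x
      have h2 := congrArg (fun w : L2 G => w x) hc
      simp only [AA_apply, toL_apply] at h2
      rw [Finsupp.coe_zero, Pi.zero_apply, Finsupp.finsetSum_apply]
      refine (Finset.sum_congr rfl fun i _ => ?_).trans h2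
      rw [Finsupp.sub_apply]
      congr 1
      have h3 := Finsupp.mapDomain_apply (f := ((s i)⁻¹ * ·)) (mul_right_injective (s i)⁻¹) (c i)
        (s i * x)
      rw [inv_mul_cancel_left] at h3
      exact h3
    have h4 : ∑ i, (toOm ((c i).mapDomain ((s i)⁻¹ * ·)) - toOm (c i)) =
        toOmA (∑ i, ((c i).mapDomain ((s i)⁻¹ * ·) - c i)) := by
      rw [map_sum]
      refine Finset.sum_congr rfl fun i _ => ?_
      rw [map_sub]; rfl
    rw [h4, h1, map_zero]
  · ext1 i
    rw [vec_apply, star_toN_op]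

/-- coordinate unit vectors -/
noncomputable def eeVec (g : G) (i : ι) : HH ι G := inj ι G i (dl g)

theorem inner_eeVec (g : G) (i : ι) (v : HH ι G) : ⟪eeVec g i, v⟫_ℂ = v i g := by
  rw [eeVec, inner_inj, inner_dl]

theorem eeVec_apply (g x : G) (i j : ι) [Decidable (j = i ∧ x = g)] :
    eeVec g i j x = if j = i ∧ x = g then 1 else 0 := by
  rw [eeVec, inj_apply]
  by_cases h : j = i
  · classical
    rw [if_pos h, dl_apply]
    by_cases h2 : x = g
    · rw [if_pos h2, if_pos ⟨h, h2⟩]
    · rw [if_neg h2, if_neg (fun h3 => h2 h3.2)]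
  · rw [if_neg h, if_neg (fun h3 => h h3.1)]; rfl

theorem ee_orthonormal (F : Finset G) :
    Orthonormal ℂ (fun x : F × ι => (eeVec (x.1 : G) x.2 : HH ι G)) := by
  classical
  rw [orthonormal_iff_ite]
  rintro ⟨g, i⟩ ⟨h, j⟩
  rw [inner_eeVec, eeVec_apply]
  by_cases hh : i = j ∧ (g : G) = h
  · rw [if_pos hh, if_pos (by rw [Prod.mk.injEq]; exact ⟨Subtype.ext hh.2, hh.1⟩)]
  · rw [if_neg hh, if_neg (by
      rw [Prod.mk.injEq]
      rintro ⟨h1, h2⟩
      exact hh ⟨h2, congrArg Subtype.val h1⟩)]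

/-- restriction to a finite set -/
noncomputable def chiF (F : Finset G) : HH ι G →L[ℂ] HH ι G :=
  ∑ x : F × ι, (innerSL ℂ (eeVec (x.1 : G) x.2 : HH ι G)).smulRight (eeVec (x.1 : G) x.2)

theorem chi_eq (F : Finset G) (v : HH ι G) :
    chiF F v = ∑ x : F × ι, (v x.2 x.1) • (eeVec (x.1 : G) x.2 : HH ι G) := by
  rw [chiF, _root_.sum_apply]
  refine Finset.sum_congr rfl fun x _ => ?_
  rw [ContinuousLinearMap.smulRight_apply, innerSL_apply_apply, inner_eeVec]

theorem chi_eq' (F : Finset G) (v : HH ι G) :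
    chiF F v = WithLp.toLp 2 fun i => toL (∑ g ∈ F, Finsupp.single g (v i g)) := by
  have h1 : ∀ i, toL (∑ g ∈ F, Finsupp.single g (v i g)) = ∑ g ∈ F, (v i g) • dl g := by
    intro i
    have : ∀ S : Finset G, toL (∑ g ∈ S, Finsupp.single g (v i g)) = ∑ g ∈ S, (v i g) • dl g := by
      classical
      intro S
      induction S using Finset.induction_on with
      | empty => rw [Finset.sum_empty, Finset.sum_empty, toL_zero]
      | insert a S ha ih => rw [Finset.sum_insert ha, Finset.sum_insert ha, toL_add, toL_single, ih]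
    exact this F
  rw [← sum_inj (WithLp.toLp 2 fun i => toL (∑ g ∈ F, Finsupp.single g (v i g)) : HH ι G)]
  rw [chi_eq, Fintype.sum_prod_type_right]
  refine Finset.sum_congr rfl fun i _ => ?_
  change _ = inj ι G i (toL (∑ g ∈ F, Finsupp.single g (v i g)))
  rw [h1, map_sum, ← Finset.sum_coe_sort F]
  refine Finset.sum_congr rfl fun g _ => ?_
  rw [map_smul, eeVec]

theorem chi_apply (F : Finset G) (v : HH ι G) (i : ι) (x : G) [Decidable (x ∈ F)] :
    chiF F v i x = if x ∈ F then v i x else 0 := by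
  classical
  rw [chi_eq']
  change toL (∑ g ∈ F, Finsupp.single g (v i g)) x = _
  rw [toL_apply, Finsupp.finsetSum_apply]
  simp only [Finsupp.single_apply]
  rw [Finset.sum_ite_eq' F x]
  by_cases h : x ∈ F
  · rw [if_pos h, if_pos h]
  · rw [if_neg h, if_neg h]

/-- boundary of a finite set -/
noncomputable def folBdry [DecidableEq G] (F : Finset G) : Finset G :=
  (Finset.univ.biUnion fun i => F.filter fun x => s i * x ∉ F) ∪
    (Finset.univ.biUnion fun i => (F.filter fun y => (s i)⁻¹ * y ∉ F).image ((s i)⁻¹ * ·))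

theorem folBdry_card [DecidableEq G] (F : Finset G) : ((folBdry s F).card : ℝ) ≤
    ∑ i, (((F.filter fun x => s i * x ∉ F).card : ℝ) +
      ((F.filter fun x => (s i)⁻¹ * x ∉ F).card : ℝ)) := by
  have h1 := Finset.card_union_le (Finset.univ.biUnion fun i => F.filter fun x => s i * x ∉ F)
    (Finset.univ.biUnion fun i => (F.filter fun y => (s i)⁻¹ * y ∉ F).image ((s i)⁻¹ * ·))
  have h2 : (Finset.univ.biUnion fun i => F.filter fun x => s i * x ∉ F).card ≤
      ∑ i, (F.filter fun x => s i * x ∉ F).card := Finset.card_biUnion_le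
  have h3 : (Finset.univ.biUnion fun i =>
      (F.filter fun y => (s i)⁻¹ * y ∉ F).image ((s i)⁻¹ * ·)).card ≤
      ∑ i, (F.filter fun x => (s i)⁻¹ * x ∉ F).card :=
    Finset.card_biUnion_le.trans (Finset.sum_le_sum fun i _ => Finset.card_image_le)
  have h4 : (folBdry s F).card ≤ ∑ i, ((F.filter fun x => s i * x ∉ F).card +
      (F.filter fun x => (s i)⁻¹ * x ∉ F).card) := by
    rw [Finset.sum_add_distrib]
    exact h1.trans (add_le_add h2 h3)
  exact_mod_cast h4

theorem AA_chi [DecidableEq G] (F : Finset G) (v : HH ι G) (hv : AA s v = 0) (x : G)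
    (hx : x ∉ folBdry s F) : AA s (chiF F v) x = 0 := by
  rw [AA_apply]
  by_cases hF : x ∈ F
  · have h1 : ∀ i, s i * x ∈ F := by
      intro i
      by_contra hn
      refine hx (Finset.mem_union_left _ (Finset.mem_biUnion.2 ⟨i, Finset.mem_univ i, ?_⟩))
      exact Finset.mem_filter.2 ⟨hF, hn⟩
    have h2 := congrArg (fun w : L2 G => w x) hv
    simp only [AA_apply] at h2
    refine (Finset.sum_congr rfl fun i _ => ?_).trans h2
    rw [chi_apply, chi_apply, if_pos (h1 i), if_pos hF]
  · refine Finset.sum_eq_zero fun i _ => ?_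
    have h1 : s i * x ∉ F := by
      intro hn
      refine hx (Finset.mem_union_right _ (Finset.mem_biUnion.2 ⟨i, Finset.mem_univ i, ?_⟩))
      refine Finset.mem_image.2 ⟨s i * x, Finset.mem_filter.2 ⟨hn, ?_⟩, ?_⟩
      · rwa [inv_mul_cancel_left]
      · exact inv_mul_cancel_left _ _
    rw [chi_apply, chi_apply, if_neg h1, if_neg hF, sub_zero]

theorem rT_ee (g h : G) (i : ι) : rT ι g (eeVec h i : HH ι G) = eeVec (h * g⁻¹) i := by
  rw [eeVec, rT_inj, rTrans_dl]; rfl

theorem inner_ee_proj (K : Submodule (VN G) (ι → VN G)) (g : G) (i : ι) :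
    ⟪eeVec g i, (UU K).starProjection (eeVec g i)⟫_ℂ = tr (projMat K i i) := by
  have h1 : (eeVec g i : HH ι G) = rT ι g⁻¹ (eeVec 1 i) := by rw [rT_ee, inv_inv, one_mul]
  rw [h1, proj_comm, inner_rT_left]
  have h2 : ∀ v : HH ι G, rT ι g⁻¹⁻¹ (rT ι g⁻¹ v) = v := by
    intro v
    ext1 j
    rw [rT_apply, rT_apply, rTrans_mul, inv_mul_cancel, rTrans_one]
  rw [h2, inner_eeVec, tr_eq, inner_dl, projMat_op]
  rfl

/-- The trace defect is bounded by the relative boundary. -/
theorem trace_defect [DecidableEq G] (F : Finset G) :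
    (F.card : ℝ) * ((vnData G).Tr (projMat (K1 s)) - (vnData G).Tr (projMat (K2 s))) ≤
      (folBdry s F).card := by
  classical
  set P1 := (UU (K1 s)).starProjection with hP1
  set P2 := (UU (K2 s)).starProjection with hP2
  have hUle : UU (K2 s) ≤ UU (K1 s) := by
    refine Submodule.topologicalClosure_mono ?_
    rintro _ ⟨k, hk, rfl⟩
    exact mem_vecSub (K2_le s hk)
  have hP12 : ∀ x, P1 (P2 x) = P2 x := fun x =>
    (Submodule.starProjection_eq_self_iff (K := UU (K1 s))).2
      (hUle (Submodule.starProjection_apply_mem _ _))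
  have hs1 : ∀ x y, ⟪P1 x, y⟫_ℂ = ⟪x, P1 y⟫_ℂ := (UU (K1 s)).starProjection_isSymmetric
  have hs2 : ∀ x y, ⟪P2 x, y⟫_ℂ = ⟪x, P2 y⟫_ℂ := (UU (K2 s)).starProjection_isSymmetric
  have hP11 : ∀ x, P1 (P1 x) = P1 x := fun x =>
    (Submodule.starProjection_eq_self_iff (K := UU (K1 s))).2
      (Submodule.starProjection_apply_mem _ _)
  have hP22 : ∀ x, P2 (P2 x) = P2 x := fun x =>
    (Submodule.starProjection_eq_self_iff (K := UU (K2 s))).2
      (Submodule.starProjection_apply_mem _ _)
  have hP21 : ∀ x, P2 (P1 x) = P2 x := by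
    intro x
    refine ext_inner_left ℂ fun w => ?_
    rw [← hs2, ← hs1, hP12, hs2]
  let T : HH ι G →ₗ[ℂ] HH ι G := (P1 : HH ι G →ₗ[ℂ] HH ι G) - (P2 : HH ι G →ₗ[ℂ] HH ι G)
  have hT : ∀ x, T x = P1 x - P2 x := fun x => rfl
  have hsym : ∀ x y, ⟪T x, y⟫_ℂ = ⟪x, T y⟫_ℂ := by
    intro x y
    rw [hT, hT, inner_sub_left, inner_sub_right, hs1, hs2]
  have hidem : ∀ x, T (T x) = T x := by
    intro x
    rw [hT, hT, map_sub, map_sub, hP11, hP12, hP21, hP22]
    abel
  let L : HH ι G →ₗ[ℂ] ((folBdry s F) → ℂ) := LinearMap.pi fun b =>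
    ((innerSL ℂ (dl (b : G))).comp ((AA s).comp (chiF F)) : HH ι G →ₗ[ℂ] ℂ)
  have hLa : ∀ v b, L v b = AA s (chiF F v) b := by
    intro v b
    change ⟪dl (b : G), AA s (chiF F v)⟫_ℂ = _
    rw [inner_dl]
  have hTs : ∀ v ∈ Submodule.span ℂ (Set.range fun x : F × ι => T (eeVec (x.1 : G) x.2)),
      T v = v := by
    intro v hv
    induction hv using Submodule.span_induction with
    | mem x hx => obtain ⟨i, rfl⟩ := hx; exact hidem _
    | zero => exact map_zero _
    | add x y _ _ hx hy => rw [map_add, hx, hy]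
    | smul a x _ hx => rw [map_smul, hx]
  have key := sum_sq_proj_le T hsym hidem (fun x : F × ι => (eeVec (x.1 : G) x.2 : HH ι G))
    (ee_orthonormal F) L (by
      intro v hv h0
      have hTv : T v = v := hTs v hv
      have hv1 : P1 v = v := by rw [← hTv, hT, map_sub, hP11, hP12]
      have hv2 : P2 v = 0 := by rw [← hTv, hT, map_sub, hP21, hP22, sub_self]
      have hvm : v ∈ UU (K1 s) :=
        (Submodule.starProjection_eq_self_iff (K := UU (K1 s))).1 hv1
      have hAv : AA s v = 0 := AA_UU s v hvm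
      have hAc : AA s (chiF F v) = 0 := by
        refine lp.ext (funext fun x => ?_)
        rw [lp.coeFn_zero, Pi.zero_apply]
        by_cases hx : x ∈ folBdry s F
        · have := congrFun h0 ⟨x, hx⟩
          rwa [hLa] at this
        · exact AA_chi s F v hAv x hx
      have hcm : chiF F v ∈ UU (K2 s) := by
        rw [chi_eq'] at hAc ⊢
        exact fin_mem s _ hAc
      have h1 : ⟪chiF F v, v⟫_ℂ = 0 := by
        have h2 : P2 (chiF F v) = chiF F v :=
          (Submodule.starProjection_eq_self_iff (K := UU (K2 s))).2 hcm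
        rw [← h2, hs2, hv2, inner_zero_right]
      have h3 : ∀ x : F × ι, v x.2 x.1 = 0 := by
        have h4 : ⟪chiF F v, v⟫_ℂ = ((∑ x : F × ι, ‖v x.2 x.1‖ ^ 2 : ℝ) : ℂ) := by
          rw [chi_eq, sum_inner, Complex.ofReal_sum]
          refine Finset.sum_congr rfl fun x _ => ?_
          rw [inner_smul_left, inner_eeVec, Complex.conj_mul', Complex.ofReal_pow]
        rw [h1] at h4
        have h5 : (∑ x : F × ι, ‖v x.2 x.1‖ ^ 2 : ℝ) = 0 := by exact_mod_cast h4.symm
        rw [Finset.sum_eq_zero_iff_of_nonneg (fun x _ => by positivity)] at h5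
        intro x
        have := h5 x (Finset.mem_univ x)
        simpa using this
      have h6 : ∀ w ∈ Submodule.span ℂ (Set.range fun x : F × ι => T (eeVec (x.1 : G) x.2)),
          ⟪w, v⟫_ℂ = 0 := by
        intro w hw
        induction hw using Submodule.span_induction with
        | mem x hx =>
          obtain ⟨y, rfl⟩ := hx
          change ⟪T (eeVec (y.1 : G) y.2), v⟫_ℂ = 0
          rw [hsym, hTv, inner_eeVec, h3]
        | zero => exact inner_zero_left _
        | add x y _ _ hx hy => rw [inner_add_left, hx, hy, add_zero]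
        | smul a x _ hx => rw [inner_smul_left, hx, mul_zero]
      exact inner_self_eq_zero.1 (h6 v hv))
  have h7 : ∀ x : F × ι, ‖T (eeVec (x.1 : G) x.2)‖ ^ 2 =
      retr (projMat (K1 s) x.2 x.2) - retr (projMat (K2 s) x.2 x.2) := by
    intro x
    have h8 : ((‖T (eeVec (x.1 : G) x.2)‖ ^ 2 : ℝ) : ℂ) =
        tr (projMat (K1 s) x.2 x.2) - tr (projMat (K2 s) x.2 x.2) := by
      rw [← inner_ee_proj (K1 s) x.1 x.2, ← inner_ee_proj (K2 s) x.1 x.2, ← inner_sub_right]
      have h11 := inner_self_eq_norm_sq_to_K (𝕜 := ℂ) (T (eeVec (x.1 : G) x.2))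
      rw [hsym, hidem] at h11
      rw [Complex.ofReal_pow]
      exact h11.symm
    have h9 := congrArg Complex.re h8
    rw [Complex.ofReal_re, Complex.sub_re] at h9
    exact h9
  have h10 : ∑ x : F × ι, ‖T (eeVec (x.1 : G) x.2)‖ ^ 2 = (F.card : ℝ) *
      ((vnData G).Tr (projMat (K1 s)) - (vnData G).Tr (projMat (K2 s))) := by
    simp only [h7]
    rw [Fintype.sum_prod_type]
    simp only [Finset.sum_const, Finset.card_univ, Fintype.card_coe, nsmul_eq_mul]
    rw [Finset.sum_sub_distrib]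
    rfl
  rw [h10, Fintype.card_coe] at key
  exact key

end setup

section foelner

variable {G : Type*} [Group G]

theorem Foelner.Tr_le (hG : Foelner G) {ι : Type} [Fintype ι] [DecidableEq ι] (s : ι → G) :
    (vnData G).Tr (projMat (K1 s)) ≤ (vnData G).Tr (projMat (K2 s)) := by
  classical
  by_contra hlt
  push Not at hlt
  set δ := (vnData G).Tr (projMat (K1 s)) - (vnData G).Tr (projMat (K2 s)) with hδ
  have hδ0 : 0 < δ := sub_pos.2 hlt
  obtain ⟨n, hn⟩ := exists_nat_gt (2 * (Fintype.card ι : ℝ) / δ)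
  have hn0 : (0 : ℝ) < n := lt_of_le_of_lt (by positivity) hn
  obtain ⟨F, hF, hS⟩ := hG (Finset.univ.image s ∪ Finset.univ.image fun i => (s i)⁻¹) n
  have hFc : (0 : ℝ) < F.card := by exact_mod_cast hF.card_pos
  have h1 := trace_defect s F
  have h2 := folBdry_card s F
  have e : ∀ g : G, (F.filter fun x => g * x ∉ F).card = {x | x ∈ F ∧ g * x ∉ F}.ncard := by
    intro g
    rw [← Set.ncard_coe_finset, Finset.coe_filter]
  have h3 : ∀ g ∈ (Finset.univ.image s ∪ Finset.univ.image fun i => (s i)⁻¹ : Finset G),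
      ((F.filter fun x => g * x ∉ F).card : ℝ) ≤ F.card / n := by
    intro g hg
    rw [le_div_iff₀ hn0, mul_comm, e]
    exact_mod_cast hS g hg
  have h4 : ∑ i, (((F.filter fun x => s i * x ∉ F).card : ℝ) +
      ((F.filter fun x => (s i)⁻¹ * x ∉ F).card : ℝ)) ≤ ∑ i : ι, ((F.card : ℝ) / n + F.card / n) := by
    refine Finset.sum_le_sum fun i _ => add_le_add (h3 _ ?_) (h3 _ ?_)
    · exact Finset.mem_union_left _ (Finset.mem_image.2 ⟨i, Finset.mem_univ i, rfl⟩)
    · exact Finset.mem_union_right _ (Finset.mem_image.2 ⟨i, Finset.mem_univ i, rfl⟩)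
  rw [Finset.sum_const, Finset.card_univ, nsmul_eq_mul] at h4
  have h5 : (F.card : ℝ) * δ ≤ Fintype.card ι * ((F.card : ℝ) / n + F.card / n) :=
    h1.trans (h2.trans h4)
  rw [div_lt_iff₀ hδ0] at hn
  have h6 : (Fintype.card ι : ℝ) * ((F.card : ℝ) / n + F.card / n) =
      F.card * (2 * Fintype.card ι / n) := by ring
  rw [h6] at h5
  have h7 : δ ≤ 2 * Fintype.card ι / n := le_of_mul_le_mul_left h5 hFc
  rw [le_div_iff₀ hn0] at h7
  linarith [mul_comm (n : ℝ) δ]

theorem Foelner.vnDim_inf (hG : Foelner G) {ι : Type} [Fintype ι] [DecidableEq ι] (s : ι → G) :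
    vnDim G (K (lamHom G) ⊓ LinearMap.range (psi s) : Submodule (VN G) (Om (lamHom G))) = 0 := by
  classical
  let f : K1 s →ₗ[VN G] Om (lamHom G) := (psi s).comp (K1 s).subtype
  have hle : K (lamHom G) ⊓ LinearMap.range (psi s) ≤ LinearMap.range f := by
    rintro _ ⟨hz, ⟨k, rfl⟩⟩
    exact ⟨⟨k, hz⟩, rfl⟩
  have h1 : vnDim G (K (lamHom G) ⊓ LinearMap.range (psi s) : Submodule (VN G) (Om (lamHom G))) ≤
      (vnData G).tdim (LinearMap.range f) := by
    rw [vnDim_eq_tdim]
    exact (vnData G).tdim_le_of_le hle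
  have h2 : (vnData G).tdim (LinearMap.range f) = (vnData G).tdim (K1 s ⧸ LinearMap.ker f) :=
    (vnData G).tdim_congr f.quotKerEquivRange.symm
  have h3 := (vnData G).tdim_add_quot (LinearMap.ker f)
  have h4 : (vnData G).tdim (K2 s) ≤ (vnData G).tdim (LinearMap.ker f) := by
    refine (vnData G).tdim_mono (LinearMap.codRestrict _ (Submodule.inclusion (K2_le s))
      fun x => ?_) ?_
    · rw [LinearMap.mem_ker]
      exact x.2
    · intro x y hxy
      have := congrArg (fun z : LinearMap.ker f => ((z : K1 s) : ι → VN G)) hxy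
      exact Subtype.ext this
  have h5 : ENNReal.ofReal ((vnData G).Tr (projMat (K2 s))) ≤ (vnData G).tdim (K2 s) :=
    (vnData G).Tr_le_tdim_of_approx (K2 s) ⟨projMat_mul _, projMat_star _⟩
      fun ε hε i => projMat_approx (K2 s) ε hε i
  have h6 : (vnData G).tdim (K1 s) ≤ ENNReal.ofReal ((vnData G).Tr (projMat (K1 s))) := by
    refine le_trans ((vnData G).tdim_le_of_le fun k hk => ?_) ((vnData G).tdim_eqLocus_le
      (A := projMat (K1 s)) ⟨projMat_mul _, projMat_star _⟩)
    exact projMat_vecMul (K1 s) hk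
  have h7 : ENNReal.ofReal ((vnData G).Tr (projMat (K1 s))) ≤
      ENNReal.ofReal ((vnData G).Tr (projMat (K2 s))) := ENNReal.ofReal_le_ofReal (hG.Tr_le s)
  have h8 : ENNReal.ofReal ((vnData G).Tr (projMat (K2 s))) +
      (vnData G).tdim (LinearMap.range f) ≤
      ENNReal.ofReal ((vnData G).Tr (projMat (K2 s))) + 0 := by
    rw [add_zero, h2]
    refine (add_le_add (h5.trans h4) le_rfl).trans ?_
    rw [h3]
    exact h6.trans h7
  have h9 := (ENNReal.add_le_add_iff_left ENNReal.ofReal_ne_top).1 h8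
  exact le_antisymm (h1.trans h9) bot_le

/-- The first L2-Betti number of an amenable group vanishes. -/
theorem Foelner.vnDim_K_eq_zero (hG : Foelner G) : vnDim G (K (lamHom G)) = 0 := by
  classical
  have hle : K (lamHom G) ≤ ⨆ x : (Σ n : ℕ, (Fin n → G)),
      (K (lamHom G) ⊓ LinearMap.range (psi x.2) : Submodule (VN G) (Om (lamHom G))) := by
    intro z hz
    obtain ⟨f, rfl⟩ := Submodule.Quotient.mk_surjective _ z
    obtain ⟨n, u, hu⟩ := TraceData.exists_coords (N := VN G) f.support
    have h1 := hu f (Finset.Subset.refl _)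
    refine Submodule.mem_iSup_of_mem (⟨n, u⟩ : (Σ n : ℕ, (Fin n → G))) ⟨hz, ⟨fun k => f (u k), ?_⟩⟩
    rw [psi_apply]
    conv_rhs => rw [← h1]
    rw [Fintype.linearCombination_apply, ← Submodule.mkQ_apply, map_sum]
    refine Finset.sum_congr rfl fun k _ => ?_
    rw [map_smul]; rfl
  refine le_antisymm ?_ bot_le
  refine (vnDim_le_of_injective (Submodule.inclusion hle) (Submodule.inclusion_injective hle)).trans
    ((vnDim_iSup_le _).trans ?_)
  simp only [hG.vnDim_inf, tsum_zero]
  exact le_rfl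

theorem Foelner.bettiTwo {X : Type*} [TopologicalSpace X] [MulAction G X]
    [ContinuousConstSMul G X] [ContractibleSpace X]
    (hfree : ∀ (g : G) (x : X), g • x = x → g = 1) (S : Subgroup G) (hS : Foelner S) :
    bettiTwo S X 1 = 0 := by
  rw [bettiTwo_succ _ _ 0]
  have hfree' : ∀ (s : S) (x : X), s • x = x → s = 1 := fun s x h =>
    Subtype.ext (hfree s x h)
  exact (l2Betti_one_eq (G := S) (X := X) hfree').trans hS.vnDim_K_eq_zero

end foelner

end Vale.Agent.P239
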