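import Vale.Agent.P239.NGAux

/-!
L2-Betti numbers of spaces with a group action: the definitions used in the statements for P239.
-/

namespace Vale.Agent.P239

open scoped ENNReal

/-- The group von Neumann algebra is a ring under pointwise addition and convolution. -/
theorem NG.exists_ring (G : Type*) [Group G] : ∃ _R : Ring (NG G), ∀ (a b : NG G) (x : G),
    (a + b).fn x = a.fn x + b.fn x ∧ (a * b).fn x = ∑' y, a.fn (x * y⁻¹) * b.fn y :=
  NG.exists_ring_aux G

/-- The ring structure of the group von Neumann algebra: pointwise addition and convolution. -/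
noncomputable instance (G : Type*) [Group G] : Ring (NG G) := (NG.exists_ring G).choose

open Classical in
/-- Convolution by `δ_g` is bounded. -/
theorem NG.of_bdd {G : Type*} [Group G] (g : G) : ∃ C : ℝ, ∀ (f : G → ℂ) (s t : Finset G),
    ∑ x ∈ s, ‖∑ y ∈ t, (fun x => if x = g then (1 : ℂ) else 0) (x * y⁻¹) * f y‖ ^ 2 ≤
      C * ∑ y ∈ t, ‖f y‖ ^ 2 :=
  NG.of_aux g

open Classical in
/-- The inclusion of the group in its group von Neumann algebra, `g ↦ δ_g`. -/
noncomputable def NG.of {G : Type*} [Group G] (g : G) : NG G :=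
  ⟨fun x => if x = g then 1 else 0, NG.of_bdd g⟩

/-- The dimension of a left module `M` over the ring `R` with trace `t`: the supremum of the
dimensions of the finitely generated projective submodules `P` of `M`, where `P ≅ Rⁿ A` for an
idempotent `n × n` matrix `A`, and the dimension of `P` is `∑ i, t (A i i)`. -/
noncomputable def dimOf {R : Type*} [Ring R] (t : R → ℂ) (M : Type*) [AddCommGroup M]
    [Module R M] : ℝ≥0∞ :=
  sSup {d | ∃ (P : Submodule R M) (n : ℕ) (A : Matrix (Fin n) (Fin n) R), A * A = A ∧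
    Nonempty (P ≃ₗ[R] LinearMap.range A.vecMulLinear) ∧ d = ENNReal.ofReal (∑ i, t (A i i)).re}

/-- The dimension of the module `Z / B`. -/
noncomputable def quoDim {R : Type*} [Ring R] (t : R → ℂ) {M : Type*} [AddCommGroup M]
    [Module R M] (Z B : Submodule R M) : ℝ≥0∞ := dimOf t (Z ⧸ B.submoduleOf Z)

/-- The relations `a ⊗ (g • s) = (a * g) ⊗ s` in the free `R`-module on the `G`-set `S`; the
quotient is `R ⊗_{ℤG} ℤ[S]`. Here `u` is the map from `G` to `R`. -/
noncomputable def tensorRel {G R : Type*} [Group G] [Ring R] (u : G → R) (S : Type*)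
    [MulAction G S] : Submodule R (S →₀ R) :=
  Submodule.span R {z | ∃ (g : G) (s : S) (a : R), z = .single (g • s) a - .single s (a * u g)}

/-- The boundary map `a ⊗ s ↦ ∑ i, (-1) ^ i • a ⊗ dᵢ s`. -/
noncomputable def bdry (R : Type*) {S T : Type*} [Ring R] {m : ℕ} (d : Fin m → T → S) :
    (T →₀ R) →ₗ[R] (S →₀ R) :=
  Finsupp.linearCombination R fun s => ∑ i, .single (d i s) ((-1) ^ (i : ℕ))

/-- The dimension of the homology of
`R ⊗_{ℤG} ℤ[U] → R ⊗_{ℤG} ℤ[T] → R ⊗_{ℤG} ℤ[S]` in the middle. -/
noncomputable def homDim {G R S T U : Type*} [Group G] [Ring R] [MulAction G S] [MulAction G T]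
    (t : R → ℂ) (u : G → R) {m n : ℕ} (d : Fin m → T → S) (d' : Fin n → U → T) : ℝ≥0∞ :=
  quoDim t ((tensorRel u S).comap (bdry R d)) (LinearMap.range (bdry R d') ⊔ tensorRel u T)

/-- Singular `n`-simplices in `X`. -/
abbrev SSimp (X : Type*) [TopologicalSpace X] (n : ℕ) := C(SimplexCategory.toTop₀.obj (.mk n), X)

/-- The `i`-th face of a singular simplex. -/
noncomputable def sface {X : Type*} [TopologicalSpace X] {n : ℕ} (i : Fin (n + 2))
    (s : SSimp X (n + 1)) : SSimp X n := s.comp (SimplexCategory.toTop₀.δ i).hom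

/-- The `n`-th L2-Betti number `dim_N H_n(N ⊗_{ℤG} C_*(X))` of the `G`-space `X`, where `N` is the
group von Neumann algebra of `G`, with trace `a ↦ (a δ₁)(1)`. -/
noncomputable def bettiTwo (G X : Type*) [Group G] [TopologicalSpace X] [MulAction G X]
    [ContinuousConstSMul G X] : ℕ → ℝ≥0∞
  | 0 => homDim (fun a : NG G => a.fn 1) NG.of (Fin.elim0 : Fin 0 → SSimp X 0 → SSimp X 0) sface
  | n + 1 => homDim (fun a : NG G => a.fn 1) NG.of (sface (X := X) (n := n)) sface

end Vale.Agent.P239
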