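import Vale.Agent.P239.AHExist
import Vale.Agent.P239.AHCross
import Vale.Agent.P239.AHCyc
import Vale.Agent.P239.AHGap
import Vale.Agent.P239.AHLink
import Vale.Agent.P239.AcylDef
import Vale.Agent.P239.Amen
import Vale.Agent.P239.Std

namespace Vale.Agent.P239

theorem countable_of_closure {G : Type*} [Group G] {S : Finset G}
    (hS : Subgroup.closure (S : Set G) = ⊤) (hsym : ∀ s ∈ S, s⁻¹ ∈ S) : Countable G := by
  refine Function.Surjective.countable (f := fun l : List S => (l.map fun s : S => (s : G)).prod)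
    fun x => ?_
  have hx : x ∈ Subgroup.closure (S : Set G) := by rw [hS]; trivial
  induction hx using Subgroup.closure_induction_right with
  | one => exact ⟨[], rfl⟩
  | mul_right x _ s hs ih =>
    obtain ⟨l, hl⟩ := ih
    refine ⟨l ++ [⟨s, hs⟩], ?_⟩
    change (List.map (fun s : S => (s : G)) (l ++ [⟨s, hs⟩])).prod = x * s
    rw [List.map_append, List.prod_append]
    exact congrArg₂ _ hl (by rw [List.map_singleton, List.prod_singleton])
  | mul_inv_cancel x _ s hs ih =>
    obtain ⟨l, hl⟩ := ih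
    refine ⟨l ++ [⟨s⁻¹, hsym s hs⟩], ?_⟩
    change (List.map (fun s : S => (s : G)) (l ++ [⟨s⁻¹, hsym s hs⟩])).prod = x * s⁻¹
    rw [List.map_append, List.prod_append]
    exact congrArg₂ _ hl (by rw [List.map_singleton, List.prod_singleton])

theorem acylHyp_or {G : Type*} [Group G] {S F : Finset G}
    (hS : Subgroup.closure (S : Set G) = ⊤) (hsym : ∀ s ∈ S, s⁻¹ ∈ S) (hF : CrossProp S F)
    (h : ¬ AcylHyp G) : vnDim G (K (lamHom G)) = 0 := by
  by_cases hfol : Foelner G
  · exact hfol.vnDim_K_eq_zero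
  refine vnDim_K_eq_zero_of_harm S hS hsym fun f hf hh => ?_
  by_contra hne
  push Not at hne
  apply h
  have hinf : Infinite G := by
    by_contra hfin
    rw [not_infinite_iff_finite] at hfin
    have : Fintype G := Fintype.ofFinite G
    refine hfol fun T n => ⟨Finset.univ, Finset.univ_nonempty, fun s _ => ?_⟩
    simp
  have hcount : Countable G := countable_of_closure hS hsym
  have hnv : ¬ ∃ g : G, (Subgroup.zpowers g).FiniteIndex := by
    rintro ⟨g, hg⟩
    exact hfol (foelner_of_zpowers g)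
  obtain ⟨C, -, hgap⟩ := exists_gap hfol S hS
  obtain ⟨δ, -, h4⟩ := exists_four_point hS hF
  obtain ⟨g, hg⟩ := exists_lox hS hsym hgap h4 (u := ⟨f, mem_Dir_iff.2 hf⟩) hh hne
  refine ⟨hnv, res hS, res_self hS, res_comm hS, res_triangle hS, res_mul hS, ⟨δ, h4⟩, g, hg,
    fun ε => ?_⟩
  obtain ⟨c, hc, hg⟩ := hg
  obtain ⟨N, hN⟩ := exists_nat_gt (2 * ε / c)
  refine ⟨N, (finite_coarse_stab hS (x := 1) (y := g ^ N) (ε := ε) ?_).subset ?_⟩
  · rw [div_lt_iff₀ hc] at hN
    have := hg N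
    linarith
  · rintro x ⟨h1, h2⟩
    exact ⟨by rwa [mul_one], h2⟩

theorem bettiTwo_eq_zero_of_not_acylHyp {M X Γ : Type*}
    [TopologicalSpace M] [T2Space M] [CompactSpace M]
    [ChartedSpace (EuclideanSpace ℝ (Fin 4)) M]
    [TopologicalSpace X] [ContractibleSpace X] [Group Γ] [MulAction Γ X] [ContinuousConstSMul Γ X]
    (p : X → M) (hp : IsQuotientCoveringMap p Γ) (h : ¬ AcylHyp Γ) : bettiTwo Γ X 1 = 0 := by
  have hfree : ∀ (g : Γ) (x : X), g • x = x → g = 1 := fun g x hx => by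
    obtain ⟨U, hU, hU'⟩ := hp.disjoint x
    exact hU' g ⟨x, ⟨x, mem_of_mem_nhds hU, hx⟩, mem_of_mem_nhds hU⟩
  have : LocallyCompactSpace M := ChartedSpace.locallyCompactSpace (EuclideanSpace ℝ (Fin 4)) M
  have : LocallyCompactSpace X := locallyCompact_of_cover hp
  obtain ⟨S, F, hS, hsym, hF⟩ := exists_crossProp hp
  rw [bettiTwo_succ _ _ 0]
  exact (l2Betti_one_eq (G := Γ) (X := X) hfree).trans (acylHyp_or hS hsym hF h)

end Vale.Agent.P239
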