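import Vale.Agent.P239.AHPot

/-!
Four point inequality for effective resistance.
-/

namespace Vale.Agent.P239

open scoped ENNReal InnerProductSpace
open MeasureTheory

variable {G : Type*} [Group G] {S : Finset G}

/-- The translate of a function. -/
theorem hasSum_slice (f : Dir S) (s : S) :
    Summable fun x : G => (f.1 (x * (s : G)) - f.1 x) ^ 2 := by
  have h := (hasSum_en S f f).summable
  have h2 := h.comp_injective (i := fun x : G => ((s, x) : S × G)) (by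
    intro a b hab; simpa using hab)
  refine h2.congr fun x => ?_
  simp [sq]

theorem tsum_slice_le (f : Dir S) (s : S) :
    ∑' x : G, (f.1 (x * (s : G)) - f.1 x) ^ 2 ≤ en S f f := by
  have h := (hasSum_en S f f)
  rw [← h.tsum_eq]
  have h2 := tsum_comp_le_tsum_of_inj h.summable (fun p => mul_self_nonneg _)
    (i := fun x : G => ((s, x) : S × G)) (by intro a b hab; simpa using hab)
  refine le_trans (le_of_eq ?_) h2
  exact tsum_congr fun x => by simp [sq]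

theorem trans_step (f : G → ℝ) (a b : G) {A B : ℝ}
    (ha : (Summable fun x : G => (f (x * a) - f x) ^ 2) ∧
      ∑' x : G, (f (x * a) - f x) ^ 2 ≤ A)
    (hb : (Summable fun x : G => (f (x * b) - f x) ^ 2) ∧
      ∑' x : G, (f (x * b) - f x) ^ 2 ≤ B) :
    (Summable fun x : G => (f (x * (a * b)) - f x) ^ 2) ∧
      ∑' x : G, (f (x * (a * b)) - f x) ^ 2 ≤ 2 * B + 2 * A := by
  have h1 : Summable fun x : G => (f (x * a * b) - f (x * a)) ^ 2 := by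
    have h := (Equiv.mulRight a).summable_iff.2 hb.1
    exact h
  have h1' : ∑' x : G, (f (x * a * b) - f (x * a)) ^ 2 =
      ∑' x : G, (f (x * b) - f x) ^ 2 := by
    have h := (Equiv.mulRight a).tsum_eq (fun x => (f (x * b) - f x) ^ 2)
    exact h
  have h2 := ha.1
  have h3 : Summable fun x : G => 2 * (f (x * a * b) - f (x * a)) ^ 2 +
      2 * (f (x * a) - f x) ^ 2 := (h1.mul_left 2).add (h2.mul_left 2)
  have h4 : ∀ x : G, (f (x * (a * b)) - f x) ^ 2 ≤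
      2 * (f (x * a * b) - f (x * a)) ^ 2 + 2 * (f (x * a) - f x) ^ 2 := by
    intro x
    rw [← mul_assoc]
    nlinarith [sq_nonneg ((f (x * a * b) - f (x * a)) - (f (x * a) - f x))]
  have h5 : Summable fun x : G => (f (x * (a * b)) - f x) ^ 2 :=
    Summable.of_nonneg_of_le (fun x => sq_nonneg _) h4 h3
  refine ⟨h5, (h5.tsum_le_tsum h4 h3).trans ?_⟩
  rw [(h1.mul_left 2).tsum_add (h2.mul_left 2), tsum_mul_left, tsum_mul_left, h1']
  have := ha.2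
  have := hb.2
  linarith

theorem trans_inv (f : G → ℝ) (s : G) {B : ℝ}
    (h1 : (Summable fun x : G => (f (x * s) - f x) ^ 2) ∧
      ∑' x : G, (f (x * s) - f x) ^ 2 ≤ B) :
    (Summable fun x : G => (f (x * s⁻¹) - f x) ^ 2) ∧
      ∑' x : G, (f (x * s⁻¹) - f x) ^ 2 ≤ B := by
  have heq : ∀ x : G, (f (x * s⁻¹) - f x) ^ 2 =
      (fun y => (f (y * s) - f y) ^ 2) ((Equiv.mulRight s⁻¹) x) := by
    intro x
    simp only [Equiv.coe_mulRight, inv_mul_cancel_right]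
    ring
  constructor
  · exact ((Equiv.mulRight s⁻¹).summable_iff.2 h1.1).congr fun x => (heq x).symm
  · rw [tsum_congr heq, (Equiv.mulRight s⁻¹).tsum_eq (fun y => (f (y * s) - f y) ^ 2)]
    exact h1.2

variable (S) in
theorem exists_trans_bound (hS : Subgroup.closure (S : Set G) = ⊤) (g : G) :
    ∃ C : ℝ, 0 ≤ C ∧ ∀ f : Dir S, (Summable fun x : G => (f.1 (x * g) - f.1 x) ^ 2) ∧
      ∑' x : G, (f.1 (x * g) - f.1 x) ^ 2 ≤ C * en S f f := by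
  have hg : g ∈ Subgroup.closure (S : Set G) := by rw [hS]; trivial
  have gen : ∀ s ∈ S, ∀ f : Dir S, (Summable fun x : G => (f.1 (x * s) - f.1 x) ^ 2) ∧
        ∑' x : G, (f.1 (x * s) - f.1 x) ^ 2 ≤ en S f f := fun s hs f =>
    ⟨hasSum_slice f ⟨s, hs⟩, tsum_slice_le f ⟨s, hs⟩⟩
  induction hg using Subgroup.closure_induction_right with
  | one => exact ⟨0, le_rfl, fun f => by simp [summable_zero]⟩
  | mul_right x _ s hs ih =>
    obtain ⟨A, hA, ih⟩ := ih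
    refine ⟨2 + 2 * A, by positivity, fun f => ?_⟩
    have h := trans_step f.1 x s (ih f) (gen s hs f)
    exact ⟨h.1, h.2.trans (le_of_eq (by ring))⟩
  | mul_inv_cancel x _ s hs ih =>
    obtain ⟨A, hA, ih⟩ := ih
    refine ⟨2 + 2 * A, by positivity, fun f => ?_⟩
    have h := trans_step f.1 x s⁻¹ (ih f) (trans_inv f.1 s (gen s hs f))
    exact ⟨h.1, h.2.trans (le_of_eq (by ring))⟩

/-- The crossing property for a finite set `F`. -/
def CrossProp (S F : Finset G) : Prop :=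
  ∀ (A B : Set G) (x y z w : G), x ∈ A → x ∈ B → y ∈ A → y ∉ B → z ∉ A → z ∈ B → w ∉ A → w ∉ B →
    Con S A x y → Con S Bᶜ y w → Con S Aᶜ z w → Con S B x z →
    ∃ u : G, (∃ a ∈ F, u * a ∈ A) ∧ (∃ a ∈ F, u * a ∉ A) ∧ (∃ a ∈ F, u * a ∈ B) ∧
      (∃ a ∈ F, u * a ∉ B)

theorem exists_osc_bound (hS : Subgroup.closure (S : Set G) = ⊤) (F : Finset G) :
    ∃ C : ℝ, 0 ≤ C ∧ ∀ f : Dir S, ∀ a ∈ F, ∀ b ∈ F,
      (Summable fun u : G => (f.1 (u * a) - f.1 (u * b)) ^ 2) ∧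
      ∑' u : G, (f.1 (u * a) - f.1 (u * b)) ^ 2 ≤ C * en S f f := by
  choose C hC0 hC using fun g : G => exists_trans_bound S hS g
  refine ⟨∑ a ∈ F, ∑ b ∈ F, C (b⁻¹ * a), ?_, fun f a ha b hb => ?_⟩
  · exact Finset.sum_nonneg fun a _ => Finset.sum_nonneg fun b _ => hC0 _
  · have h := hC (b⁻¹ * a) f
    have h1 : Summable fun u : G => (f.1 (u * a) - f.1 (u * b)) ^ 2 := by
      have h2 := (Equiv.mulRight b).summable_iff.2 h.1
      refine h2.congr fun u => ?_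
      simp only [Function.comp_apply, Equiv.coe_mulRight]
      rw [mul_assoc u b, mul_inv_cancel_left]
    have h3 : ∑' u : G, (f.1 (u * a) - f.1 (u * b)) ^ 2 =
        ∑' u : G, (f.1 (u * (b⁻¹ * a)) - f.1 u) ^ 2 := by
      have h2 := (Equiv.mulRight b).tsum_eq (fun x => (f.1 (x * (b⁻¹ * a)) - f.1 x) ^ 2)
      rw [← h2]
      refine tsum_congr fun u => ?_
      simp only [Equiv.coe_mulRight]
      rw [mul_assoc u b, mul_inv_cancel_left]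
    refine ⟨h1, ?_⟩
    rw [h3]
    refine h.2.trans (mul_le_mul_of_nonneg_right ?_ (en_self_nonneg S f))
    calc C (b⁻¹ * a) ≤ ∑ b ∈ F, C (b⁻¹ * a) :=
          Finset.single_le_sum (f := fun b => C (b⁻¹ * a)) (fun b _ => hC0 _) hb
      _ ≤ ∑ a ∈ F, ∑ b ∈ F, C (b⁻¹ * a) :=
          Finset.single_le_sum (f := fun a => ∑ b ∈ F, C (b⁻¹ * a))
            (fun a _ => Finset.sum_nonneg fun b _ => hC0 _) ha

theorem IsPot.con' (hS : Subgroup.closure (S : Set G) = ⊤) {x y : G} {w : Dir S}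
    (h : IsPot x y w) {t : ℝ} (ht : t < w.1 x) {z : G} (hz : w.1 z < t) (htr : ∀ u, w.1 u ≠ t) :
    Con S {u | t < w.1 u}ᶜ y z := by
  have h1 := h.neg.con hS (t := -t) (z := z) (neg_lt_neg ht) (neg_lt_neg hz)
  have h2 : {u | -t < (-w).1 u} = {u | t < w.1 u}ᶜ := by
    ext u
    change -t < -(w.1 u) ↔ ¬ t < w.1 u
    rw [neg_lt_neg_iff, not_lt]
    exact ⟨le_of_lt, fun h => lt_of_le_of_ne h (htr u)⟩
  rwa [h2] at h1

theorem ofReal_mul_ofReal_le (p q : ℝ) :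
    ENNReal.ofReal p * ENNReal.ofReal q ≤ ENNReal.ofReal (p ^ 2 + q ^ 2) := by
  rcases le_total p 0 with hp | hp
  · rw [ENNReal.ofReal_of_nonpos hp, zero_mul]; exact bot_le
  · rw [← ENNReal.ofReal_mul hp]
    refine ENNReal.ofReal_le_ofReal ?_
    nlinarith [sq_nonneg (p - q), sq_nonneg p, sq_nonneg q]

/-- Area estimate. -/
theorem area_le [Countable G] (F : Finset G) {T₁ T₂ : Set ℝ} (c₁ c₂ : G → ℝ) {C₁ C₂ : ℝ}
    (h₁ : ∀ a ∈ F, ∀ b ∈ F, (Summable fun u : G => (c₁ (u * a) - c₁ (u * b)) ^ 2) ∧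
      ∑' u : G, (c₁ (u * a) - c₁ (u * b)) ^ 2 ≤ C₁)
    (h₂ : ∀ a ∈ F, ∀ b ∈ F, (Summable fun u : G => (c₂ (u * a) - c₂ (u * b)) ^ 2) ∧
      ∑' u : G, (c₂ (u * a) - c₂ (u * b)) ^ 2 ≤ C₂)
    (hT : ∀ t ∈ T₁, ∀ s ∈ T₂, ∃ u : G, (∃ a ∈ F, t < c₁ (u * a)) ∧ (∃ b ∈ F, c₁ (u * b) < t) ∧
      (∃ a ∈ F, s < c₂ (u * a)) ∧ (∃ b ∈ F, c₂ (u * b) < s)) :
    volume T₁ * volume T₂ ≤ (F.card : ℝ≥0∞) ^ 4 * ENNReal.ofReal (C₁ + C₂) := by
  let J := F × F × F × F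
  let R : J × G → Set (ℝ × ℝ) := fun i =>
    (Set.Ioo (c₁ (i.2 * i.1.1)) (c₁ (i.2 * i.1.2.1))) ×ˢ
      (Set.Ioo (c₂ (i.2 * i.1.2.2.1)) (c₂ (i.2 * i.1.2.2.2)))
  have hcov : T₁ ×ˢ T₂ ⊆ ⋃ i : J × G, R i := by
    rintro ⟨t, s⟩ ⟨ht, hs⟩
    obtain ⟨u, ⟨a, ha, h1⟩, ⟨b, hb, h2⟩, ⟨a', ha', h3⟩, ⟨b', hb', h4⟩⟩ := hT t ht s hs
    exact Set.mem_iUnion.2 ⟨((⟨b, hb⟩, ⟨a, ha⟩, ⟨b', hb'⟩, ⟨a', ha'⟩), u), ⟨⟨h2, h1⟩, ⟨h4, h3⟩⟩⟩
  have hvol : volume (T₁ ×ˢ T₂) = volume T₁ * volume T₂ := by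
    rw [Measure.volume_eq_prod, Measure.prod_prod]
  have hR : ∀ i : J × G, volume (R i) ≤ ENNReal.ofReal
      ((c₁ (i.2 * i.1.2.1) - c₁ (i.2 * i.1.1)) ^ 2 +
        (c₂ (i.2 * i.1.2.2.2) - c₂ (i.2 * i.1.2.2.1)) ^ 2) := by
    intro i
    rw [Measure.volume_eq_prod, Measure.prod_prod, Real.volume_Ioo, Real.volume_Ioo]
    exact ofReal_mul_ofReal_le _ _
  calc volume T₁ * volume T₂ = volume (T₁ ×ˢ T₂) := hvol.symm
    _ ≤ volume (⋃ i : J × G, R i) := measure_mono hcov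
    _ ≤ ∑' i : J × G, volume (R i) := measure_iUnion_le _
    _ ≤ ∑' i : J × G, ENNReal.ofReal
      ((c₁ (i.2 * i.1.2.1) - c₁ (i.2 * i.1.1)) ^ 2 +
        (c₂ (i.2 * i.1.2.2.2) - c₂ (i.2 * i.1.2.2.1)) ^ 2) := ENNReal.tsum_le_tsum hR
    _ = ∑' j : J, ∑' u : G, ENNReal.ofReal
      ((c₁ (u * j.2.1) - c₁ (u * j.1)) ^ 2 +
        (c₂ (u * j.2.2.2) - c₂ (u * j.2.2.1)) ^ 2) := ENNReal.tsum_prod'
    _ ≤ ∑' j : J, ENNReal.ofReal (C₁ + C₂) := by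
      refine ENNReal.tsum_le_tsum fun j => ?_
      have g1 := h₁ j.2.1 j.2.1.2 j.1 j.1.2
      have g2 := h₂ j.2.2.2 j.2.2.2.2 j.2.2.1 j.2.2.1.2
      rw [← ENNReal.ofReal_tsum_of_nonneg (fun u => by positivity) (g1.1.add g2.1),
        g1.1.tsum_add g2.1]
      exact ENNReal.ofReal_le_ofReal (add_le_add g1.2 g2.2)
    _ = (F.card : ℝ≥0∞) ^ 4 * ENNReal.ofReal (C₁ + C₂) := by
      rw [tsum_fintype, Finset.sum_const, Finset.card_univ, nsmul_eq_mul]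
      congr 1
      simp only [J, Fintype.card_prod, Fintype.card_coe]
      push_cast
      ring

theorem exists_rect_bound [Countable G] (hS : Subgroup.closure (S : Set G) = ⊤) {F : Finset G}
    (hF : CrossProp S F) :
    ∃ C : ℝ, 0 ≤ C ∧ ∀ (x y z w : G) (v₁ v₂ : Dir S), IsPot x z v₁ → IsPot x y v₂ →
      min (v₁.1 y - v₁.1 w) (v₂.1 z - v₂.1 w) ≤ C := by
  obtain ⟨C, hC0, hC⟩ := exists_osc_bound hS F
  refine ⟨2 * ((F.card : ℝ) ^ 4 * C), by positivity, fun x y z w v₁ v₂ h₁ h₂ => ?_⟩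
  by_cases hk1 : v₁.1 y - v₁.1 w ≤ 0
  · exact (min_le_left _ _).trans (hk1.trans (by positivity))
  by_cases hk2 : v₂.1 z - v₂.1 w ≤ 0
  · exact (min_le_right _ _).trans (hk2.trans (by positivity))
  push Not at hk1 hk2
  set k₁ := v₁.1 y - v₁.1 w with hk₁
  set k₂ := v₂.1 z - v₂.1 w with hk₂
  let c₁ := cD (v₁.1 w) (v₁.1 y) v₁
  let c₂ := cD (v₂.1 w) (v₂.1 z) v₂
  have e₁ : en S c₁ c₁ ≤ k₁ :=
    h₁.en_clamp (by linarith) (h₁.mem_range hS w).1 (h₁.mem_range hS y).2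
  have e₂ : en S c₂ c₂ ≤ k₂ :=
    h₂.en_clamp (by linarith) (h₂.mem_range hS w).1 (h₂.mem_range hS z).2
  let T₁ : Set ℝ := Set.Ioo (v₁.1 w) (v₁.1 y) \ Set.range v₁.1
  let T₂ : Set ℝ := Set.Ioo (v₂.1 w) (v₂.1 z) \ Set.range v₂.1
  have hV₁ : volume T₁ = ENNReal.ofReal k₁ := by
    rw [measure_sdiff_null ((Set.countable_range _).measure_zero _), Real.volume_Ioo]
  have hV₂ : volume T₂ = ENNReal.ofReal k₂ := by
    rw [measure_sdiff_null ((Set.countable_range _).measure_zero _), Real.volume_Ioo]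
  have harea := area_le F (T₁ := T₁) (T₂ := T₂) c₁.1 c₂.1 (C₁ := C * k₁) (C₂ := C * k₂)
    (fun a ha b hb => ⟨(hC c₁ a ha b hb).1, (hC c₁ a ha b hb).2.trans
      (mul_le_mul_of_nonneg_left e₁ hC0)⟩)
    (fun a ha b hb => ⟨(hC c₂ a ha b hb).1, (hC c₂ a ha b hb).2.trans
      (mul_le_mul_of_nonneg_left e₂ hC0)⟩) (by
    rintro t ⟨⟨ht1, ht2⟩, htr⟩ s ⟨⟨hs1, hs2⟩, hsr⟩
    have htr' : ∀ u, v₁.1 u ≠ t := fun u hu => htr ⟨u, hu⟩
    have hsr' : ∀ u, v₂.1 u ≠ s := fun u hu => hsr ⟨u, hu⟩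
    have m1 := h₁.mem_range hS w
    have m2 := h₁.mem_range hS y
    have m3 := h₂.mem_range hS w
    have m4 := h₂.mem_range hS z
    obtain ⟨u, ⟨a, ha, h1⟩, ⟨b, hb, h2⟩, ⟨a', ha', h3⟩, ⟨b', hb', h4⟩⟩ :=
      hF {u | t < v₁.1 u} {u | s < v₂.1 u} x y z w (lt_of_lt_of_le ht2 m2.2)
        (lt_of_lt_of_le hs2 m4.2) ht2 (not_lt.2 (m3.1.trans hs1.le))
        (not_lt.2 (m1.1.trans ht1.le)) hs2 (not_lt.2 ht1.le) (not_lt.2 hs1.le)
        (h₁.con hS (lt_of_le_of_lt m1.1 ht1) ht2)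
        (h₂.con' hS (lt_of_lt_of_le hs2 m4.2) hs1 hsr')
        (h₁.con' hS (lt_of_lt_of_le ht2 m2.2) ht1 htr')
        (h₂.con hS (lt_of_le_of_lt m3.1 hs1) hs2)
    refine ⟨u, ⟨a, ha, ?_⟩, ⟨b, hb, ?_⟩, ⟨a', ha', ?_⟩, ⟨b', hb', ?_⟩⟩
    · exact lt_max_of_lt_right (lt_min ht2 h1)
    · exact max_lt ht1 ((min_le_right _ _).trans_lt (lt_of_le_of_ne (not_lt.1 h2) (htr' _)))
    · exact lt_max_of_lt_right (lt_min hs2 h3)
    · exact max_lt hs1 ((min_le_right _ _).trans_lt (lt_of_le_of_ne (not_lt.1 h4) (hsr' _))))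
  rw [hV₁, hV₂, ← ENNReal.ofReal_mul hk1.le] at harea
  have h5 : (F.card : ℝ≥0∞) ^ 4 * ENNReal.ofReal (C * k₁ + C * k₂) =
      ENNReal.ofReal ((F.card : ℝ) ^ 4 * (C * k₁ + C * k₂)) := by
    rw [ENNReal.ofReal_mul (by positivity), ENNReal.ofReal_pow (by positivity),
      ENNReal.ofReal_natCast]
  rw [h5, ENNReal.ofReal_le_ofReal_iff (by positivity)] at harea
  have hmin : 0 < min k₁ k₂ := lt_min hk1 hk2
  have hD : 0 ≤ (F.card : ℝ) ^ 4 * C := by positivity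
  rcases le_total k₁ k₂ with hle | hle
  · rw [min_eq_left hle]
    have h6 : k₁ * k₂ ≤ (2 * ((F.card : ℝ) ^ 4 * C)) * k₂ := by nlinarith
    exact le_of_mul_le_mul_right h6 hk2
  · rw [min_eq_right hle]
    have h6 : k₂ * k₁ ≤ (2 * ((F.card : ℝ) ^ 4 * C)) * k₁ := by nlinarith
    exact le_of_mul_le_mul_right h6 hk1

end Vale.Agent.P239
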