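import Vale.Agent.P239.AHLox

/-!
Harmonic parts of potentials.
-/

namespace Vale.Agent.P239

open scoped ENNReal InnerProductSpace
open Filter Topology

variable {G : Type*} [Group G] {S : Finset G}

/-- Square summable functions. -/
def SqS (f : G → ℝ) : Prop := Summable fun x => f x ^ 2

theorem en_self_eq_sum (f : Dir S) :
    en S f f = ∑ s ∈ S, ∑' x : G, (f.1 (x * s) - f.1 x) ^ 2 := by
  have h := hasSum_en S f f
  rw [← h.tsum_eq, h.summable.tsum_prod' (fun s => ?_), tsum_fintype,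
    ← Finset.sum_coe_sort S (fun s => ∑' x : G, (f.1 (x * s) - f.1 x) ^ 2)]
  · exact Finset.sum_congr rfl fun s _ => tsum_congr fun x => (sq _).symm
  · exact (hasSum_slice f s).congr fun x => sq _

theorem sq_slice {f : G → ℝ} (hf : SqS f) (s : G) :
    (Summable fun x => (f (x * s) - f x) ^ 2) ∧
      ∑' x, (f (x * s) - f x) ^ 2 ≤ 4 * ∑' x, f x ^ 2 := by
  have h1 : Summable fun x : G => f (x * s) ^ 2 := by
    have h := (Equiv.mulRight s).summable_iff.2 hf
    exact h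
  have h1' : ∑' x : G, f (x * s) ^ 2 = ∑' x : G, f x ^ 2 := by
    have h := (Equiv.mulRight s).tsum_eq (fun x => f x ^ 2)
    exact h
  have h2 : Summable fun x : G => f x ^ 2 := hf
  have h3 : Summable fun x : G => 2 * f (x * s) ^ 2 + 2 * f x ^ 2 :=
    (h1.mul_left 2).add (h2.mul_left 2)
  have h4 : ∀ x : G, (f (x * s) - f x) ^ 2 ≤ 2 * f (x * s) ^ 2 + 2 * f x ^ 2 := by
    intro x
    nlinarith [sq_nonneg (f (x * s) + f x)]
  have h5 : Summable fun x : G => (f (x * s) - f x) ^ 2 :=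
    Summable.of_nonneg_of_le (fun x => sq_nonneg _) h4 h3
  refine ⟨h5, (h5.tsum_le_tsum h4 h3).trans ?_⟩
  rw [(h1.mul_left 2).tsum_add (h2.mul_left 2), tsum_mul_left, tsum_mul_left, h1']
  linarith

theorem mem_Dir_iff {f : G → ℝ} :
    f ∈ Dir S ↔ ∀ s ∈ S, Summable fun x => (f (x * s) - f x) ^ 2 := by
  constructor
  · intro hf s hs
    exact hasSum_slice ⟨f, hf⟩ ⟨s, hs⟩
  · intro h
    rw [mem_Dir, memℓp_gen_iff (by norm_num)]
    rw [summable_prod_of_nonneg (fun p => by positivity)]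
    refine ⟨fun s => ?_, Summable.of_finite⟩
    refine (h s s.2).congr fun x => ?_
    simp

theorem SqS.mem_Dir {f : G → ℝ} (hf : SqS f) : f ∈ Dir S :=
  mem_Dir_iff.2 fun s _ => (sq_slice hf s).1

theorem sqS_iff {f : G → ℝ} : SqS f ↔ Memℓp f 2 := by
  rw [memℓp_gen_iff (by norm_num)]
  simp [SqS]

theorem SqS.add {f g : G → ℝ} (hf : SqS f) (hg : SqS g) : SqS (f + g) := by
  rw [sqS_iff] at *; exact hf.add hg

theorem SqS.sub {f g : G → ℝ} (hf : SqS f) (hg : SqS g) : SqS (f - g) := by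
  rw [sqS_iff] at *; exact hf.sub hg

theorem SqS.trans {f : G → ℝ} (hf : SqS f) (g : G) : SqS (fun x => f (g⁻¹ * x)) := by
  have h := (Equiv.mulLeft g⁻¹).summable_iff.2 hf
  exact h

variable (S) in
/-- `ℓ²(G)` inside the Dirichlet functions. -/
noncomputable def l2Dir : lp (fun _ : G => ℝ) 2 →ₗ[ℝ] Dir S where
  toFun φ := ⟨φ, (sqS_iff.2 (lp.memℓp φ)).mem_Dir⟩
  map_add' _ _ := rfl
  map_smul' _ _ := rfl

variable (S) in
/-- `ℓ²(G)` inside the Dirichlet functions, as a map to gradients. -/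
noncomputable def gradL2 : lp (fun _ : G => ℝ) 2 →L[ℝ] HS S :=
  LinearMap.mkContinuous ((grad S).comp (l2Dir S))
    (2 * (S.card : ℝ)) (by
      intro φ
      have h1 : ‖φ‖ ^ 2 = ∑' x, φ x ^ 2 := by
        have h := lp.hasSum_norm (by norm_num : 0 < (2 : ℝ≥0∞).toReal) φ
        have h2 := h.tsum_eq
        simp only [ENNReal.toReal_ofNat, Real.rpow_ofNat, Real.norm_eq_abs, sq_abs] at h2
        exact h2.symm
      have h2 : ‖grad S ⟨φ, (sqS_iff.2 (lp.memℓp φ)).mem_Dir⟩‖ ^ 2 ≤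
          (2 * (S.card : ℝ) * ‖φ‖) ^ 2 := by
        rw [← en_self, en_self_eq_sum]
        calc ∑ s ∈ S, ∑' x : G, (φ (x * s) - φ x) ^ 2 ≤ ∑ s ∈ S, 4 * ∑' x, φ x ^ 2 :=
              Finset.sum_le_sum fun s _ => (sq_slice (sqS_iff.2 (lp.memℓp φ)) s).2
          _ = (S.card : ℝ) * (4 * ‖φ‖ ^ 2) := by
              rw [Finset.sum_const, nsmul_eq_mul, h1]
          _ ≤ (2 * (S.card : ℝ) * ‖φ‖) ^ 2 := by
              have hc : (S.card : ℝ) ≤ (S.card : ℝ) ^ 2 := by
                rcases Nat.eq_zero_or_pos S.card with h0 | h0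
                · rw [h0]; simp
                · have : (1 : ℝ) ≤ S.card := by exact_mod_cast h0
                  nlinarith
              nlinarith [sq_nonneg ‖φ‖]
      exact (pow_le_pow_iff_left₀ (norm_nonneg _) (by positivity) two_ne_zero).1 h2)

theorem gradL2_apply (φ : lp (fun _ : G => ℝ) 2) :
    gradL2 S φ = grad S ⟨φ, (sqS_iff.2 (lp.memℓp φ)).mem_Dir⟩ := rfl

/-- Orthogonal to `ℓ²`. -/
def Orth (u : Dir S) : Prop := ∀ ψ : Dir S, SqS ψ.1 → en S u ψ = 0

theorem Orth.sub {u v : Dir S} (hu : Orth u) (hv : Orth v) : Orth (u - v) := fun ψ hψ => by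
  rw [en_sub_left, hu ψ hψ, hv ψ hψ, sub_zero]

theorem Orth.trans {u : Dir S} (hu : Orth u) (g : G) : Orth (trD g u) := fun ψ hψ => by
  have h1 : ψ = trD g (trD g⁻¹ ψ) := by rw [trD_trD, mul_inv_cancel, trD_one]
  rw [h1, en_trD]
  exact hu _ (hψ.trans g⁻¹)

theorem single_mem (y : G) [DecidableEq G] : SqS (Pi.single y (1 : ℝ) : G → ℝ) := by
  refine summable_of_ne_finset_zero (s := {y}) fun x hx => ?_
  rw [Finset.mem_singleton] at hx
  rw [Pi.single_eq_of_ne hx]; simp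

theorem en_single [DecidableEq G] (hsym : ∀ s ∈ S, s⁻¹ ∈ S) (u : Dir S) (y : G) :
    en S u ⟨Pi.single y (1 : ℝ), (single_mem y).mem_Dir⟩ =
      - 2 * ∑ s ∈ S, (u.1 (y * s) - u.1 y) := by
  have h := hasSum_en S u ⟨Pi.single y (1 : ℝ), (single_mem y).mem_Dir⟩
  have hslice : ∀ s : S, HasSum (fun x : G => (u.1 (x * (s : G)) - u.1 x) *
      ((Pi.single y (1 : ℝ) : G → ℝ) (x * (s : G)) - (Pi.single y (1 : ℝ) : G → ℝ) x))
      ((u.1 y - u.1 (y * (s : G)⁻¹)) - (u.1 (y * s) - u.1 y)) := by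
    intro s
    have h1 : HasSum (fun x : G => (u.1 (x * (s : G)) - u.1 x) *
      ((Pi.single y (1 : ℝ) : G → ℝ) (x * (s : G)))) (u.1 y - u.1 (y * (s : G)⁻¹)) := by
      have := hasSum_single (f := fun x : G => (u.1 (x * (s : G)) - u.1 x) *
        ((Pi.single y (1 : ℝ) : G → ℝ) (x * (s : G)))) (y * (s : G)⁻¹) (by
          intro x hx
          rw [Pi.single_eq_of_ne, mul_zero]
          intro h
          apply hx
          rw [← h, mul_inv_cancel_right])
      simpa using this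
    have h2 : HasSum (fun x : G => (u.1 (x * (s : G)) - u.1 x) *
      ((Pi.single y (1 : ℝ) : G → ℝ) x)) (u.1 (y * s) - u.1 y) := by
      have := hasSum_single (f := fun x : G => (u.1 (x * (s : G)) - u.1 x) *
        ((Pi.single y (1 : ℝ) : G → ℝ) x)) y (by
          intro x hx
          rw [Pi.single_eq_of_ne hx, mul_zero])
      simpa using this
    refine (congrArg (HasSum · _) (funext fun x => ?_)).mp (h1.sub h2)
    ring
  have h3 := HasSum.prod_fiberwise (g := fun s : S =>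
    (u.1 y - u.1 (y * (s : G)⁻¹)) - (u.1 (y * s) - u.1 y)) h hslice
  have h4 := h3.unique (hasSum_fintype _)
  rw [h4, Finset.sum_sub_distrib]
  have e1 : ∑ s : S, (u.1 y - u.1 (y * (s : G)⁻¹)) = - ∑ s ∈ S, (u.1 (y * s) - u.1 y) := by
    rw [Finset.sum_coe_sort S (fun s => u.1 y - u.1 (y * s⁻¹)), ← Finset.sum_neg_distrib]
    refine Finset.sum_nbij' (fun s => s⁻¹) (fun s => s⁻¹) (fun s hs => hsym s hs)
      (fun s hs => hsym s hs) (fun s _ => inv_inv s) (fun s _ => inv_inv s) fun s _ => ?_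
    ring
  have e2 : ∑ s : S, (u.1 (y * s) - u.1 y) = ∑ s ∈ S, (u.1 (y * s) - u.1 y) :=
    Finset.sum_coe_sort S (fun s => u.1 (y * s) - u.1 y)
  rw [e1, e2]; ring

theorem Orth.harm (hsym : ∀ s ∈ S, s⁻¹ ∈ S) {u : Dir S} (hu : Orth u) (y : G) :
    ∑ s ∈ S, (u.1 (y * s) - u.1 y) = 0 := by
  classical
  have h := en_single hsym u y
  have h0 := hu ⟨Pi.single y (1 : ℝ), (single_mem y).mem_Dir⟩ (single_mem y)
  rw [h0] at h
  linarith

theorem orth_of_harm (hsym : ∀ s ∈ S, s⁻¹ ∈ S) {u : Dir S}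
    (hu : ∀ y : G, ∑ s ∈ S, (u.1 (y * s) - u.1 y) = 0) : Orth u := by
  classical
  intro ψ hψ
  let φ : lp (fun _ : G => ℝ) 2 := ⟨ψ.1, sqS_iff.1 hψ⟩
  have h1 : HasSum (fun x : G => lp.single 2 x (φ x)) φ := lp.hasSum_single (by norm_num) φ
  have h2 : HasSum (fun x : G => ⟪grad S u, gradL2 S (lp.single 2 x (φ x))⟫_ℝ)
      ⟪grad S u, gradL2 S φ⟫_ℝ :=
    ((innerSL ℝ (grad S u)).comp (gradL2 S)).hasSum h1
  have h3 : ∀ x : G, ⟪grad S u, gradL2 S (lp.single 2 x (φ x))⟫_ℝ = 0 := by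
    intro x
    have e1 : lp.single (E := fun _ : G => ℝ) 2 x (φ x) =
        φ x • (⟨Pi.single x (1 : ℝ), sqS_iff.1 (single_mem x)⟩ : lp (fun _ : G => ℝ) 2) := by
      refine lp.ext (funext fun y => ?_)
      rw [lp.coeFn_smul, Pi.smul_apply, lp.single_apply]
      change (Pi.single x (φ x) : G → ℝ) y = φ x • (Pi.single x (1 : ℝ) : G → ℝ) y
      by_cases h : y = x
      · subst h; simp
      · rw [Pi.single_eq_of_ne h, Pi.single_eq_of_ne h]; simp
    rw [e1, map_smul, inner_smul_right]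
    have := en_single hsym u x
    rw [hu x, mul_zero] at this
    have e2 : ⟪grad S u, gradL2 S
      (⟨Pi.single x (1 : ℝ), sqS_iff.1 (single_mem x)⟩ : lp (fun _ : G => ℝ) 2)⟫_ℝ = 0 := this
    rw [e2, mul_zero]
  have h4 := h2.unique ((congrArg (HasSum · (0 : ℝ)) (funext h3)).mpr hasSum_zero)
  exact h4

end Vale.Agent.P239
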