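import Vale.Agent.P239.AHMetric

/-!
Loxodromic elements for the resistance metric.
-/

namespace Vale.Agent.P239

open scoped ENNReal InnerProductSpace
open Filter Topology

variable {G : Type*} [Group G] {S : Finset G} (hS : Subgroup.closure (S : Set G) = ⊤)

/-- linear growth of the powers -/
def Lox (g : G) : Prop := ∃ c : ℝ, 0 < c ∧ ∀ n : ℕ, c * n ≤ res hS 1 (g ^ n)

/-- four point inequality -/
def Four (δ : ℝ) : Prop := ∀ x y z w : G,
  res hS x w + res hS y z ≤ max (res hS x y + res hS z w) (res hS x z + res hS y w) + δ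

theorem res_inv (g : G) : res hS 1 g⁻¹ = res hS 1 g := by
  rw [← res_mul hS g, mul_one, mul_inv_cancel, res_comm]

theorem two_gp (x y : G) : 2 * gp hS x y = res hS 1 x + res hS 1 y - res hS x y := by
  rw [res_one, res_one, res_eq]; ring

theorem gp_sub_le (x y y' : G) : gp hS x y ≤ gp hS x y' + res hS y y' := by
  have h1 := two_gp hS x y
  have h2 := two_gp hS x y'
  have h3 := res_triangle hS 1 y' y
  have h4 := res_triangle hS x y y'
  rw [res_comm hS y' y] at h3
  linarith

variable {hS}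

theorem Four.gp {δ : ℝ} (h : Four hS δ) (x y z : G) :
    min (gp hS x y) (gp hS y z) ≤ gp hS x z + δ / 2 := by
  have h1 := h x 1 y z
  have h2 := two_gp hS x y
  have h3 := two_gp hS y z
  have h4 := two_gp hS x z
  rw [res_comm hS x 1] at h1
  rcases max_choice (res hS 1 x + res hS y z) (res hS x y + res hS 1 z) with h5 | h5
  · rw [h5] at h1
    exact (min_le_right _ _).trans (by linarith)
  · rw [h5] at h1
    exact (min_le_left _ _).trans (by linarith)

theorem Four.lox {δ : ℝ} (h : Four hS δ) {g : G}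
    (hg : 2 * Vale.Agent.P239.gp hS g⁻¹ g + δ < res hS 1 g) : Lox hS g := by
  have ha2 : res hS 1 (g ^ 2) = 2 * res hS 1 g - 2 * Vale.Agent.P239.gp hS g⁻¹ g := by
    rw [two_gp, res_inv]
    have : res hS g⁻¹ g = res hS 1 (g ^ 2) := by
      rw [← res_mul hS g, mul_inv_cancel, sq]
    rw [this]; ring
  set a : ℕ → ℝ := fun n => res hS 1 (g ^ n) with ha
  have ha1 : a 1 = res hS 1 g := by simp [ha]
  set ε := a 2 - a 1 - δ with hε
  have hεpos : 0 < ε := by
    rw [hε, ha1]
    simp only [ha]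
    rw [ha2]
    linarith
  have hshift : ∀ m n : ℕ, res hS (g ^ m) (g ^ (m + n)) = a n := by
    intro m n
    simp only [ha]
    rw [pow_add]
    conv_lhs => rw [← mul_one (g ^ m), mul_assoc, one_mul]
    rw [res_mul]
  have hstep : ∀ n : ℕ, a (n + 1) + ε ≤ max (a n) (a (n + 2)) := by
    intro n
    have h1 := h 1 (g ^ n) (g ^ (n + 2)) (g ^ (n + 1))
    rw [hshift n 2, hshift n 1, res_comm hS (g ^ (n + 2)) (g ^ (n + 1)), hshift (n + 1) 1] at h1
    have h2 : max (a n + a 1) (a (n + 2) + a 1) = max (a n) (a (n + 2)) + a 1 :=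
      max_add_add_right _ _ _
    have h3 : a (n + 1) + a 2 ≤ max (a n + a 1) (a (n + 2) + a 1) + δ := h1
    rw [h2] at h3
    linarith
  have hδ : 0 ≤ δ := by
    have := h 1 1 1 1
    simp only [res_self, add_zero, max_self, zero_add] at this
    exact this
  have hinc : ∀ n : ℕ, a n + ε ≤ a (n + 1) := by
    intro n
    induction n with
    | zero =>
      have h0 : a 0 = 0 := by simp [ha, res_self]
      have h2 : a 2 ≤ 2 * a 1 := by
        have := res_triangle hS 1 (g ^ 1) (g ^ 2)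
        rw [hshift 1 1] at this
        change a 2 ≤ a 1 + a 1 at this
        linarith
      rw [h0]
      have : ε ≤ a 1 := by rw [hε]; linarith
      simpa using this
    | succ n ih =>
      rcases le_max_iff.1 (hstep n) with h1 | h1
      · linarith
      · exact h1
  refine ⟨ε, hεpos, fun n => ?_⟩
  change ε * n ≤ a n
  induction n with
  | zero => simp [ha, res_self]
  | succ n ih =>
    push_cast
    have := hinc n
    linarith

theorem Four.lox_mul {δ T : ℝ} (h : Four hS δ) {a b : G}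
    (h1 : Vale.Agent.P239.gp hS a⁻¹ b ≤ T) (h2 : Vale.Agent.P239.gp hS a b⁻¹ ≤ T)
    (ha : 4 * T + 4 * δ + 1 ≤ res hS 1 a) (hb : 4 * T + 4 * δ + 1 ≤ res hS 1 b) :
    Lox hS (a * b) := by
  have hδ : 0 ≤ δ := by
    have := h 1 1 1 1
    simp only [res_self, add_zero, max_self, zero_add] at this
    exact this
  have hT : 0 ≤ T := (gp_nonneg hS _ _).trans h1
  have hab : res hS 1 (a * b) = res hS a⁻¹ b := by
    rw [← res_mul hS a a⁻¹ b, mul_inv_cancel]
  have e1 := two_gp hS a⁻¹ b
  rw [res_inv, ← hab] at e1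
  -- gp (ab) a
  have e2 := two_gp hS a (a * b)
  have e2' : res hS a (a * b) = res hS 1 b := by
    conv_lhs => rw [← mul_one a, mul_assoc, one_mul]
    rw [res_mul]
  rw [e2'] at e2
  have e3 := two_gp hS (a * b)⁻¹ b⁻¹
  have e3' : res hS (a * b)⁻¹ b⁻¹ = res hS 1 a := by
    rw [mul_inv_rev]
    have : res hS (b⁻¹ * a⁻¹) b⁻¹ = res hS (b⁻¹ * a⁻¹) (b⁻¹ * 1) := by rw [mul_one]
    rw [this, res_mul, res_comm, res_inv]
  rw [e3', res_inv, res_inv] at e3
  refine h.lox ?_
  have h3 := h.gp a (a * b)⁻¹ b⁻¹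
  have h4 := h.gp a (a * b) (a * b)⁻¹
  have h5 : Vale.Agent.P239.gp hS a (a * b)⁻¹ ≤ T + δ / 2 := by
    rcases min_le_iff.1 h3 with h5 | h5
    · linarith
    · linarith
  have h6 : Vale.Agent.P239.gp hS (a * b) (a * b)⁻¹ ≤ T + δ := by
    rcases min_le_iff.1 h4 with h6 | h6
    · linarith
    · linarith
  rw [gp_comm]
  linarith

/-- Case (A): bounded elements accumulate. -/
theorem Four.exists_lox_of_infinite {δ : ℝ} (h : Four hS δ) {C : ℝ}
    (hC : {g : G | res hS 1 g ≤ C}.Infinite) (hunb : ∀ L : ℝ, ∃ a : G, L ≤ res hS 1 a) :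
    ∃ g : G, Lox hS g := by
  obtain ⟨a, ha⟩ := hunb (4 * (2 * C + 1) + 4 * δ + 1 + 2 * C)
  have hfin : ∀ x y : G, {g : G | 1 ≤ |en S (trD g (pot hS x)) (pot hS y)|}.Finite :=
    fun x y => finite_en_trD _ _ one_pos
  obtain ⟨g, hg, hg'⟩ := (hC.sdiff (((hfin a a).union (hfin a a⁻¹)).union
    ((hfin a⁻¹ a).union (hfin a⁻¹ a⁻¹)))).nonempty
  have hg1 : res hS 1 g ≤ C := hg
  have hC0 : 0 ≤ C := (res_nonneg hS 1 g).trans hg1
  simp only [Set.mem_union, Set.mem_ofPred_eq, not_or, not_le] at hg'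
  have key : ∀ x y : G, |en S (trD g (pot hS x)) (pot hS y)| < 1 →
      Vale.Agent.P239.gp hS y (g * x * g⁻¹) ≤ 2 * C + 1 := by
    intro x y hxy
    have e1 := gp_sub_le hS y (g * x * g⁻¹) (g * x)
    have e2 : res hS (g * x * g⁻¹) (g * x) ≤ C := by
      have : res hS (g * x * g⁻¹) (g * x) = res hS (g * x * g⁻¹) (g * x * 1) := by rw [mul_one]
      rw [this, res_mul, res_comm, res_inv]
      exact hg1
    have e3 : Vale.Agent.P239.gp hS y (g * x) =
        en S (trD g (pot hS x)) (pot hS y) + Vale.Agent.P239.gp hS y g := by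
      rw [(pot_isPot hS x).trans g, gp_eq, gp_eq, mul_one]; ring
    have e4 : Vale.Agent.P239.gp hS y g ≤ C := by
      rw [gp_comm]
      refine (gp_le hS g y).trans ?_
      rw [← res_one]; exact hg1
    have e5 := (abs_lt.1 hxy).2
    linarith
  have hinv : (g * a * g⁻¹)⁻¹ = g * a⁻¹ * g⁻¹ := by group
  refine ⟨a * (g * a * g⁻¹), h.lox_mul (T := 2 * C + 1) (key a a⁻¹ hg'.1.2) ?_ (by linarith) ?_⟩
  · rw [hinv]
    exact key a⁻¹ a hg'.2.1
  · have t1 := res_triangle hS g 1 (g * a)
    have t2 := res_triangle hS 1 (g * a * g⁻¹) (g * a)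
    have e2 : res hS (g * a * g⁻¹) (g * a) ≤ C := by
      have : res hS (g * a * g⁻¹) (g * a) = res hS (g * a * g⁻¹) (g * a * 1) := by rw [mul_one]
      rw [this, res_mul, res_comm, res_inv]
      exact hg1
    have e3 : res hS g (g * a) = res hS 1 a := by
      have : res hS g (g * a) = res hS (g * 1) (g * a) := by rw [mul_one]
      rw [this, res_mul]
    rw [res_comm hS g 1, e3] at t1
    linarith

/-- Case (B), first part: without loxodromics far points have large Gromov product. -/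
theorem Four.gp_large {δ : ℝ} (h : Four hS δ) (hno : ∀ g : G, ¬ Lox hS g) (L : ℝ) (hL : 0 ≤ L) :
    ∃ L' : ℝ, ∀ a b : G, L' ≤ res hS 1 a → L' ≤ res hS 1 b →
      L ≤ Vale.Agent.P239.gp hS a b := by
  have hδ : 0 ≤ δ := by
    have := h 1 1 1 1
    simp only [res_self, add_zero, max_self, zero_add] at this
    exact this
  have hinv : ∀ g : G, res hS 1 g - δ ≤ 2 * Vale.Agent.P239.gp hS g⁻¹ g := by
    intro g
    by_contra hc
    push Not at hc
    exact hno g (h.lox (by linarith))
  refine ⟨4 * (L + δ) + 4 * δ + 1, fun a b ha hb => ?_⟩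
  by_contra hc
  push Not at hc
  have h1 := hinv a
  have h2 := hinv b
  refine hno (a * b) (h.lox_mul (T := L + δ) ?_ ?_ ha hb)
  · have h3 := h.gp b a a⁻¹
    have h4 := h.gp b a⁻¹ a
    rw [gp_comm hS b a] at h4
    rcases min_le_iff.1 h4 with h5 | h5
    · rw [gp_comm]; linarith
    · linarith
  · have h4 := h.gp a b⁻¹ b
    rcases min_le_iff.1 h4 with h5 | h5
    · linarith
    · linarith

/-- Case (B), second part: oscillation at infinity is bounded. -/
theorem Four.osc {δ : ℝ} (h : Four hS δ) (hno : ∀ g : G, ¬ Lox hS g)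
    (hprop : ∀ L : ℝ, {g : G | res hS 1 g ≤ L}.Finite) (x : G) :
    ∃ A : Set G, A.Finite ∧ ∀ z ∉ A, ∀ z' ∉ A,
      (pot hS x).1 z' - (pot hS x).1 z ≤ δ / 2 := by
  have hδ : 0 ≤ δ := by
    have := h 1 1 1 1
    simp only [res_self, add_zero, max_self, zero_add] at this
    exact this
  obtain ⟨L', hL'⟩ := h.gp_large hno (res hS 1 x + δ + 1)
    (by have := res_nonneg hS 1 x; linarith)
  refine ⟨_, hprop L', fun z hz z' hz' => ?_⟩
  simp only [Set.mem_ofPred_eq, not_le] at hz hz'
  have h1 := hL' z' z hz'.le hz.le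
  have h2 := h.gp x z' z
  have h3 := gp_le hS x z
  rw [← res_one] at h3
  have h4 : Vale.Agent.P239.gp hS x z' ≤ Vale.Agent.P239.gp hS x z + δ / 2 := by
    rcases min_le_iff.1 h2 with h5 | h5
    · exact h5
    · linarith
  rw [gp_eq, gp_eq] at h4
  linarith

end Vale.Agent.P239
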