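import Vale.Agent.P239.AHFour

/-!
The resistance metric, its hyperbolicity, and the WPD property.
-/

namespace Vale.Agent.P239

open scoped ENNReal InnerProductSpace
open Filter Topology

variable {G : Type*} [Group G] {S : Finset G}

section Pot

/-- The chosen potential of `x` against `1`. -/
noncomputable def pot (hS : Subgroup.closure (S : Set G) = ⊤) (x : G) : Dir S :=
  (exists_pot hS x).choose

variable (hS : Subgroup.closure (S : Set G) = ⊤)

theorem pot_isPot (x : G) : IsPot x 1 (pot hS x) := (exists_pot hS x).choose_spec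

theorem pot_sub_isPot (x y : G) : IsPot x y (pot hS x - pot hS y) :=
  (pot_isPot hS x).sub (pot_isPot hS y)

/-- The effective resistance. -/
noncomputable def res (x y : G) : ℝ := en S (pot hS x - pot hS y) (pot hS x - pot hS y)

/-- The Gromov product at `1`. -/
noncomputable def gp (x y : G) : ℝ := en S (pot hS x) (pot hS y)

theorem gp_comm (x y : G) : gp hS x y = gp hS y x := en_comm _ _ _

theorem gp_eq (x y : G) : gp hS x y = (pot hS x).1 y - (pot hS x).1 1 := by
  rw [gp_comm]; rw [gp, pot_isPot hS y]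

theorem res_eq (x y : G) : res hS x y = gp hS x x + gp hS y y - 2 * gp hS x y := by
  rw [res, en_sub_left, en_sub_right, en_sub_right, en_comm S (pot hS y) (pot hS x)]
  simp only [gp]; ring

theorem gp_one (x : G) : gp hS 1 x = 0 := by
  rw [gp, pot_isPot hS 1]; ring

theorem gp_one' (x : G) : gp hS x 1 = 0 := by rw [gp_comm, gp_one]

theorem gp_nonneg (x y : G) : 0 ≤ gp hS x y := by
  rw [gp_eq]
  have := ((pot_isPot hS x).mem_range hS y).1
  linarith

theorem gp_le (x y : G) : gp hS x y ≤ gp hS x x := by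
  rw [gp_eq, gp_eq]
  have := ((pot_isPot hS x).mem_range hS y).2
  linarith

theorem res_comm (x y : G) : res hS x y = res hS y x := by
  rw [res_eq, res_eq, gp_comm hS y x]; ring

theorem res_self (x : G) : res hS x x = 0 := by rw [res_eq]; ring

theorem res_one (x : G) : res hS 1 x = gp hS x x := by
  rw [res_eq, gp_one, gp_one]; ring

theorem res_nonneg (x y : G) : 0 ≤ res hS x y := en_self_nonneg _ _

theorem res_isPot {x y : G} {w : Dir S} (h : IsPot x y w) : res hS x y = w.1 x - w.1 y := by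
  rw [res, (pot_sub_isPot hS x y).unique h, h.en_self]

theorem res_triangle (x y z : G) : res hS x z ≤ res hS x y + res hS y z := by
  have h := ((pot_sub_isPot hS x y).mem_range hS z).1
  have h1 : 0 ≤ en S (pot hS x - pot hS y) (pot hS z - pot hS y) := by
    rw [en_comm, pot_sub_isPot hS z y]
    linarith
  rw [en_sub_left, en_sub_right, en_sub_right] at h1
  rw [res_eq, res_eq, res_eq]
  have h2 : en S (pot hS y) (pot hS z) = gp hS y z := rfl
  have h3 : en S (pot hS y) (pot hS y) = gp hS y y := rfl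
  have h4 : en S (pot hS x) (pot hS z) = gp hS x z := rfl
  have h5 : en S (pot hS x) (pot hS y) = gp hS x y := rfl
  rw [h2, h3, h4, h5] at h1
  linarith

/-- Hyperbolicity of the effective resistance. -/
theorem exists_four_point [Countable G] {F : Finset G} (hF : CrossProp S F) :
    ∃ δ : ℝ, 0 ≤ δ ∧ ∀ x y z w : G,
      res hS x w + res hS y z ≤ max (res hS x y + res hS z w) (res hS x z + res hS y w) + δ := by
  obtain ⟨C, hC0, hC⟩ := exists_rect_bound hS hF
  refine ⟨2 * C, by positivity, fun x y z w => ?_⟩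
  have h := hC x y z w _ _ (pot_sub_isPot hS x z) (pot_sub_isPot hS x y)
  have h1 : (pot hS x - pot hS z).1 y - (pot hS x - pot hS z).1 w =
      (res hS x w + res hS y z - (res hS x y + res hS z w)) / 2 := by
    rw [← pot_sub_isPot hS y w, en_sub_left, en_sub_right, en_sub_right]
    simp only [res_eq, gp]
    rw [en_comm S (pot hS y) (pot hS x), en_comm S (pot hS w) (pot hS x),
      en_comm S (pot hS w) (pot hS z)]
    ring
  have h2 : (pot hS x - pot hS y).1 z - (pot hS x - pot hS y).1 w =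
      (res hS x w + res hS y z - (res hS x z + res hS y w)) / 2 := by
    rw [← pot_sub_isPot hS z w, en_sub_left, en_sub_right, en_sub_right]
    simp only [res_eq, gp]
    rw [en_comm S (pot hS z) (pot hS x), en_comm S (pot hS z) (pot hS y),
      en_comm S (pot hS w) (pot hS x), en_comm S (pot hS w) (pot hS y)]
    ring
  rw [h1, h2] at h
  rcases min_le_iff.1 h with h | h
  · have := le_max_left (res hS x y + res hS z w) (res hS x z + res hS y w)
    linarith
  · have := le_max_right (res hS x y + res hS z w) (res hS x z + res hS y w)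
    linarith

end Pot

section Trans

/-- The permutation of directed edges. -/
def edgePerm (S : Finset G) (g : G) : S × G ≃ S × G where
  toFun p := (p.1, g⁻¹ * p.2)
  invFun p := (p.1, g * p.2)
  left_inv p := by simp
  right_inv p := by simp

theorem mem_Dir_trans {f : G → ℝ} (hf : f ∈ Dir S) (g : G) : (fun x => f (g⁻¹ * x)) ∈ Dir S := by
  rw [mem_Dir] at hf ⊢
  rw [memℓp_gen_iff (by norm_num)] at hf ⊢
  have h := (edgePerm S g).summable_iff.2 hf
  refine h.congr fun p => ?_
  change ‖f (g⁻¹ * p.2 * (p.1 : G)) - f (g⁻¹ * p.2)‖ ^ _ =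
    ‖f (g⁻¹ * (p.2 * (p.1 : G))) - f (g⁻¹ * p.2)‖ ^ _
  rw [mul_assoc]

/-- Translation. -/
noncomputable def trD (g : G) (f : Dir S) : Dir S := ⟨fun x => f.1 (g⁻¹ * x), mem_Dir_trans f.2 g⟩

theorem en_trD (g : G) (f f' : Dir S) : en S (trD g f) (trD g f') = en S f f' := by
  have h1 := hasSum_en S (trD g f) (trD g f')
  have h2 := (edgePerm S g).hasSum_iff.2 (hasSum_en S f f')
  refine h1.unique ?_
  refine (congrArg (HasSum · (en S f f')) (funext fun p => ?_)).mp h2
  change (f.1 (g⁻¹ * p.2 * (p.1 : G)) - f.1 (g⁻¹ * p.2)) *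
    (f'.1 (g⁻¹ * p.2 * (p.1 : G)) - f'.1 (g⁻¹ * p.2)) =
    (f.1 (g⁻¹ * (p.2 * (p.1 : G))) - f.1 (g⁻¹ * p.2)) *
    (f'.1 (g⁻¹ * (p.2 * (p.1 : G))) - f'.1 (g⁻¹ * p.2))
  rw [mul_assoc]

theorem trD_trD (g h : G) (f : Dir S) : trD g (trD h f) = trD (g * h) f := by
  refine Subtype.ext (funext fun x => ?_)
  change f.1 (h⁻¹ * (g⁻¹ * x)) = f.1 ((g * h)⁻¹ * x)
  rw [mul_inv_rev, mul_assoc]

theorem trD_one (f : Dir S) : trD 1 f = f := by
  refine Subtype.ext (funext fun x => ?_)
  change f.1 (1⁻¹ * x) = f.1 x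
  rw [inv_one, one_mul]

theorem IsPot.trans {x y : G} {w : Dir S} (h : IsPot x y w) (g : G) :
    IsPot (g * x) (g * y) (trD g w) := by
  intro f
  have h1 : f = trD g (trD g⁻¹ f) := by rw [trD_trD, mul_inv_cancel, trD_one]
  rw [h1, en_trD, h]
  change f.1 (g⁻¹⁻¹ * x) - f.1 (g⁻¹⁻¹ * y) =
    f.1 (g⁻¹⁻¹ * (g⁻¹ * (g * x))) - f.1 (g⁻¹⁻¹ * (g⁻¹ * (g * y)))
  rw [inv_inv, inv_mul_cancel_left, inv_mul_cancel_left]

theorem res_mul (hS : Subgroup.closure (S : Set G) = ⊤) (g x y : G) :
    res hS (g * x) (g * y) = res hS x y := by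
  rw [res_isPot hS ((pot_sub_isPot hS x y).trans g), ← ((pot_sub_isPot hS x y).trans g).en_self,
    en_trD]
  rfl

/-- Matrix coefficients vanish at infinity. -/
theorem tendsto_inner_trD (f : Dir S) (η : HS S) :
    Tendsto (fun h : G => ⟪grad S (trD h f), η⟫_ℝ) cofinite (𝓝 0) := by
  classical
  have hnorm : ∀ h : G, ‖grad S (trD h f)‖ = ‖grad S f‖ := by
    intro h
    have h1 := en_self S (trD h f)
    rw [en_trD, en_self] at h1
    exact ((pow_left_inj₀ (norm_nonneg _) (norm_nonneg _) two_ne_zero).1 h1).symm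
  rw [Metric.tendsto_nhds]
  intro ε hε
  have hsum : HasSum (fun p : S × G => lp.single 2 p (η p)) η := lp.hasSum_single (by norm_num) η
  obtain ⟨T, hT⟩ := ((Metric.tendsto_nhds.1 hsum (ε / (2 * (‖grad S f‖ + 1))) (by positivity))).exists
  have hfin : Tendsto (fun h : G => ∑ p ∈ T, (grad S f (p.1, h⁻¹ * p.2)) * η p) cofinite (𝓝 0) := by
    have h0 : (0 : ℝ) = ∑ p ∈ T, 0 * η p := by simp
    rw [h0]
    refine tendsto_finsetSum _ fun p _ => Tendsto.mul_const _ ?_
    have h1 : Tendsto (fun q : S × G => grad S f q) cofinite (𝓝 0) := by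
      have h2 := (hasSum_en S f f).summable.tendsto_cofinite_zero
      have h3 := (Real.continuous_sqrt.tendsto 0).comp h2
      rw [Real.sqrt_zero] at h3
      rw [tendsto_zero_iff_abs_tendsto_zero]
      refine h3.congr fun q => ?_
      simp only [Function.comp_apply, Real.sqrt_mul_self_eq_abs, grad_apply]
    refine h1.comp (Function.Injective.tendsto_cofinite ?_)
    intro a b hab
    have := (Prod.ext_iff.1 hab).2
    simpa using this
  filter_upwards [Metric.tendsto_nhds.1 hfin (ε / 2) (by positivity)] with h hh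
  rw [dist_zero_right] at hh ⊢
  have h1 : ⟪grad S (trD h f), ∑ p ∈ T, lp.single 2 p (η p)⟫_ℝ =
      ∑ p ∈ T, (grad S f (p.1, h⁻¹ * p.2)) * η p := by
    rw [inner_sum]
    refine Finset.sum_congr rfl fun p _ => ?_
    rw [lp.inner_single_right]
    simp only [grad_apply]
    simp [trD, mul_comm, mul_assoc]
  have h2 : ⟪grad S (trD h f), η⟫_ℝ = ⟪grad S (trD h f), η - ∑ p ∈ T, lp.single 2 p (η p)⟫_ℝ +
      ∑ p ∈ T, (grad S f (p.1, h⁻¹ * p.2)) * η p := by
    rw [inner_sub_right, h1]; ring
  rw [h2]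
  refine (norm_add_le _ _).trans_lt ?_
  have h3 : ‖⟪grad S (trD h f), η - ∑ p ∈ T, lp.single 2 p (η p)⟫_ℝ‖ ≤ ε / 2 := by
    refine (norm_inner_le_norm _ _).trans ?_
    rw [hnorm, ← dist_eq_norm, dist_comm]
    have h4 : ‖grad S f‖ * (ε / (2 * (‖grad S f‖ + 1))) ≤ ε / 2 := by
      rw [mul_div_assoc', div_le_div_iff₀ (by positivity) (by positivity)]
      nlinarith [norm_nonneg (grad S f)]
    exact (mul_le_mul_of_nonneg_left hT.le (norm_nonneg _)).trans h4
  linarith

theorem finite_en_trD (f f' : Dir S) {ε : ℝ} (hε : 0 < ε) :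
    {h : G | ε ≤ |en S (trD h f) f'|}.Finite := by
  have h := tendsto_inner_trD f (grad S f')
  have h1 := (Metric.tendsto_nhds.1 h ε hε)
  rw [Filter.eventually_cofinite] at h1
  refine h1.subset fun x hx => ?_
  simp only [Set.mem_ofPred_eq, not_lt, dist_zero_right]
  exact hx

/-- Finiteness of joint coarse stabilizers. -/
theorem finite_coarse_stab (hS : Subgroup.closure (S : Set G) = ⊤) {x y : G} {ε : ℝ}
    (hxy : 2 * ε < res hS x y) :
    {h : G | res hS x (h * x) ≤ ε ∧ res hS y (h * y) ≤ ε}.Finite := by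
  set w := pot hS x - pot hS y with hw
  have hwp : IsPot x y w := pot_sub_isPot hS x y
  refine (finite_en_trD w w (ε := res hS x y - 2 * ε) (by linarith)).subset ?_
  rintro h ⟨h1, h2⟩
  simp only [Set.mem_ofPred_eq]
  refine le_trans ?_ (le_abs_self _)
  rw [hwp.trans h w]
  have key : ∀ a b : G, w.1 a - w.1 b ≤ res hS a b := by
    intro a b
    have hu := pot_sub_isPot hS a b
    rw [← hu w, en_comm, hwp, res_isPot hS hu]
    exact sub_le_sub (hu.mem_range hS x).2 (hu.mem_range hS y).1
  have h3 := key x (h * x)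
  have h4 := key (h * y) y
  rw [res_comm] at h4
  rw [res_isPot hS hwp]
  linarith

end Trans

end Vale.Agent.P239
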