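import Vale.Agent.P239.AHDir

/-!
Elementary properties of potentials.
-/

namespace Vale.Agent.P239

open scoped ENNReal InnerProductSpace

variable {G : Type*} [Group G] {S : Finset G}

theorem mem_Dir_of_le {f : G → ℝ} (hf : f ∈ Dir S) {g : G → ℝ}
    (h : ∀ p : S × G, |g (p.2 * (p.1 : G)) - g p.2| ≤ |f (p.2 * (p.1 : G)) - f p.2|) :
    g ∈ Dir S := by
  rw [mem_Dir] at hf ⊢
  rw [memℓp_gen_iff (by norm_num)] at hf ⊢
  refine hf.of_nonneg_of_le (fun p => by positivity) fun p => ?_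
  rw [Real.norm_eq_abs, Real.norm_eq_abs]
  exact Real.rpow_le_rpow (abs_nonneg _) (h p) (by norm_num)

theorem mem_Dir_of_contr {f : G → ℝ} (hf : f ∈ Dir S) {g : G → ℝ}
    (h : ∀ p : S × G, (g (p.2 * (p.1 : G)) - g p.2) ^ 2 ≤
      (f (p.2 * (p.1 : G)) - f p.2) * (g (p.2 * (p.1 : G)) - g p.2)) :
    g ∈ Dir S := by
  refine mem_Dir_of_le hf fun p => ?_
  have h1 := h p
  rcases eq_or_ne (g (p.2 * (p.1 : G)) - g p.2) 0 with h0 | h0
  · rw [h0, abs_zero]; exact abs_nonneg _
  · have h2 : |g (p.2 * (p.1 : G)) - g p.2| * |g (p.2 * (p.1 : G)) - g p.2| ≤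
        |f (p.2 * (p.1 : G)) - f p.2| * |g (p.2 * (p.1 : G)) - g p.2| := by
      rw [← abs_mul, ← abs_mul]
      refine le_trans ?_ (h1.trans (le_abs_self _))
      rw [abs_of_nonneg (mul_self_nonneg _)]
      exact le_of_eq (sq _).symm
    exact le_of_mul_le_mul_right h2 (abs_pos.2 h0)

theorem en_le_of_contr (f : Dir S) (g : Dir S)
    (h : ∀ p : S × G, (g.1 (p.2 * (p.1 : G)) - g.1 p.2) ^ 2 ≤
      (f.1 (p.2 * (p.1 : G)) - f.1 p.2) * (g.1 (p.2 * (p.1 : G)) - g.1 p.2)) :
    en S g g ≤ en S f g := by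
  refine hasSum_le (fun p => ?_) (hasSum_en S g g) (hasSum_en S f g)
  rw [← sq]
  exact h p

/-- `w` represents `f ↦ f x - f y`. -/
def IsPot (x y : G) (w : Dir S) : Prop := ∀ f : Dir S, en S w f = f.1 x - f.1 y

theorem IsPot.neg {x y : G} {w : Dir S} (h : IsPot x y w) : IsPot y x (-w) := by
  intro f
  have : -w = (-1 : ℝ) • w := (neg_one_smul ℝ w).symm
  rw [this, en_smul_left, h f]; ring

theorem IsPot.sub {x y z : G} {w w' : Dir S} (h : IsPot x z w) (h' : IsPot y z w') :
    IsPot x y (w - w') := by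
  intro f
  rw [en_sub_left, h f, h' f]; ring

theorem IsPot.en_self {x y : G} {w : Dir S} (h : IsPot x y w) : en S w w = w.1 x - w.1 y := h w

theorem IsPot.le {x y : G} {w : Dir S} (h : IsPot x y w) : w.1 y ≤ w.1 x := by
  have := h.en_self
  have := en_self_nonneg S w
  linarith

theorem IsPot.unique {x y : G} {w w' : Dir S} (h : IsPot x y w) (h' : IsPot x y w') :
    en S w w = en S w' w' := by
  rw [h.en_self, ← h' w, en_comm, h w', ← h'.en_self]

/-- clamping to `[s, t]` -/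
noncomputable def clp (s t r : ℝ) : ℝ := max s (min t r)

theorem clp_sq {s t : ℝ} (a b : ℝ) :
    (clp s t a - clp s t b) ^ 2 ≤ (a - b) * (clp s t a - clp s t b) := by
  have h1 : |clp s t a - clp s t b| ≤ |a - b| := by
    unfold clp
    exact (abs_max_sub_max_le_max _ _ _ _).trans (by
      rw [sub_self, abs_zero, max_eq_right (abs_nonneg _)]
      exact (abs_min_sub_min_le_max _ _ _ _).trans (by
        rw [sub_self, abs_zero, max_eq_right (abs_nonneg _)]))
  have hmono : ∀ {a b : ℝ}, a ≤ b → clp s t a ≤ clp s t b := fun hab =>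
    max_le_max le_rfl (min_le_min le_rfl hab)
  rcases le_total a b with hab | hab
  · have h2 := hmono hab
    rw [abs_of_nonpos (by linarith), abs_of_nonpos (by linarith)] at h1
    nlinarith
  · have h2 := hmono hab
    rw [abs_of_nonneg (by linarith), abs_of_nonneg (by linarith)] at h1
    nlinarith

theorem clp_mem {s t : ℝ} (hst : s ≤ t) (r : ℝ) : s ≤ clp s t r ∧ clp s t r ≤ t :=
  ⟨le_max_left _ _, max_le hst (min_le_left _ _)⟩

theorem clp_of_le {s t r : ℝ} (hst : s ≤ t) (h : t ≤ r) : clp s t r = t := by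
  rw [clp, min_eq_left h, max_eq_right hst]

theorem clp_of_ge {s t r : ℝ} (hst : s ≤ t) (h : r ≤ s) : clp s t r = s := by
  rw [clp, min_eq_right (h.trans hst), max_eq_left h]

/-- the clamped function -/
noncomputable def cD (s t : ℝ) (w : Dir S) : Dir S :=
  ⟨fun x => clp s t (w.1 x), mem_Dir_of_contr w.2 fun _ => clp_sq _ _⟩

theorem IsPot.en_clamp {x y : G} {w : Dir S} (h : IsPot x y w) {s t : ℝ} (hst : s ≤ t)
    (hs : w.1 y ≤ s) (ht : t ≤ w.1 x) : en S (cD s t w) (cD s t w) ≤ t - s := by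
  refine (en_le_of_contr w (cD s t w) fun _ => clp_sq _ _).trans ?_
  rw [h]
  change clp s t (w.1 x) - clp s t (w.1 y) ≤ t - s
  rw [clp_of_le hst ht, clp_of_ge hst hs]

theorem IsPot.mem_range (hS : Subgroup.closure (S : Set G) = ⊤) {x y : G} {w : Dir S}
    (h : IsPot x y w) (z : G) : w.1 y ≤ w.1 z ∧ w.1 z ≤ w.1 x := by
  have hle := h.le
  have h1 := h.en_clamp hle le_rfl le_rfl
  set c := cD (w.1 y) (w.1 x) w with hc
  have hx : c.1 x = w.1 x := clp_of_le hle le_rfl
  have hy : c.1 y = w.1 y := clp_of_ge hle le_rfl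
  have h2 : en S (w - c) (w - c) = 0 := by
    refine le_antisymm ?_ (en_self_nonneg S _)
    rw [en_sub_left, en_sub_right, en_sub_right, en_comm S c w, h c, h w, hx, hy]
    linarith
  have h3 := const_of_en_self hS h2 z
  have h4 := const_of_en_self hS h2 x
  have h5 : w.1 z - c.1 z = w.1 x - c.1 x := h3.trans h4.symm
  rw [hx, sub_self, sub_eq_zero] at h5
  rw [h5]
  exact clp_mem hle _

/-- adjacency -/
def Adj (S : Finset G) (a b : G) : Prop := ∃ s ∈ S, b = a * s ∨ a = b * s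

theorem Adj.symm {a b : G} (h : Adj S a b) : Adj S b a := by
  obtain ⟨s, hs, h | h⟩ := h
  · exact ⟨s, hs, Or.inr h⟩
  · exact ⟨s, hs, Or.inl h⟩

/-- connectedness inside `A` -/
def Con (S : Finset G) (A : Set G) : G → G → Prop :=
  Relation.ReflTransGen fun a b => a ∈ A ∧ b ∈ A ∧ Adj S a b

theorem Con.symm {A : Set G} {x y : G} (h : Con S A x y) : Con S A y x := by
  induction h with
  | refl => exact Relation.ReflTransGen.refl
  | tail _ hbc ih => exact Relation.ReflTransGen.head ⟨hbc.2.1, hbc.1, hbc.2.2.symm⟩ ih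

theorem IsPot.con (hS : Subgroup.closure (S : Set G) = ⊤) {x y : G} {w : Dir S}
    (h : IsPot x y w) {t : ℝ} (ht : w.1 y < t) {z : G} (hz : t < w.1 z) :
    Con S {u | t < w.1 u} x z := by
  classical
  by_contra hcon
  let U : Set G := {u | t < w.1 u ∧ ¬ Con S {u | t < w.1 u} x u}
  let g : G → ℝ := fun u => if u ∈ U then w.1 u - t else 0
  have hxt : t < w.1 x := lt_of_lt_of_le hz (h.mem_range hS z).2
  have hcase : ∀ a b : G, Adj S a b → a ∈ U → b ∉ U → w.1 b ≤ t := by
    intro a b hab ha hb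
    by_contra hbt
    push Not at hbt
    apply hb
    refine ⟨hbt, fun hc => ha.2 ?_⟩
    exact hc.tail ⟨hbt, ha.1, hab.symm⟩
  have hg : ∀ p : S × G, (g (p.2 * (p.1 : G)) - g p.2) ^ 2 ≤
      (w.1 (p.2 * (p.1 : G)) - w.1 p.2) * (g (p.2 * (p.1 : G)) - g p.2) := by
    rintro ⟨s, a⟩
    have hadj : Adj S a (a * s) := ⟨s, s.2, Or.inl rfl⟩
    simp only [g]
    by_cases ha : a ∈ U <;> by_cases hb : a * (s : G) ∈ U
    · rw [if_pos ha, if_pos hb]; nlinarith
    · have h1 := hcase _ _ hadj ha hb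
      rw [if_pos ha, if_neg hb]
      have h2 : t < w.1 a := ha.1
      nlinarith
    · have h1 := hcase _ _ hadj.symm hb ha
      rw [if_neg ha, if_pos hb]
      have h2 : t < w.1 (a * s) := hb.1
      nlinarith
    · rw [if_neg ha, if_neg hb]; simp
  let gD : Dir S := ⟨g, mem_Dir_of_contr w.2 hg⟩
  have h1 : en S gD gD ≤ en S w gD := en_le_of_contr w gD hg
  have hx : g x = 0 := if_neg fun hx => hx.2 Relation.ReflTransGen.refl
  have hy : g y = 0 := if_neg fun hy => absurd hy.1 (not_lt.2 ht.le)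
  rw [h gD] at h1
  change en S gD gD ≤ g x - g y at h1
  rw [hx, hy, sub_zero] at h1
  have h2 := le_antisymm h1 (en_self_nonneg S _)
  have h3 : g z = g x := (const_of_en_self hS h2 z).trans (const_of_en_self hS h2 x).symm
  rw [hx] at h3
  have hzU : z ∈ U := ⟨hz, hcon⟩
  simp only [g] at h3
  rw [if_pos hzU] at h3
  linarith

end Vale.Agent.P239
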