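import Mathlib

namespace Vale.Agent.P239

/-- The Følner condition: `G` is amenable. For every finite set `S` of elements and every `n` there
is a finite nonempty set `F` such that for every `s` in `S` the number of points of `F` which left
multiplication by `s` moves out of `F` is at most `1 / n` of the number of points of `F`. -/
def Foelner (G : Type*) [Group G] : Prop :=
  ∀ (S : Finset G) (n : ℕ), ∃ F : Finset G, F.Nonempty ∧
    ∀ s ∈ S, n * {x | x ∈ F ∧ s * x ∉ F}.ncard ≤ F.card

end Vale.Agent.P239
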