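import Vale.Agent.P239.VN3

/-! Conditional expectation onto the von Neumann algebra of a subgroup. -/

set_option linter.unusedSectionVars false

namespace Vale.Agent.P239

open scoped ENNReal InnerProductSpace

variable {G : Type*} [Group G] (H : Subgroup G)

theorem norm_slice_one_le (ξ : L2 G) : ‖slice H 1 ξ‖ ≤ 1 * ‖ξ‖ := by
  rw [one_mul]
  refine le_of_sq_le_sq ?_ (norm_nonneg _)
  rw [norm_sq_eq_tsum, norm_sq_eq_tsum]
  have h1 : Summable fun h : H => ‖ξ ((h : G) * 1)‖ ^ 2 :=
    (summable_norm_sq ξ).comp_injective (i := fun h : H => (h : G) * 1)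
      (fun a b hab => Subtype.ext (mul_right_cancel hab))
  exact Summable.tsum_le_tsum_of_inj (f := fun h : H => ‖ξ ((h : G) * 1)‖ ^ 2)
    (g := fun y => ‖ξ y‖ ^ 2) (fun h : H => (h : G) * 1)
    (fun a b hab => Subtype.ext (mul_right_cancel hab)) (fun _ _ => by positivity)
    (fun _ => le_rfl) h1 (summable_norm_sq ξ)

/-- restriction to the subgroup as a continuous linear map -/
noncomputable def sliceC : L2 G →L[ℂ] L2 H :=
  LinearMap.mkContinuous (slice H 1) 1 (norm_slice_one_le H)

theorem sliceC_apply (ξ : L2 G) : sliceC H ξ = slice H 1 ξ := rfl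

/-- extension by zero -/
noncomputable def extC : L2 H →L[ℂ] L2 G := ContinuousLinearMap.adjoint (sliceC H)

theorem inner_extC (v : L2 H) (ξ : L2 G) : ⟪extC H v, ξ⟫_ℂ = ⟪v, slice H 1 ξ⟫_ℂ := by
  rw [extC, ContinuousLinearMap.adjoint_inner_left]; rfl

theorem extC_dl (h : H) : extC H (dl h) = dl (h : G) := by
  refine ext_inner_right ℂ fun ξ => ?_
  rw [inner_extC, inner_dl, inner_dl, slice_apply, mul_one]

theorem extC_rTrans (h : H) (v : L2 H) : extC H (rTrans h v) = rTrans (h : G) (extC H v) := by
  refine ext_inner_right ℂ fun ξ => ?_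
  rw [inner_extC, inner_rTrans_left, inner_rTrans_left, inner_extC]
  congr 1
  rw [slice_rTrans, one_mul]
  have := slice_mul H h⁻¹ 1 ξ
  rw [mul_one] at this
  rw [← this]
  rfl

/-- The conditional expectation. -/
noncomputable def condE (a : VN G) : VN H :=
  VN.mk ((sliceC H).comp (a.op.comp (extC H))) (by
    intro h v
    change slice H 1 (a.op (extC H (rTrans h v))) = rTrans h (slice H 1 (a.op (extC H v)))
    rw [extC_rTrans, VN.op_comm, slice_rTrans, one_mul]
    have := slice_mul H h 1 (a.op (extC H v))
    rw [mul_one] at this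
    exact this)

theorem condE_op (a : VN G) (v : L2 H) : (condE H a).op v = slice H 1 (a.op (extC H v)) := rfl

theorem condE_mul (b : VN H) (a : VN G) : condE H (indHom H b * a) = b * condE H a := by
  refine VN.ext_op fun v => ?_
  rw [condE_op, map_mul, map_mul, mul_apply_eq_comp, mul_apply_eq_comp, condE_op]
  exact slice_ind H b _ 1

theorem condE_add (a b : VN G) : condE H (a + b) = condE H a + condE H b := by
  refine VN.ext_op fun v => ?_
  rw [condE_op, map_add, map_add, add_apply, add_apply, condE_op, condE_op, map_add]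

theorem condE_zero : condE H (0 : VN G) = 0 := by
  refine VN.ext_op fun v => ?_
  rw [condE_op, map_zero, map_zero, zero_apply, zero_apply, map_zero]

theorem condE_sum {ι : Type*} (s : Finset ι) (f : ι → VN G) :
    condE H (∑ i ∈ s, f i) = ∑ i ∈ s, condE H (f i) := by
  classical
  induction s using Finset.induction_on with
  | empty => simp [condE_zero]
  | insert a s ha ih => rw [Finset.sum_insert ha, Finset.sum_insert ha, condE_add, ih]

theorem tr_condE (a : VN G) : tr (condE H a) = tr a := by
  rw [tr_eq, tr_eq, inner_dl, inner_dl, condE_op, slice_apply, extC_dl]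
  simp

theorem retr_condE (a : VN G) : retr (condE H a) = retr a := by
  rw [retr_apply, retr_apply, tr_condE]

/-- the coset components of an element -/
theorem condE_mul_lam (a : VN G) (q : G ⧸ H) :
    (condE H (a * lam (Quotient.out q))).op (dl 1) = slice H (rep H q) (a.op (dl 1)) := by
  rw [condE_op, extC_dl, map_mul, mul_apply_eq_comp, lam_dl]
  have : (dl (Quotient.out q * ((1 : H) : G)) : L2 G) = rTrans (rep H q) (dl 1) := by
    rw [rTrans_dl, rep, inv_inv, one_mul]; simp
  rw [this, VN.op_comm, slice_rTrans, one_mul]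

/-- Bessel inequality for coset components -/
theorem condE_bessel (a : VN G) (s : Finset (G ⧸ H)) :
    ∑ q ∈ s, retr (star (condE H (a * lam (Quotient.out q))) *
      condE H (a * lam (Quotient.out q))) ≤ retr (star a * a) := by
  simp only [retr_star_mul_self, condE_mul_lam]
  rw [norm_sq_coset H (a.op (dl 1))]
  exact (summable_coset H _).sum_le_tsum s (fun _ _ => by positivity)

theorem indHom_injective : Function.Injective (indHom H) := by
  rw [injective_iff_map_eq_zero]
  intro a ha
  refine (vnData H).faithful a ?_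
  change retr (star a * a) = 0
  rw [retr_apply, ← tr_indHom, map_mul, ha, mul_zero]
  rw [tr_eq, map_zero, zero_apply, inner_zero_right]
  rfl

theorem slice_dl_of_not_mem {y x : G} (h : x * y⁻¹ ∉ H) : slice H y (dl x) = 0 := by
  classical
  refine lp.ext (funext fun k => ?_)
  rw [slice_apply, dl_apply, if_neg]
  · rfl
  · intro e
    apply h
    rw [← e, mul_inv_cancel_right]
    exact k.2

theorem slice_dl_of_mem {y x : G} (h : x * y⁻¹ ∈ H) : slice H y (dl x) = dl (⟨x * y⁻¹, h⟩ : H) := by
  classical
  refine lp.ext (funext fun k => ?_)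
  rw [slice_apply, dl_apply, dl_apply]
  congr 1
  rw [Subtype.ext_iff, eq_mul_inv_iff_mul_eq]

/-- An element of the von Neumann algebra of `G` supported on `H` comes from `H`. -/
theorem indHom_condE (c : VN G) (hc : ∀ y ∉ H, c.op (dl 1) y = 0) : indHom H (condE H c) = c := by
  refine VN.op_ext_one (lp.ext (funext fun y => ?_))
  rw [indHom_apply]
  by_cases hy : y ∈ H
  · have hy' : (1 : G) * y⁻¹ ∈ H := by rw [one_mul]; exact H.inv_mem hy
    rw [slice_dl_of_mem H hy', condE_op, extC_dl, slice_apply, VN.op_dl]
    simp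
  · have hy' : (1 : G) * y⁻¹ ∉ H := by rwa [one_mul, H.inv_mem_iff]
    rw [slice_dl_of_not_mem H hy', map_zero, hc y hy]
    rfl

/-- Conjugation by an element normalizing the subgroup. -/
theorem exists_conj [H.Normal] (g : G) (a : VN H) :
    ∃ b : VN H, indHom H b = lam g * indHom H a * lam g⁻¹ := by
  refine ⟨condE H (lam g * indHom H a * lam g⁻¹), indHom_condE H _ fun y hy => ?_⟩
  rw [map_mul, map_mul, mul_apply_eq_comp, mul_apply_eq_comp, lam_dl, lam_op_apply, indHom_apply,
    slice_dl_of_not_mem, map_zero]
  · rfl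
  · intro h
    apply hy
    have h2 := ‹H.Normal›.conj_mem _ h g
    have h3 := H.inv_mem h2
    convert h3 using 1
    group

end Vale.Agent.P239
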