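import Mathlib

/-!
CAT(0) cube complexes, encoded by their 1-skeleta (median graphs), and their hyperplanes.
-/

namespace Vale.Agent.P239

variable {V : Type*} (Y : SimpleGraph V)

/-- `m` lies on a geodesic from `a` to `b`. -/
def Btw (a m b : V) : Prop := Y.dist a m + Y.dist m b = Y.dist a b

/-- `Y` is a median graph: it is connected and any three vertices have exactly one median. The
median graphs are exactly the 1-skeleta of the CAT(0) cube complexes (and the cube complex is
determined by the graph: its cubes are the induced cube subgraphs). -/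
def IsMedian : Prop :=
  Y.Connected ∧ ∀ a b c, ∃! m, Btw Y a m b ∧ Btw Y b m c ∧ Btw Y a m c

/-- `a` and `b` are adjacent vertices of the link of the vertex `v` in the cube complex: `v a` and
`v b` are two edges of a square (4-cycle) of `Y`. -/
def LinkAdj (v a b : V) : Prop :=
  Y.Adj v a ∧ Y.Adj v b ∧ a ≠ b ∧ ∃ u, u ≠ v ∧ Y.Adj a u ∧ Y.Adj b u

/-- Parallelism of oriented edges, the equivalence relation generated by reversing the orientation
and by passing to the opposite edge of a square. -/
def Par : V × V → V × V → Prop :=
  Relation.EqvGen fun p q => q = (p.2, p.1) ∨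
    (Y.Adj p.1 p.2 ∧ Y.Adj q.1 q.2 ∧ Y.Adj p.1 q.1 ∧ Y.Adj p.2 q.2 ∧ p.1 ≠ q.2 ∧ p.2 ≠ q.1)

/-- The hyperplane dual to an edge: the set of all edges parallel to it. -/
def hyp (e : V × V) : Set (V × V) := {f | Par Y e f}

end Vale.Agent.P239
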