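import Vale.Agent.P239.SubInst

/-!
# L2-Betti numbers of spaces with a group action

Definitions used in the statements for P239.
-/

namespace Vale.Agent.P239

open scoped ENNReal

/-- The Hilbert space `ℓ²(G)` of square-summable complex functions on `G`. -/
noncomputable abbrev L2 (G : Type*) : Type _ := lp (fun _ : G => ℂ) 2

/-- Reindexing along a permutation `σ` of `G`: `(shift σ ξ) x = ξ (σ x)`. -/
noncomputable def shift {G : Type*} (σ : Equiv.Perm G) : L2 G →ₗᵢ[ℂ] L2 G where
  toFun ξ := ⟨fun x => ξ (σ x), by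
    have h := lp.memℓp ξ
    rw [memℓp_gen_iff (by norm_num)] at h
    have h2 : Memℓp (fun x => ξ (σ x)) 2 := by
      rw [memℓp_gen_iff (by norm_num)]
      exact h.comp_injective σ.injective
    exact h2⟩
  map_add' _ _ := rfl
  map_smul' _ _ := rfl
  norm_map' ξ := by
    rw [lp.norm_eq_tsum_rpow (by norm_num), lp.norm_eq_tsum_rpow (by norm_num)]
    congr 1
    exact σ.tsum_eq (fun x => ‖ξ x‖ ^ (2 : ℝ≥0∞).toReal)

/-- Right translation on `ℓ²(G)`: `(rTrans g ξ) x = ξ (x * g)`. -/
noncomputable def rTrans {G : Type*} [Group G] (g : G) : L2 G →L[ℂ] L2 G :=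
  (shift (Equiv.mulRight g)).toContinuousLinearMap

/-- The group von Neumann algebra of `G`: all bounded operators on `ℓ²(G)` commuting with the right
translations. -/
def VN (G : Type*) [Group G] : Type _ :=
  Subalgebra.centralizer ℂ (Set.range (rTrans (G := G)))

noncomputable instance (G : Type*) [Group G] : Ring (VN G) :=
  inferInstanceAs (Ring (Subalgebra.centralizer ℂ (Set.range (rTrans (G := G)))))

noncomputable instance (G : Type*) [Group G] : Algebra ℂ (VN G) :=
  inferInstanceAs (Algebra ℂ (Subalgebra.centralizer ℂ (Set.range (rTrans (G := G)))))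

/-- The operator on `ℓ²(G)` given by an element of the group von Neumann algebra. -/
noncomputable def VN.op {G : Type*} [Group G] : VN G →ₐ[ℂ] (L2 G →L[ℂ] L2 G) :=
  (Subalgebra.centralizer ℂ (Set.range (rTrans (G := G)))).val

/-- Left translation, `(lam g ξ) x = ξ (g⁻¹ * x)`, as an element of the group von Neumann algebra
(this is the inclusion of the group into the group von Neumann algebra). -/
noncomputable def lam {G : Type*} [Group G] (g : G) : VN G :=
  ⟨(shift (Equiv.mulLeft g⁻¹)).toContinuousLinearMap, by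
    rw [Subalgebra.mem_centralizer_iff]
    rintro _ ⟨h, rfl⟩
    ext ξ x
    change ξ (g⁻¹ * (x * h)) = ξ (g⁻¹ * x * h)
    rw [mul_assoc]⟩

open Classical in
/-- The unit vector `δ₁ ∈ ℓ²(G)` at the identity of `G`. -/
noncomputable def unitVec (G : Type*) [Group G] : L2 G := lp.single 2 1 1

/-- The canonical trace `tr a = ⟨a δ₁, δ₁⟩ = (a δ₁)(1)` on the group von Neumann algebra. -/
noncomputable def tr {G : Type*} [Group G] (a : VN G) : ℂ := inner ℂ (unitVec G) (a.op (unitVec G))

/-- The extended Murray-von Neumann dimension of a left module `M` over the group von Neumann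
algebra `N`: the supremum of the dimensions of the finitely generated projective submodules `P` of
`M`. Here `P` finitely generated projective means `P ≅ Nⁿ A` with `A` an idempotent `n × n`
matrix over `N`, and the dimension of such a `P` is the trace `∑ i, tr (A i i)`. -/
noncomputable def vnDim (G : Type*) [Group G] (M : Type*) [AddCommGroup M] [Module (VN G) M] :
    ℝ≥0∞ :=
  ⨆ (P : Submodule (VN G) M) (n : ℕ) (A : Matrix (Fin n) (Fin n) (VN G)) (_ : A * A = A)
    (_ : Nonempty (P ≃ₗ[VN G] LinearMap.range A.vecMulLinear)),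
      ENNReal.ofReal (∑ i, tr (A i i)).re

section Chains

/-- Singular `n`-simplices in `X`. -/
abbrev Sing (X : Type*) [TopologicalSpace X] (n : ℕ) := C(stdSimplex ℝ (Fin (n + 1)), X)

/-- The `i`-th face of a singular simplex. -/
noncomputable def face {X : Type*} [TopologicalSpace X] {n : ℕ} (i : Fin (n + 2))
    (s : Sing X (n + 1)) : Sing X n :=
  s.comp ⟨stdSimplex.map i.succAbove, stdSimplex.continuous_map _⟩

variable (G X : Type*) [Group G] [TopologicalSpace X] [MulAction G X] [ContinuousConstSMul G X]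

/-- The relations `a ⊗ (g • s) = (a * g) ⊗ s` in `N ⊗ C_n(X)`. -/
noncomputable def rel (n : ℕ) : Submodule (VN G) (Sing X n →₀ VN G) :=
  Submodule.span (VN G) {z | ∃ (g : G) (s : Sing X n) (a : VN G),
    z = Finsupp.single (g • s) a - Finsupp.single s (a * lam g)}

/-- `N ⊗_{ℤG} C_n(X)`, where `N` is the group von Neumann algebra of `G` and `C_n(X)` is the group
of singular `n`-chains of `X` (free abelian on the singular `n`-simplices) with its left
`ℤG`-module structure. -/
abbrev Chain (n : ℕ) := (Sing X n →₀ VN G) ⧸ rel G X n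

/-- The boundary map `N ⊗_{ℤG} C_{n+1}(X) → N ⊗_{ℤG} C_n(X)`, `a ⊗ s ↦ ∑ (-1)^i a ⊗ ∂_i s`. -/
noncomputable def bd (n : ℕ) : Chain G X (n + 1) →ₗ[VN G] Chain G X n :=
  Submodule.mapQ _ _
    (Finsupp.lsum ℕ fun s => ∑ i : Fin (n + 2), ((-1 : ℤ) ^ (i : ℕ)) • Finsupp.lsingle (face i s))
    (by
      rw [rel, Submodule.span_le]
      rintro _ ⟨g, s, a, rfl⟩
      rw [SetLike.mem_coe, Submodule.mem_comap, map_sub, Finsupp.lsum_single, Finsupp.lsum_single,
        LinearMap.sum_apply, LinearMap.sum_apply, ← Finset.sum_sub_distrib]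
      refine Submodule.sum_mem _ fun i _ => ?_
      rw [LinearMap.smul_apply, LinearMap.smul_apply, ← smul_sub]
      refine zsmul_mem (S := Submodule (VN G) (Sing X n →₀ VN G)) ?_ _
      exact Submodule.subset_span ⟨g, face i s, a, rfl⟩)

/-- Cycles of `N ⊗_{ℤG} C_*(X)`. -/
noncomputable def cyc : (n : ℕ) → Submodule (VN G) (Chain G X n)
  | 0 => ⊤
  | n + 1 => LinearMap.ker (bd G X n)

/-- The homology `H_n(N ⊗_{ℤG} C_*(X))`. -/
abbrev Homol (n : ℕ) := cyc G X n ⧸ (LinearMap.range (bd G X n)).submoduleOf (cyc G X n)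

/-- The `n`-th L2-Betti number of the `G`-space `X`,
`dim_N H_n(N ⊗_{ℤG} C_*(X))` with `N` the group von Neumann algebra of `G`. -/
noncomputable def l2Betti (n : ℕ) : ℝ≥0∞ := vnDim G (Homol G X n)

end Chains

end Vale.Agent.P239
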