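import Mathlib

/-! Abstract finite trace data on a star ring, Hilbert-Schmidt quadratic form on matrices,
left supports and the rank identity. -/

namespace Vale.Agent.P239

open scoped Matrix
open Matrix

universe u

/-- Abstract data of a faithful finite trace on a star ring, together with the existence of
closure projections for submodules of finite free modules. -/
structure TraceData (N : Type u) [Ring N] [StarRing N] [Algebra ℝ N] [StarModule ℝ N] where
  t : N →ₗ[ℝ] ℝ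
  comm : ∀ x y, t (x * y) = t (y * x)
  star_t : ∀ x, t (star x) = t x
  nonneg : ∀ x, 0 ≤ t (star x * x)
  faithful : ∀ x, t (star x * x) = 0 → x = 0
  one : t 1 = 1
  bdd : ∀ y, ∃ C : ℝ, 0 ≤ C ∧ ∀ x, t (star (y * x) * (y * x)) ≤ C * t (star x * x)
  proj : ∀ (ι : Type) [Fintype ι] [DecidableEq ι] (K : Submodule N (ι → N)),
    ∃ Q : Matrix ι ι N, Q * Q = Q ∧ Qᴴ = Q ∧ (∀ k ∈ K, k ᵥ* Q = k) ∧
      ∀ ε : ℝ, 0 < ε → ∀ i, ∃ k ∈ K, ∑ j, t (star (k j - Q i j) * (k j - Q i j)) < ε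

set_option linter.unusedSectionVars false

namespace TraceData

variable {N : Type u} [Ring N] [StarRing N] [Algebra ℝ N] [StarModule ℝ N] (D : TraceData N)

section matrix

variable {m n l : Type} [Fintype m] [Fintype n] [Fintype l]

/-- trace of a square matrix -/
def Tr (A : Matrix m m N) : ℝ := ∑ i, D.t (A i i)

/-- squared Hilbert-Schmidt norm -/
def hs (A : Matrix m n N) : ℝ := ∑ i, ∑ j, D.t (star (A i j) * A i j)

lemma Tr_add (A B : Matrix m m N) : D.Tr (A + B) = D.Tr A + D.Tr B := by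
  simp [Tr, Finset.sum_add_distrib]

lemma Tr_sub (A B : Matrix m m N) : D.Tr (A - B) = D.Tr A - D.Tr B := by
  simp [Tr, Finset.sum_sub_distrib]

lemma Tr_zero : D.Tr (0 : Matrix m m N) = 0 := by simp [Tr]

lemma Tr_smul (c : ℝ) (A : Matrix m m N) : D.Tr (c • A) = c * D.Tr A := by
  simp [Tr, Finset.mul_sum]

lemma Tr_comm (A : Matrix m n N) (B : Matrix n m N) : D.Tr (A * B) = D.Tr (B * A) := by
  simp only [Tr, Matrix.mul_apply, map_sum]
  rw [Finset.sum_comm]
  exact Finset.sum_congr rfl fun i _ => Finset.sum_congr rfl fun j _ => D.comm _ _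

lemma Tr_conjTranspose (A : Matrix m m N) : D.Tr Aᴴ = D.Tr A := by
  simp [Tr, Matrix.conjTranspose_apply, D.star_t]

lemma hs_eq (A : Matrix m n N) : D.hs A = D.Tr (Aᴴ * A) := by
  simp only [hs, Tr, Matrix.mul_apply, map_sum, Matrix.conjTranspose_apply]
  rw [Finset.sum_comm]

lemma hs_eq' (A : Matrix m n N) : D.hs A = D.Tr (A * Aᴴ) := by
  rw [hs_eq, Tr_comm]

lemma hs_conjTranspose (A : Matrix m n N) : D.hs Aᴴ = D.hs A := by
  rw [hs_eq, hs_eq', Matrix.conjTranspose_conjTranspose]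

lemma hs_nonneg (A : Matrix m n N) : 0 ≤ D.hs A :=
  Finset.sum_nonneg fun _ _ => Finset.sum_nonneg fun _ _ => D.nonneg _

lemma eq_zero_of_hs {A : Matrix m n N} (h : D.hs A = 0) : A = 0 := by
  ext i j
  have h1 := (Finset.sum_eq_zero_iff_of_nonneg
    (fun i _ => Finset.sum_nonneg fun j _ => D.nonneg (A i j))).1 h i (Finset.mem_univ i)
  have h2 := (Finset.sum_eq_zero_iff_of_nonneg
    (fun j _ => D.nonneg (A i j))).1 h1 j (Finset.mem_univ j)
  exact D.faithful _ h2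

lemma hs_zero : D.hs (0 : Matrix m n N) = 0 := by simp [hs]

lemma hs_smul (c : ℝ) (A : Matrix m n N) : D.hs (c • A) = c ^ 2 * D.hs A := by
  simp only [hs, Matrix.smul_apply, star_smul, star_trivial, smul_mul_smul_comm, map_smul,
    smul_eq_mul, Finset.mul_sum, pow_two]

lemma hs_neg (A : Matrix m n N) : D.hs (-A) = D.hs A := by
  simp [hs]

lemma hs_add_expand (A B : Matrix m n N) :
    D.hs (A + B) = D.hs A + D.hs B + 2 * D.Tr (Aᴴ * B) := by
  have h : D.Tr (Bᴴ * A) = D.Tr (Aᴴ * B) := by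
    rw [← D.Tr_conjTranspose (Bᴴ * A)]; simp
  rw [hs_eq, Matrix.conjTranspose_add, Matrix.add_mul, Matrix.mul_add, Matrix.mul_add,
    Tr_add, Tr_add, Tr_add, hs_eq, hs_eq, h]
  ring

lemma hs_sub_expand (A B : Matrix m n N) :
    D.hs (A - B) = D.hs A + D.hs B - 2 * D.Tr (Aᴴ * B) := by
  have := D.hs_add_expand A (-B)
  rw [← sub_eq_add_neg, hs_neg] at this
  rw [this]
  have h2 : D.Tr (Aᴴ * -B) = - D.Tr (Aᴴ * B) := by
    rw [Matrix.mul_neg, ← zero_sub, Tr_sub, Tr_zero, zero_sub]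
  rw [h2]; ring

lemma hs_add_le (A B : Matrix m n N) : D.hs (A + B) ≤ 2 * D.hs A + 2 * D.hs B := by
  have h1 := D.hs_add_expand A B
  have h2 := D.hs_sub_expand A B
  have h3 := D.hs_nonneg (A - B)
  linarith

/-- projection matrices -/
def IsProj (A : Matrix m m N) : Prop := A * A = A ∧ Aᴴ = A

lemma IsProj.one_sub [DecidableEq m] {A : Matrix m m N} (h : IsProj A) : IsProj (1 - A) := by
  refine ⟨?_, ?_⟩
  · rw [sub_mul, mul_sub, mul_sub, h.1]; simp
  · rw [Matrix.conjTranspose_sub, h.2]; simp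

lemma Tr_proj {A : Matrix m m N} (h : IsProj A) : D.Tr A = D.hs A := by
  rw [hs_eq, h.2, h.1]

lemma Tr_proj_nonneg {A : Matrix m m N} (h : IsProj A) : 0 ≤ D.Tr A := by
  rw [D.Tr_proj h]; exact D.hs_nonneg _

/-- for projections `A, B` with `A B = B`, the trace of `B` is at most that of `A`. -/
lemma IsProj.sub {A B : Matrix m m N} (hA : IsProj A) (hB : IsProj B) (h : A * B = B) :
    IsProj (A - B) := by
  have h' : B * A = B := by
    have := congrArg Matrix.conjTranspose h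
    rwa [Matrix.conjTranspose_mul, hA.2, hB.2] at this
  refine ⟨?_, ?_⟩
  · rw [sub_mul, mul_sub, mul_sub, hA.1, hB.1, h, h']; simp
  · rw [Matrix.conjTranspose_sub, hA.2, hB.2]

lemma Tr_le_of_mul {A B : Matrix m m N} (hA : IsProj A) (hB : IsProj B) (h : A * B = B) :
    D.Tr B ≤ D.Tr A := by
  have := D.Tr_proj_nonneg (hA.sub hB h)
  rw [Tr_sub] at this
  linarith

/-- left multiplication by a projection decreases `hs`. -/
lemma hs_proj_mul_le {A : Matrix m m N} (hA : IsProj A) (X : Matrix m n N) :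
    D.hs (A * X) ≤ D.hs X := by
  classical
  have h := D.hs_nonneg ((1 - A) * X)
  have e1 : D.hs (A * X) = D.Tr (Xᴴ * A * X) := by
    rw [hs_eq, Matrix.conjTranspose_mul, hA.2]
    rw [show Xᴴ * A * (A * X) = Xᴴ * (A * A) * X by simp only [Matrix.mul_assoc], hA.1]
  have hA' := hA.one_sub
  have e2 : D.hs ((1 - A) * X) = D.Tr (Xᴴ * (1 - A) * X) := by
    rw [hs_eq, Matrix.conjTranspose_mul, hA'.2]
    rw [show Xᴴ * (1 - A) * ((1 - A) * X) = Xᴴ * ((1 - A) * (1 - A)) * X by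
      simp only [Matrix.mul_assoc], hA'.1]
  rw [e2, Matrix.mul_sub, Matrix.mul_one, Matrix.sub_mul, Tr_sub, ← hs_eq, ← e1] at h
  linarith

lemma exists_bound_row (s : Finset m) (y : m → N) :
    ∃ C : ℝ, 0 ≤ C ∧ ∀ x : m → N,
      D.t (star (∑ j ∈ s, y j * x j) * (∑ j ∈ s, y j * x j)) ≤
        C * ∑ j ∈ s, D.t (star (x j) * x j) := by
  classical
  induction s using Finset.induction_on with
  | empty => exact ⟨0, le_rfl, fun x => by simp⟩
  | insert a s ha ih =>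
    obtain ⟨C, hC, h⟩ := ih
    obtain ⟨C', hC', h'⟩ := D.bdd (y a)
    refine ⟨2 * C + 2 * C', by positivity, fun x => ?_⟩
    rw [Finset.sum_insert ha, Finset.sum_insert ha]
    have e : ∀ p q : N, D.t (star (p + q) * (p + q)) ≤
        2 * D.t (star p * p) + 2 * D.t (star q * q) := by
      intro p q
      have := D.nonneg (p - q)
      simp only [star_sub, sub_mul, mul_sub, map_sub, star_add, add_mul, mul_add, map_add] at *
      linarith
    refine (e _ _).trans ?_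
    have h1 := h x
    have h2 := h' (x a)
    have h3 : 0 ≤ D.t (star (x a) * x a) := D.nonneg _
    have h4 : 0 ≤ ∑ j ∈ s, D.t (star (x j) * x j) := Finset.sum_nonneg fun _ _ => D.nonneg _
    nlinarith [mul_nonneg hC h3, mul_nonneg hC' h4]

/-- left multiplication by a fixed matrix is bounded for the Hilbert-Schmidt norm -/
lemma exists_bound_mul (y : Matrix m n N) :
    ∃ C : ℝ, 0 < C ∧ ∀ (l : Type) [Fintype l] (x : Matrix n l N), D.hs (y * x) ≤ C * D.hs x := by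
  classical
  choose C hC h using fun i => D.exists_bound_row (Finset.univ : Finset n) (y i)
  refine ⟨∑ i, C i + 1, by have := Finset.sum_nonneg fun i (_ : i ∈ Finset.univ) => hC i; linarith,
    fun l _ x => ?_⟩
  have h1 : D.hs (y * x) ≤ ∑ i, C i * D.hs x := by
    unfold hs
    refine Finset.sum_le_sum fun i _ => ?_
    have : ∀ j, D.t (star ((y * x) i j) * (y * x) i j) ≤
        C i * ∑ k, D.t (star (x k j) * x k j) := fun j => by
      simpa [Matrix.mul_apply] using h i (fun k => x k j)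
    refine (Finset.sum_le_sum fun j _ => this j).trans ?_
    rw [← Finset.mul_sum, Finset.sum_comm]
  refine h1.trans ?_
  rw [← Finset.sum_mul]
  have := D.hs_nonneg x
  nlinarith

lemma exists_bound_mul' (y : Matrix m n N) :
    ∃ C : ℝ, 0 < C ∧ ∀ (l : Type) [Fintype l] (x : Matrix l m N), D.hs (x * y) ≤ C * D.hs x := by
  obtain ⟨C, hC, h⟩ := D.exists_bound_mul yᴴ
  refine ⟨C, hC, fun l _ x => ?_⟩
  have := h l xᴴ
  rwa [← Matrix.conjTranspose_mul, hs_conjTranspose, hs_conjTranspose] at this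

/-- If `X` is a Hilbert-Schmidt limit of matrices annihilated by left multiplication by `y`,
then so is `X`. -/
lemma mul_eq_zero_of_approx (y : Matrix l m N) (X : Matrix m n N)
    (h : ∀ ε : ℝ, 0 < ε → ∃ Z : Matrix m n N, y * Z = 0 ∧ D.hs (X - Z) < ε) : y * X = 0 := by
  obtain ⟨C, hC, hb⟩ := D.exists_bound_mul y
  apply D.eq_zero_of_hs
  by_contra hne
  have hpos : 0 < D.hs (y * X) := lt_of_le_of_ne (D.hs_nonneg _) (Ne.symm hne)
  obtain ⟨Z, hZ, hlt⟩ := h (D.hs (y * X) / C) (by positivity)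
  have h1 : y * X = y * (X - Z) := by rw [Matrix.mul_sub, hZ, sub_zero]
  have h2 := hb n (X - Z)
  rw [← h1] at h2
  have h3 : C * D.hs (X - Z) < C * (D.hs (y * X) / C) := by gcongr
  rw [mul_div_cancel₀ _ hC.ne'] at h3
  linarith

end matrix

section support

variable {m n l : Type} [Fintype m] [Fintype n] [Fintype l]

/-- Left support of a rectangular matrix. -/
lemma exists_lsupp [DecidableEq m] (B : Matrix m n N) :
    ∃ S : Matrix m m N, IsProj S ∧ S * B = B ∧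
      ∀ ε : ℝ, 0 < ε → ∃ X : Matrix m m N, D.hs (S - B * Bᴴ * X) < ε := by
  obtain ⟨Q, hQ1, hQ2, hK, happ⟩ :=
    D.proj m (LinearMap.range (Matrix.vecMulLinear (B * Bᴴ)))
  have hQ : IsProj Q := ⟨hQ1, hQ2⟩
  have hBB : B * Bᴴ * Q = B * Bᴴ := by
    have : ∀ i, (B * Bᴴ) i ᵥ* Q = (B * Bᴴ) i := fun i => hK _ ⟨Pi.single i 1, by simp; rfl⟩
    ext i j
    have := congrFun (this i) j
    simpa [Matrix.mul_apply, Matrix.vecMul, dotProduct] using this
  have hQB : Q * B = B := by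
    have h0 : (1 - Q) * B = 0 := by
      apply D.eq_zero_of_hs
      rw [hs_eq', Matrix.conjTranspose_mul, hQ.one_sub.2]
      rw [show (1 - Q) * B * (Bᴴ * (1 - Q)) = (1 - Q) * (B * Bᴴ * (1 - Q)) by
        simp only [Matrix.mul_assoc]]
      rw [Matrix.mul_sub (B * Bᴴ), hBB, Matrix.mul_one, sub_self, Matrix.mul_zero, Tr_zero]
    rw [Matrix.sub_mul, Matrix.one_mul, sub_eq_zero] at h0
    exact h0.symm
  refine ⟨Q, hQ, hQB, fun ε hε => ?_⟩
  have hcard : (0 : ℝ) < Fintype.card m + 1 := by positivity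
  choose k hk hlt using fun i => happ (ε / (Fintype.card m + 1)) (by positivity) i
  choose d hd using hk
  refine ⟨(Matrix.of d)ᴴ, ?_⟩
  have e1 : (Matrix.of d * (B * Bᴴ)) = Matrix.of k := by
    ext i j
    have := congrFun (hd i) j
    simpa [Matrix.mul_apply, Matrix.vecMul, dotProduct] using this
  have e2 : Q - B * Bᴴ * (Matrix.of d)ᴴ = (Q - Matrix.of k)ᴴ := by
    rw [Matrix.conjTranspose_sub, hQ2, ← e1]; simp
  rw [e2, hs_conjTranspose, ← hs_neg, neg_sub]
  have : D.hs (Matrix.of k - Q) ≤ ∑ _i : m, ε / (Fintype.card m + 1) := by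
    unfold hs
    exact Finset.sum_le_sum fun i _ => (hlt i).le
  refine this.trans_lt ?_
  rw [Finset.sum_const, Finset.card_univ, nsmul_eq_mul, mul_div_assoc']
  rw [div_lt_iff₀ hcard]
  nlinarith

lemma lsupp_mul {m n l : Type} [Fintype m] [Fintype n] [Fintype l]
    {B : Matrix m n N} {S : Matrix m m N}
    (h : ∀ ε : ℝ, 0 < ε → ∃ X : Matrix m m N, D.hs (S - B * Bᴴ * X) < ε)
    {y : Matrix l m N} (hy : y * B = 0) : y * S = 0 := by
  refine D.mul_eq_zero_of_approx y S fun ε hε => ?_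
  obtain ⟨X, hX⟩ := h ε hε
  exact ⟨B * Bᴴ * X, by rw [← Matrix.mul_assoc, ← Matrix.mul_assoc, hy]; simp, hX⟩

/-- Core estimate: the contraction `E = 1 - c⁻¹ B Bᴴ`. -/
lemma core_estimate [DecidableEq m] (B : Matrix m n N) {c : ℝ} (hc : 0 < c)
    (hB : ∀ (l : Type) [Fintype l] (x : Matrix n l N), D.hs (B * x) ≤ c * D.hs x)
    (W : Matrix m l N) :
    D.hs ((1 - c⁻¹ • (B * Bᴴ)) * W) + c⁻¹ * D.hs (Bᴴ * W) ≤ D.hs W := by
  have e1 : (1 - c⁻¹ • (B * Bᴴ)) * W = W - c⁻¹ • (B * (Bᴴ * W)) := by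
    rw [Matrix.sub_mul, Matrix.one_mul, Matrix.smul_mul, Matrix.mul_assoc]
  have e2 : D.Tr (Wᴴ * (c⁻¹ • (B * (Bᴴ * W)))) = c⁻¹ * D.hs (Bᴴ * W) := by
    rw [Matrix.mul_smul, Tr_smul, hs_eq]
    congr 2
    simp [Matrix.mul_assoc]
  rw [e1, hs_sub_expand, e2, hs_smul]
  have h1 := hB l (Bᴴ * W)
  have h2 : (c⁻¹) ^ 2 * D.hs (B * (Bᴴ * W)) ≤ c⁻¹ * D.hs (Bᴴ * W) := by
    calc (c⁻¹) ^ 2 * D.hs (B * (Bᴴ * W)) ≤ (c⁻¹) ^ 2 * (c * D.hs (Bᴴ * W)) := by gcongr
      _ = c⁻¹ * D.hs (Bᴴ * W) := by field_simp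
  linarith

lemma iter_tendsto [DecidableEq m] (B : Matrix m n N) {c : ℝ} (hc : 0 < c)
    (hB : ∀ (l : Type) [Fintype l] (x : Matrix n l N), D.hs (B * x) ≤ c * D.hs x)
    (W : Matrix m l N) :
    Filter.Tendsto (fun j : ℕ => D.hs (Bᴴ * ((1 - c⁻¹ • (B * Bᴴ)) ^ j * W)))
      Filter.atTop (nhds 0) := by
  set E := 1 - c⁻¹ • (B * Bᴴ) with hE
  have hstep : ∀ j : ℕ, D.hs (E ^ (j + 1) * W) + c⁻¹ * D.hs (Bᴴ * (E ^ j * W)) ≤
      D.hs (E ^ j * W) := fun j => by
    rw [pow_succ', Matrix.mul_assoc]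
    exact D.core_estimate B hc hB _
  have hsum : ∀ k : ℕ, D.hs (E ^ k * W) +
      ∑ j ∈ Finset.range k, c⁻¹ * D.hs (Bᴴ * (E ^ j * W)) ≤ D.hs W := by
    intro k
    induction k with
    | zero => simp
    | succ k ih =>
      rw [Finset.sum_range_succ]
      have := hstep k
      linarith
  have hsm : Summable fun j : ℕ => c⁻¹ * D.hs (Bᴴ * (E ^ j * W)) := by
    refine summable_of_sum_range_le (c := D.hs W) (fun j => ?_) fun k => ?_
    · exact mul_nonneg (inv_nonneg.2 hc.le) (D.hs_nonneg _)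
    · have := hsum k
      have := D.hs_nonneg (E ^ k * W)
      linarith
  have h2 := hsm.tendsto_atTop_zero.const_mul c
  simpa [mul_inv_cancel_left₀ hc.ne'] using h2

lemma hs_pow_le [DecidableEq m] (B : Matrix m n N) {c : ℝ} (hc : 0 < c)
    (hB : ∀ (l : Type) [Fintype l] (x : Matrix n l N), D.hs (B * x) ≤ c * D.hs x)
    (W : Matrix m l N) (j : ℕ) :
    D.hs ((1 - c⁻¹ • (B * Bᴴ)) ^ j * W) ≤ D.hs W := by
  induction j with
  | zero => simp
  | succ j ih =>
    rw [pow_succ', Matrix.mul_assoc]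
    have := D.core_estimate B hc hB ((1 - c⁻¹ • (B * Bᴴ)) ^ j * W)
    have h2 := D.hs_nonneg (Bᴴ * ((1 - c⁻¹ • (B * Bᴴ)) ^ j * W))
    have h3 : 0 ≤ c⁻¹ * D.hs (Bᴴ * ((1 - c⁻¹ • (B * Bᴴ)) ^ j * W)) := by positivity
    linarith

lemma tr_limit [DecidableEq m] (B : Matrix m n N) {c : ℝ} (hc : 0 < c)
    (hB : ∀ (l : Type) [Fintype l] (x : Matrix n l N), D.hs (B * x) ≤ c * D.hs x)
    {S : Matrix m m N} (hS : IsProj S) (hSB : S * B = B)
    (happ : ∀ ε : ℝ, 0 < ε → ∃ X : Matrix m m N, D.hs (S - B * Bᴴ * X) < ε) :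
    Filter.Tendsto (fun j : ℕ => D.Tr (1 - (1 - c⁻¹ • (B * Bᴴ)) ^ (2 * j)))
      Filter.atTop (nhds (D.Tr S)) := by
  set E := 1 - c⁻¹ • (B * Bᴴ) with hE
  have hEH : Eᴴ = E := by
    rw [hE]; simp
  have hBS : Bᴴ * S = Bᴴ := by
    have := congrArg Matrix.conjTranspose hSB
    rwa [Matrix.conjTranspose_mul, hS.2] at this
  -- `E (1 - S) = 1 - S`
  have hES : E * (1 - S) = 1 - S := by
    rw [hE, Matrix.sub_mul, Matrix.one_mul, Matrix.smul_mul, Matrix.mul_assoc,
      Matrix.mul_sub Bᴴ, hBS]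
    simp
  have hESj : ∀ j : ℕ, E ^ j * (1 - S) = 1 - S := by
    intro j
    induction j with
    | zero => simp
    | succ j ih => rw [pow_succ', Matrix.mul_assoc, ih, hES]
  -- `hs (E^j S) → 0`
  have hcomm : ∀ j : ℕ, E ^ j * (B * Bᴴ) = B * Bᴴ * E ^ j := by
    intro j
    have : Commute E (B * Bᴴ) := by
      rw [hE]
      exact (Commute.one_left _).sub_left ((Commute.refl _).smul_left _)
    exact (this.pow_left j).eq
  have hlim : Filter.Tendsto (fun j : ℕ => D.hs (E ^ j * S)) Filter.atTop (nhds 0) := by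
    rw [Metric.tendsto_atTop]
    intro ε hε
    obtain ⟨X, hX⟩ := happ (ε / 4) (by positivity)
    have h1 := D.iter_tendsto B hc hB X
    rw [← hE] at h1
    have h1' := h1.const_mul c
    rw [mul_zero, Metric.tendsto_atTop] at h1'
    obtain ⟨j0, hj0⟩ := h1' (ε / 4) (by positivity)
    refine ⟨j0, fun j hj => ?_⟩
    have h2 := hj0 j hj
    rw [Real.dist_eq, sub_zero, abs_of_nonneg (mul_nonneg hc.le (D.hs_nonneg _))] at h2
    rw [Real.dist_eq, sub_zero, abs_of_nonneg (D.hs_nonneg _)]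
    have e : E ^ j * S = E ^ j * (S - B * Bᴴ * X) + B * (Bᴴ * (E ^ j * X)) := by
      have e1 : E ^ j * (B * Bᴴ * X) = B * (Bᴴ * (E ^ j * X)) := by
        rw [← Matrix.mul_assoc, hcomm]; simp only [Matrix.mul_assoc]
      rw [Matrix.mul_sub, e1]; abel
    have h3 := D.hs_add_le (E ^ j * (S - B * Bᴴ * X)) (B * (Bᴴ * (E ^ j * X)))
    rw [← e] at h3
    have h4 : D.hs (E ^ j * (S - B * Bᴴ * X)) ≤ D.hs (S - B * Bᴴ * X) :=
      D.hs_pow_le B hc hB _ j
    have h5 := hB m (Bᴴ * (E ^ j * X))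
    linarith
  have key : ∀ j : ℕ, D.Tr (1 - E ^ (2 * j)) = D.Tr S - D.hs (E ^ j * S) := by
    intro j
    have hEjH : (E ^ j)ᴴ = E ^ j := by rw [Matrix.conjTranspose_pow, hEH]
    have e1 : D.hs (E ^ j * S) = D.Tr (E ^ (2 * j) * S) := by
      rw [hs_eq', Matrix.conjTranspose_mul, hS.2, hEjH]
      rw [show E ^ j * S * (S * E ^ j) = E ^ j * (S * S) * E ^ j by simp only [Matrix.mul_assoc],
        hS.1, Tr_comm, ← Matrix.mul_assoc, ← pow_add, ← two_mul]
    have e2 : (1 : Matrix m m N) - E ^ (2 * j) = S - E ^ (2 * j) * S := by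
      have := hESj (2 * j)
      rw [Matrix.mul_sub, Matrix.mul_one] at this
      have h' : E ^ (2 * j) = 1 - S + E ^ (2 * j) * S := by
        rw [← this]; abel
      calc (1 : Matrix m m N) - E ^ (2 * j) = 1 - (1 - S + E ^ (2 * j) * S) := by rw [← h']
        _ = S - E ^ (2 * j) * S := by abel
    rw [e2, Tr_sub, e1]
  have := (tendsto_const_nhds (x := D.Tr S)).sub hlim
  simpa [key] using this

lemma tr_pow_eq [DecidableEq m] [DecidableEq n] (B : Matrix m n N) (c : ℝ) (k : ℕ) :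
    D.Tr (1 - (1 - c⁻¹ • (B * Bᴴ)) ^ k) = D.Tr (1 - (1 - c⁻¹ • (Bᴴ * B)) ^ k) := by
  set E := 1 - c⁻¹ • (B * Bᴴ) with hE
  set F := 1 - c⁻¹ • (Bᴴ * B) with hF
  have hEB : E * B = B * F := by
    rw [hE, hF, Matrix.sub_mul, Matrix.mul_sub, Matrix.smul_mul, Matrix.mul_smul,
      Matrix.mul_assoc]; simp
  have hEkB : ∀ k : ℕ, E ^ k * B = B * F ^ k := by
    intro k
    induction k with
    | zero => simp
    | succ k ih =>
      rw [pow_succ', Matrix.mul_assoc, ih, ← Matrix.mul_assoc, hEB, Matrix.mul_assoc, ← pow_succ']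
  induction k with
  | zero => simp [Tr_zero]
  | succ k ih =>
    have e1 : (1 : Matrix m m N) - E ^ (k + 1) = (1 - E ^ k) + c⁻¹ • (E ^ k * (B * Bᴴ)) := by
      rw [pow_succ]
      nth_rewrite 2 [hE]
      rw [Matrix.mul_sub, Matrix.mul_one, Matrix.mul_smul]; abel
    have e2 : (1 : Matrix n n N) - F ^ (k + 1) = (1 - F ^ k) + c⁻¹ • (F ^ k * (Bᴴ * B)) := by
      rw [pow_succ]
      nth_rewrite 2 [hF]
      rw [Matrix.mul_sub, Matrix.mul_one, Matrix.mul_smul]; abel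
    rw [e1, e2, Tr_add, Tr_add, ih, Tr_smul, Tr_smul]
    congr 2
    rw [← Matrix.mul_assoc, hEkB, Matrix.mul_assoc, Tr_comm, Matrix.mul_assoc]

/-- Rank identity: left and right supports have the same trace. -/
lemma Tr_lsupp_eq [DecidableEq m] [DecidableEq n] (B : Matrix m n N)
    {S : Matrix m m N} (hS : IsProj S) (hSB : S * B = B)
    (happ : ∀ ε : ℝ, 0 < ε → ∃ X : Matrix m m N, D.hs (S - B * Bᴴ * X) < ε)
    {T : Matrix n n N} (hT : IsProj T) (hTB : T * Bᴴ = Bᴴ)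
    (happ' : ∀ ε : ℝ, 0 < ε → ∃ X : Matrix n n N, D.hs (T - Bᴴ * B * X) < ε) :
    D.Tr S = D.Tr T := by
  obtain ⟨C1, hC1, h1⟩ := D.exists_bound_mul B
  obtain ⟨C2, hC2, h2⟩ := D.exists_bound_mul Bᴴ
  set c := C1 + C2 with hc
  have hcpos : 0 < c := by positivity
  have hb1 : ∀ (l : Type) [Fintype l] (x : Matrix n l N), D.hs (B * x) ≤ c * D.hs x :=
    fun l _ x => (h1 l x).trans (by have := D.hs_nonneg x; nlinarith)
  have hb2 : ∀ (l : Type) [Fintype l] (x : Matrix m l N), D.hs (Bᴴ * x) ≤ c * D.hs x :=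
    fun l _ x => (h2 l x).trans (by have := D.hs_nonneg x; nlinarith)
  have t1 := D.tr_limit B hcpos hb1 hS hSB happ
  have t2 := D.tr_limit Bᴴ hcpos hb2 hT hTB (by simpa using happ')
  have e : ∀ j : ℕ, D.Tr (1 - (1 - c⁻¹ • (B * Bᴴ)) ^ (2 * j)) =
      D.Tr (1 - (1 - c⁻¹ • (Bᴴ * Bᴴᴴ)) ^ (2 * j)) := fun j => by
    rw [D.tr_pow_eq, Matrix.conjTranspose_conjTranspose]
  exact tendsto_nhds_unique t1 (by simpa only [e] using t2)

/-- The trace of the left support is bounded by the trace of any projection absorbing `B`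
on the right. -/
lemma Tr_lsupp_le [DecidableEq m] [DecidableEq n] (B : Matrix m n N)
    {S : Matrix m m N} (hS : IsProj S) (hSB : S * B = B)
    (happ : ∀ ε : ℝ, 0 < ε → ∃ X : Matrix m m N, D.hs (S - B * Bᴴ * X) < ε)
    {A : Matrix n n N} (hA : IsProj A) (hBA : B * A = B) : D.Tr S ≤ D.Tr A := by
  obtain ⟨T, hT, hTB, happ'⟩ := D.exists_lsupp Bᴴ
  rw [Matrix.conjTranspose_conjTranspose] at happ'
  rw [D.Tr_lsupp_eq B hS hSB happ hT hTB happ']
  have hAB : (1 - A) * Bᴴ = 0 := by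
    have := congrArg Matrix.conjTranspose hBA
    rw [Matrix.conjTranspose_mul, hA.2] at this
    rw [Matrix.sub_mul, Matrix.one_mul, this, sub_self]
  have h0 : (1 - A) * T = 0 := by
    refine D.lsupp_mul (B := Bᴴ) ?_ hAB
    simpa using happ'
  rw [Matrix.sub_mul, Matrix.one_mul, sub_eq_zero] at h0
  exact D.Tr_le_of_mul hA hT h0.symm

end support

end TraceData

end Vale.Agent.P239
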