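import Vale.Agent.P239.Dim1

/-! Extended dimension (projection version) for abstract finite trace data. -/

set_option linter.unusedSectionVars false

namespace Vale.Agent.P239

open scoped Matrix ENNReal
open Matrix

universe u v w

namespace TraceData

variable {N : Type u} [Ring N] [StarRing N] [Algebra ℝ N] [StarModule ℝ N] (D : TraceData N)

section basic

variable {M : Type v} [AddCommGroup M] [Module N M]

/-- `g` restricted to the row module of `A` is injective. -/
def Emb {ι : Type} [Fintype ι] (A : Matrix ι ι N) (g : (ι → N) →ₗ[N] M) : Prop :=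
  ∀ x, x ᵥ* A = x → g x = 0 → x = 0

variable (M) in
/-- `r` is the trace of a finitely generated projective submodule of `M`. -/
def Has (r : ℝ) : Prop :=
  ∃ (n : ℕ) (A : Matrix (Fin n) (Fin n) N) (g : (Fin n → N) →ₗ[N] M),
    IsProj A ∧ Emb A g ∧ D.Tr A = r

variable (M) in
/-- extended dimension, projection version -/
noncomputable def tdim : ℝ≥0∞ := ⨆ (r : ℝ) (_ : D.Has M r), ENNReal.ofReal r

lemma has_of {ι : Type} [Fintype ι] (A : Matrix ι ι N) (hA : IsProj A)
    (g : (ι → N) →ₗ[N] M) (hg : Emb A g) : D.Has M (D.Tr A) := by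
  classical
  let e : ι ≃ Fin (Fintype.card ι) := Fintype.equivFin ι
  refine ⟨Fintype.card ι, A.submatrix e.symm e.symm,
    g.comp (LinearMap.funLeft N N e), ⟨?_, ?_⟩, ?_, ?_⟩
  · rw [Matrix.submatrix_mul_equiv, hA.1]
  · rw [Matrix.conjTranspose_submatrix, hA.2]
  · intro x hx hgx
    have h1 : (fun i => x (e i)) ᵥ* A = fun i => x (e i) := by
      ext i
      have := congrFun hx (e i)
      simp only [Matrix.vecMul, dotProduct, Matrix.submatrix_apply, Equiv.symm_apply_apply] at this
      rw [← this]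
      simp only [Matrix.vecMul, dotProduct]
      exact Fintype.sum_equiv e _ _ (by simp)
    have h2 : (fun i => x (e i)) = 0 := hg _ h1 hgx
    ext i
    have := congrFun h2 (e.symm i)
    simpa using this
  · unfold Tr
    exact Fintype.sum_equiv e.symm _ _ (by simp)

lemma le_tdim {ι : Type} [Fintype ι] (A : Matrix ι ι N) (hA : IsProj A)
    (g : (ι → N) →ₗ[N] M) (hg : Emb A g) : ENNReal.ofReal (D.Tr A) ≤ D.tdim M :=
  le_iSup₂_of_le (D.Tr A) (D.has_of A hA g hg) le_rfl

lemma tdim_le {c : ℝ≥0∞} (h : ∀ (n : ℕ) (A : Matrix (Fin n) (Fin n) N)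
    (g : (Fin n → N) →ₗ[N] M), IsProj A → Emb A g → ENNReal.ofReal (D.Tr A) ≤ c) :
    D.tdim M ≤ c := by
  refine iSup₂_le ?_
  rintro r ⟨n, A, g, hA, hg, rfl⟩
  exact h n A g hA hg

lemma has_zero : ∃ r, D.Has M r :=
  ⟨_, D.has_of (ι := Fin 0) 0 ⟨by simp, by simp⟩ 0 (fun x _ _ => Subsingleton.elim _ _)⟩

lemma Has.nonneg {r : ℝ} (h : D.Has M r) : 0 ≤ r := by
  obtain ⟨n, A, g, hA, hg, rfl⟩ := h
  exact D.Tr_proj_nonneg hA

end basic

section mono

variable {M : Type v} [AddCommGroup M] [Module N M] {M' : Type w} [AddCommGroup M'] [Module N M']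

lemma tdim_mono (f : M →ₗ[N] M') (hf : Function.Injective f) : D.tdim M ≤ D.tdim M' := by
  refine D.tdim_le fun n A g hA hg => D.le_tdim A hA (f.comp g) fun x hx h => hg x hx ?_
  exact hf (by simpa using h)

lemma tdim_congr (f : M ≃ₗ[N] M') : D.tdim M = D.tdim M' :=
  le_antisymm (D.tdim_mono f.toLinearMap f.injective) (D.tdim_mono f.symm.toLinearMap
    f.symm.injective)

/-- lifting through a surjection -/
lemma exists_lift {ι : Type} [Fintype ι] (p : M →ₗ[N] M') (hp : Function.Surjective p)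
    (g : (ι → N) →ₗ[N] M') : ∃ g' : (ι → N) →ₗ[N] M, p.comp g' = g := by
  classical
  choose b hb using fun i : ι => hp (g (Pi.single i 1))
  refine ⟨Fintype.linearCombination N b, ?_⟩
  refine LinearMap.pi_ext' fun i => LinearMap.ext_ring ?_
  simp [Fintype.linearCombination_apply, Pi.single_apply, ite_smul, hb]

end mono

section key

variable {M : Type v} [AddCommGroup M] [Module N M] {ι : Type} [Fintype ι]

/-- If the rows of a projection `Q` are approximated by elements of a submodule `K`, the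
dimension of `K` is at least the trace of `Q`. -/
lemma Tr_le_tdim_of_approx (K : Submodule N (ι → N)) {Q : Matrix ι ι N} (hQ : IsProj Q)
    (happ : ∀ ε : ℝ, 0 < ε → ∀ i, ∃ k ∈ K,
      ∑ j, D.t (star (k j - Q i j) * (k j - Q i j)) < ε) :
    ENNReal.ofReal (D.Tr Q) ≤ D.tdim K := by
  classical
  refine le_of_forall_pos_le_add fun ε hε => ?_
  -- it suffices to treat real positive `ε`
  by_cases htop : ε = ⊤
  · simp [htop]
  have hε' : 0 < ε.toReal := ENNReal.toReal_pos hε.ne' htop
  set δ := ε.toReal with hδ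
  have hcard : (0 : ℝ) < Fintype.card ι + 1 := by positivity
  choose k hk hlt using fun i => happ (δ / (Fintype.card ι + 1)) (by positivity) i
  let B : Matrix ι ι N := Matrix.of k
  have hBQ : D.hs (B - Q) ≤ δ := by
    have : D.hs (B - Q) ≤ ∑ _i : ι, δ / (Fintype.card ι + 1) := by
      unfold hs
      exact Finset.sum_le_sum fun i _ => (hlt i).le
    refine this.trans ?_
    rw [Finset.sum_const, Finset.card_univ, nsmul_eq_mul, mul_div_assoc', div_le_iff₀ hcard]
    nlinarith
  obtain ⟨S, hS, hSB, hSapp⟩ := D.exists_lsupp B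
  have hemb : ENNReal.ofReal (D.Tr S) ≤ D.tdim K := by
    let g : (ι → N) →ₗ[N] K := Fintype.linearCombination N (fun i => (⟨k i, hk i⟩ : K))
    refine D.le_tdim S hS g fun x hx hgx => ?_
    have h1 : x ᵥ* B = 0 := by
      have := congrArg (Subtype.val) hgx
      simp only [g, Fintype.linearCombination_apply, Submodule.coe_sum, Submodule.coe_smul,
        ZeroMemClass.coe_zero] at this
      rw [← this]
      ext j
      simp [Matrix.vecMul, dotProduct, B]
    have h2 : (Matrix.replicateRow Unit x) * B = 0 := by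
      rw [← Matrix.replicateRow_vecMul, h1]; rfl
    have h3 := D.lsupp_mul hSapp h2
    rw [← Matrix.replicateRow_vecMul, hx] at h3
    ext j
    exact congrFun (congrFun h3 ()) j
  have hTr : D.Tr Q ≤ D.Tr S + δ := by
    have e1 : D.Tr Q = D.Tr (S * Q) + D.Tr ((1 - S) * Q) := by
      rw [← Tr_add, ← Matrix.add_mul]; simp
    have e2 : D.Tr ((1 - S) * Q) = D.hs ((1 - S) * Q) := by
      rw [hs_eq, Matrix.conjTranspose_mul, hQ.2, hS.one_sub.2]
      rw [show Q * (1 - S) * ((1 - S) * Q) = Q * ((1 - S) * (1 - S)) * Q by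
        simp only [Matrix.mul_assoc], hS.one_sub.1]
      rw [D.Tr_comm (Q * (1 - S)) Q, ← Matrix.mul_assoc, hQ.1, Tr_comm]
    have e3 : (1 - S) * Q = (1 - S) * (Q - B) := by
      rw [Matrix.mul_sub, Matrix.sub_mul 1 S B, hSB, Matrix.one_mul, sub_self, sub_zero]
    have e4 : D.hs ((1 - S) * Q) ≤ δ := by
      rw [e3]
      refine (D.hs_proj_mul_le hS.one_sub _).trans ?_
      rw [← hs_neg, neg_sub]; exact hBQ
    have e5 : D.Tr (S * Q) ≤ D.Tr S := by
      have h := D.hs_nonneg ((1 - Q) * S)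
      rw [hs_eq, Matrix.conjTranspose_mul, hS.2, hQ.one_sub.2] at h
      rw [show S * (1 - Q) * ((1 - Q) * S) = S * ((1 - Q) * (1 - Q)) * S by
        simp only [Matrix.mul_assoc], hQ.one_sub.1, Tr_comm, ← Matrix.mul_assoc, hS.1,
        Matrix.mul_sub, Matrix.mul_one, Tr_sub] at h
      linarith
    linarith
  calc ENNReal.ofReal (D.Tr Q) ≤ ENNReal.ofReal (D.Tr S + δ) := ENNReal.ofReal_le_ofReal hTr
    _ = ENNReal.ofReal (D.Tr S) + ENNReal.ofReal δ :=
        ENNReal.ofReal_add (D.Tr_proj_nonneg hS) hε'.le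
    _ ≤ D.tdim K + ε := by
        rw [hδ, ENNReal.ofReal_toReal htop]
        gcongr

/-- Kernel inequality. -/
lemma Tr_le_ker_add {C : Type v} [AddCommGroup C] [Module N C] {A : Matrix ι ι N} (hA : IsProj A)
    (g : (ι → N) →ₗ[N] C) (K : Submodule N (ι → N))
    (hK : ∀ x, x ∈ K ↔ x ᵥ* A = x ∧ g x = 0) :
    ENNReal.ofReal (D.Tr A) ≤ D.tdim K + D.tdim C := by
  classical
  obtain ⟨Q, hQ1, hQ2, hQK, happ⟩ := D.proj ι K
  have hQ : IsProj Q := ⟨hQ1, hQ2⟩
  have hAQ0 : (1 - A) * Q = 0 := by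
    have h' : ((1 - A) * Qᴴ) = 0 := by
      refine D.mul_eq_zero_of_approx (1 - A) Qᴴ fun ε hε => ?_
      have hcard : (0 : ℝ) < Fintype.card ι + 1 := by positivity
      choose k hk hlt using fun i => happ (ε / (Fintype.card ι + 1)) (by positivity) i
      refine ⟨(Matrix.of k)ᴴ, ?_, ?_⟩
      · have : Matrix.of k * A = Matrix.of k := by
          ext i j
          have := congrFun ((hK _).1 (hk i)).1 j
          simpa [Matrix.mul_apply, Matrix.vecMul, dotProduct] using this
        rw [← hA.one_sub.2, ← Matrix.conjTranspose_mul, Matrix.mul_sub, this, Matrix.mul_one,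
          sub_self, Matrix.conjTranspose_zero]
      · rw [← Matrix.conjTranspose_sub, hs_conjTranspose, ← hs_neg, neg_sub]
        have : D.hs (Matrix.of k - Q) ≤ ∑ _i : ι, ε / (Fintype.card ι + 1) := by
          unfold hs
          exact Finset.sum_le_sum fun i _ => (hlt i).le
        refine this.trans_lt ?_
        rw [Finset.sum_const, Finset.card_univ, nsmul_eq_mul, mul_div_assoc']
        rw [div_lt_iff₀ hcard]
        nlinarith
    rwa [hQ2] at h'
  have hAQ : A * Q = Q := by
    rw [Matrix.sub_mul, Matrix.one_mul, sub_eq_zero] at hAQ0; exact hAQ0.symm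
  have hQA' : Q * A = Q := by
    have := congrArg Matrix.conjTranspose hAQ
    rwa [Matrix.conjTranspose_mul, hQ.2, hA.2] at this
  have hAsub : IsProj (A - Q) := hA.sub hQ hAQ
  have h1 : ENNReal.ofReal (D.Tr (A - Q)) ≤ D.tdim C := by
    refine D.le_tdim (A - Q) hAsub g fun x hx hgx => ?_
    have hxA : x ᵥ* A = x := by
      conv_lhs => rw [← hx]
      rw [Matrix.vecMul_vecMul, Matrix.sub_mul, hA.1, hQA', hx]
    have hxK : x ∈ K := (hK x).2 ⟨hxA, hgx⟩
    have hxQ : x ᵥ* Q = x := hQK x hxK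
    rw [← hxQ, ← hx, Matrix.vecMul_vecMul, Matrix.sub_mul, hAQ, hQ.1, sub_self,
      Matrix.vecMul_zero]
  have h2 : ENNReal.ofReal (D.Tr Q) ≤ D.tdim K := D.Tr_le_tdim_of_approx K hQ happ
  have h3 : D.Tr A = D.Tr Q + D.Tr (A - Q) := by rw [Tr_sub]; ring
  rw [h3, ENNReal.ofReal_add (D.Tr_proj_nonneg hQ) (D.Tr_proj_nonneg hAsub)]
  exact add_le_add h2 h1

end key

end TraceData

end Vale.Agent.P239
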