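import Vale.Agent.P239.Dim2

/-! Additivity of the extended dimension, dense left ideals, torsion modules. -/

set_option linter.unusedSectionVars false

namespace Vale.Agent.P239

open scoped Matrix ENNReal
open Matrix

universe u v w

namespace TraceData

variable {N : Type u} [Ring N] [StarRing N] [Algebra ℝ N] [StarModule ℝ N] (D : TraceData N)

section additivity

variable {M : Type v} [AddCommGroup M] [Module N M] {M' : Type w} [AddCommGroup M'] [Module N M']

lemma tdim_le_of_surjective (p : M →ₗ[N] M') (hp : Function.Surjective p) :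
    D.tdim M' ≤ D.tdim M := by
  refine D.tdim_le fun n A g hA hg => ?_
  obtain ⟨g', hg'⟩ := exists_lift p hp g
  refine D.le_tdim A hA g' fun x hx hx0 => hg x hx ?_
  rw [← hg', LinearMap.comp_apply, hx0, map_zero]

lemma tdim_range_le (f : M →ₗ[N] M') : D.tdim (LinearMap.range f) ≤ D.tdim M :=
  D.tdim_le_of_surjective f.rangeRestrict f.surjective_rangeRestrict

lemma tdim_add_le {M₁ : Type*} [AddCommGroup M₁] [Module N M₁] {M₂ : Type*} [AddCommGroup M₂]
    [Module N M₂] (f : M₁ →ₗ[N] M) (hf : Function.Injective f) (p : M →ₗ[N] M₂)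
    (hp : Function.Surjective p) (h : ∀ x, p (f x) = 0) : D.tdim M₁ + D.tdim M₂ ≤ D.tdim M := by
  classical
  refine ENNReal.biSup_add_biSup_le' D.has_zero D.has_zero ?_
  rintro r₁ ⟨n₁, A₁, g₁, hA₁, hg₁, rfl⟩ r₂ ⟨n₂, A₂, g₂, hA₂, hg₂, rfl⟩
  obtain ⟨g₂', hg₂'⟩ := exists_lift p hp g₂
  let A : Matrix (Fin n₁ ⊕ Fin n₂) (Fin n₁ ⊕ Fin n₂) N := Matrix.fromBlocks A₁ 0 0 A₂
  have hA : IsProj A := by
    refine ⟨?_, ?_⟩
    · simp [A, Matrix.fromBlocks_multiply, hA₁.1, hA₂.1]
    · simp [A, Matrix.fromBlocks_conjTranspose, hA₁.2, hA₂.2]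
  let g : (Fin n₁ ⊕ Fin n₂ → N) →ₗ[N] M :=
    (f.comp g₁).comp (LinearMap.funLeft N N Sum.inl) + g₂'.comp (LinearMap.funLeft N N Sum.inr)
  have hg : Emb A g := by
    intro x hx hgx
    have hx' := hx
    simp only [A] at hx'
    rw [Matrix.vecMul_fromBlocks] at hx'
    have e1 : (x ∘ Sum.inl) ᵥ* A₁ = x ∘ Sum.inl := by
      ext i
      have := congrFun hx' (Sum.inl i)
      simpa using this
    have e2 : (x ∘ Sum.inr) ᵥ* A₂ = x ∘ Sum.inr := by
      ext i
      have := congrFun hx' (Sum.inr i)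
      simpa using this
    have hgx' : f (g₁ (x ∘ Sum.inl)) + g₂' (x ∘ Sum.inr) = 0 := hgx
    have h2 : g₂ (x ∘ Sum.inr) = 0 := by
      have := congrArg p hgx'
      rw [map_add, h, zero_add, map_zero] at this
      rw [← hg₂', LinearMap.comp_apply, this]
    have h3 : x ∘ Sum.inr = 0 := hg₂ _ e2 h2
    rw [h3, map_zero, add_zero] at hgx'
    have h4 : x ∘ Sum.inl = 0 := hg₁ _ e1 (hf (by rw [hgx', map_zero]))
    ext i
    rcases i with i | i
    · exact congrFun h4 i
    · exact congrFun h3 i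
  have hTr : D.Tr A = D.Tr A₁ + D.Tr A₂ := by
    simp [Tr, A]
  rw [← ENNReal.ofReal_add (D.Tr_proj_nonneg hA₁) (D.Tr_proj_nonneg hA₂), ← hTr]
  exact D.le_tdim A hA g hg

lemma tdim_le_ker_add (p : M →ₗ[N] M') : D.tdim M ≤ D.tdim (LinearMap.ker p) + D.tdim M' := by
  refine D.tdim_le fun n A g hA hg => ?_
  let K : Submodule N (Fin n → N) :=
    LinearMap.eqLocus A.vecMulLinear LinearMap.id ⊓ LinearMap.ker (p.comp g)
  have hK : ∀ x, x ∈ K ↔ x ᵥ* A = x ∧ (p.comp g) x = 0 := fun x => Iff.rfl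
  have hK' : D.tdim K ≤ D.tdim (LinearMap.ker p) := by
    refine D.tdim_mono ((g.comp K.subtype).codRestrict (LinearMap.ker p) fun x => ?_) ?_
    · exact x.2.2
    · rw [← LinearMap.ker_eq_bot, LinearMap.ker_eq_bot']
      rintro ⟨x, hx⟩ h
      have h1 : g x = 0 := congrArg Subtype.val h
      exact Subtype.ext (hg x ((hK x).1 hx).1 h1)
  exact (D.Tr_le_ker_add hA (p.comp g) K hK).trans (by gcongr)

lemma tdim_le_add {M₁ : Type*} [AddCommGroup M₁] [Module N M₁] (f : M₁ →ₗ[N] M)
    (p : M →ₗ[N] M') (h : LinearMap.ker p ≤ LinearMap.range f) :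
    D.tdim M ≤ D.tdim M₁ + D.tdim M' := by
  refine (D.tdim_le_ker_add p).trans ?_
  gcongr
  exact (D.tdim_mono (Submodule.inclusion h) (Submodule.inclusion_injective h)).trans
    (D.tdim_range_le f)

lemma tdim_quot_le (K : Submodule N M) : D.tdim (M ⧸ K) ≤ D.tdim M :=
  D.tdim_le_of_surjective K.mkQ K.mkQ_surjective

lemma tdim_submodule_le (K : Submodule N M) : D.tdim K ≤ D.tdim M :=
  D.tdim_mono K.subtype K.injective_subtype

lemma tdim_le_of_le {K L : Submodule N M} (h : K ≤ L) : D.tdim K ≤ D.tdim L :=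
  D.tdim_mono (Submodule.inclusion h) (Submodule.inclusion_injective h)

lemma tdim_add_quot (K : Submodule N M) : D.tdim K + D.tdim (M ⧸ K) = D.tdim M := by
  refine le_antisymm (D.tdim_add_le K.subtype K.injective_subtype K.mkQ K.mkQ_surjective
    (fun x => by simp)) ?_
  exact D.tdim_le_add K.subtype K.mkQ (by simp)

lemma tdim_of_subsingleton [Subsingleton M] : D.tdim M = 0 := by
  refine le_antisymm (D.tdim_le fun n A g hA hg => ?_) bot_le
  have : A = 0 := by
    ext i j
    have h1 : A i = 0 := hg (A i) (by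
      ext j
      have := congrFun (congrFun hA.1 i) j
      simpa [Matrix.mul_apply, Matrix.vecMul, dotProduct] using this) (Subsingleton.elim _ _)
    exact congrFun h1 j
  rw [this, Tr_zero]; simp

lemma tdim_sup_le (K L : Submodule N M) :
    D.tdim (K ⊔ L : Submodule N M) ≤ D.tdim K + D.tdim L := by
  let p : (K ⊔ L : Submodule N M) →ₗ[N] (M ⧸ K) := K.mkQ.comp (K ⊔ L).subtype
  have h1 := D.tdim_le_ker_add p.rangeRestrict
  refine h1.trans (add_le_add ?_ ?_)
  · have hker : ∀ x : LinearMap.ker p.rangeRestrict, ((x : (K ⊔ L : Submodule N M)) : M) ∈ K := by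
      rintro ⟨x, hx⟩
      rw [LinearMap.ker_rangeRestrict, LinearMap.mem_ker] at hx
      simpa [p] using hx
    refine D.tdim_mono
      (((K ⊔ L).subtype.comp (LinearMap.ker p.rangeRestrict).subtype).codRestrict K hker) ?_
    intro x y hxy
    have := congrArg Subtype.val hxy
    exact Subtype.ext (Subtype.ext this)
  · have hr : LinearMap.range p ≤ LinearMap.range (K.mkQ.comp L.subtype) := by
      rintro _ ⟨⟨x, hx⟩, rfl⟩
      obtain ⟨a, ha, b, hb, rfl⟩ := Submodule.mem_sup.1 hx
      refine ⟨⟨b, hb⟩, ?_⟩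
      simp only [p, LinearMap.comp_apply, Submodule.subtype_apply, map_add]
      have : K.mkQ a = 0 := by simpa using ha
      rw [this, zero_add]
    exact (D.tdim_le_of_le hr).trans (D.tdim_range_le _)

lemma tdim_finset_sup_le {κ : Type*} (s : Finset κ) (S : κ → Submodule N M) :
    D.tdim (⨆ i ∈ s, S i : Submodule N M) ≤ ∑ i ∈ s, D.tdim (S i) := by
  classical
  induction s using Finset.induction_on with
  | empty =>
    have h0 : (⨆ i ∈ (∅ : Finset κ), S i) = ⊥ := by simp
    rw [h0, Finset.sum_empty, D.tdim_of_subsingleton]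
  | insert a s ha ih =>
    rw [Finset.sum_insert ha, Finset.iSup_insert]
    exact (D.tdim_sup_le _ _).trans (by gcongr)

lemma tdim_iSup_le {κ : Type*} (S : κ → Submodule N M) :
    D.tdim (⨆ i, S i : Submodule N M) ≤ ∑' i, D.tdim (S i) := by
  classical
  refine D.tdim_le fun n A g hA hg => ?_
  have hmem : ∀ j : Fin n, ((g (Pi.single j 1) : (⨆ i, S i : Submodule N M)) : M) ∈
    ⨆ i, S i := fun j => (g (Pi.single j 1)).2
  choose s hs using fun j => Submodule.mem_iSup_iff_exists_finset.1 (hmem j)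
  let t : Finset κ := Finset.univ.biUnion s
  have ht : ∀ j : Fin n, ((g (Pi.single j 1) : (⨆ i, S i : Submodule N M)) : M) ∈
      ⨆ i ∈ t, S i := by
    intro j
    refine (iSup_le fun i => iSup_le fun hi => ?_ :
      (⨆ i ∈ s j, S i) ≤ ⨆ i ∈ t, S i) (hs j)
    exact le_iSup₂_of_le i (Finset.mem_biUnion.2 ⟨j, Finset.mem_univ j, hi⟩) le_rfl
  let g' : (Fin n → N) →ₗ[N] (⨆ i ∈ t, S i : Submodule N M) :=
    Fintype.linearCombination N (fun j => ⟨_, ht j⟩)
  have hgg' : ∀ x, ((g' x : (⨆ i ∈ t, S i : Submodule N M)) : M) = (g x : M) := by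
    intro x
    have e : (Submodule.subtype _).comp g' = (Submodule.subtype _).comp g := by
      refine LinearMap.pi_ext' fun j => LinearMap.ext_ring ?_
      simp [g', Fintype.linearCombination_apply, Pi.single_apply, ite_smul]
    exact LinearMap.congr_fun e x
  have hg' : Emb A g' := by
    intro x hx h0
    refine hg x hx (Subtype.ext ?_)
    rw [← hgg', h0]; rfl
  refine (D.le_tdim A hA g' hg').trans ((D.tdim_finset_sup_le t S).trans ?_)
  exact ENNReal.sum_le_tsum t

lemma tdim_pi_le {κ : Type} [Fintype κ] (F : κ → Type w) [∀ i, AddCommGroup (F i)]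
    [∀ i, Module N (F i)] : D.tdim (∀ i, F i) ≤ ∑ i, D.tdim (F i) := by
  classical
  have h1 : D.tdim (∀ i, F i) ≤ D.tdim (⊤ : Submodule N (∀ i, F i)) :=
    D.tdim_mono (LinearEquiv.symm Submodule.topEquiv).toLinearMap
      (LinearEquiv.symm Submodule.topEquiv).injective
  rw [← LinearMap.iSup_range_single N F] at h1
  refine h1.trans ((D.tdim_iSup_le _).trans ?_)
  rw [tsum_fintype]
  exact Finset.sum_le_sum fun i _ => D.tdim_range_le _

end additivity

section free

variable {ι : Type} [Fintype ι]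

lemma row_eq_zero {A : Matrix ι ι N} (h : ∀ i, A i = 0) : A = 0 := by
  ext i j; exact congrFun (h i) j

/-- dimension of the projective module `N^ι A` is at most the trace of `A` -/
lemma tdim_eqLocus_le {A : Matrix ι ι N} (hA : IsProj A) :
    D.tdim (LinearMap.eqLocus A.vecMulLinear LinearMap.id) ≤ ENNReal.ofReal (D.Tr A) := by
  classical
  refine D.tdim_le fun m B g hB hg => ENNReal.ofReal_le_ofReal ?_
  let Φ : Matrix (Fin m) ι N := Matrix.of fun i => (g (Pi.single i 1) : ι → N)
  have hg_eq : ∀ x, (g x : ι → N) = x ᵥ* Φ := by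
    intro x
    have e : (Submodule.subtype _).comp g = Φ.vecMulLinear := by
      refine LinearMap.pi_ext' fun j => LinearMap.ext_ring ?_
      ext i
      simp [Φ]
    exact LinearMap.congr_fun e x
  have hΦA : Φ * A = Φ := by
    ext i j
    have h1 : ((g (Pi.single i 1) : ι → N)) ᵥ* A = (g (Pi.single i 1) : ι → N) :=
      (g (Pi.single i 1)).2
    have := congrFun h1 j
    simpa [Matrix.mul_apply, Matrix.vecMul, dotProduct, Φ] using this
  obtain ⟨S, hS, hSB, happ⟩ := D.exists_lsupp (B * Φ)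
  have hBS : B * S = S := by
    have h0 : (1 - B) * S = 0 := by
      refine D.lsupp_mul happ ?_
      rw [← Matrix.mul_assoc, Matrix.sub_mul, hB.1, Matrix.one_mul, sub_self, Matrix.zero_mul]
    rw [Matrix.sub_mul, Matrix.one_mul, sub_eq_zero] at h0
    exact h0.symm
  have hSB' : S * B = S := by
    have := congrArg Matrix.conjTranspose hBS
    rwa [Matrix.conjTranspose_mul, hS.2, hB.2] at this
  have hz : (B - S) * Φ = 0 := by
    have : (B - S) * B = B - S := by rw [Matrix.sub_mul, hB.1, hSB']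
    rw [← this, Matrix.mul_assoc, Matrix.sub_mul, hSB]
    rw [← Matrix.mul_assoc, hB.1, sub_self]
  have hBeq : B - S = 0 := by
    refine row_eq_zero fun i => hg _ ?_ ?_
    · have : (B - S) * B = B - S := by rw [Matrix.sub_mul, hB.1, hSB']
      ext j
      have := congrFun (congrFun this i) j
      simpa [Matrix.mul_apply, Matrix.vecMul, dotProduct] using this
    · apply Subtype.ext
      rw [hg_eq]
      ext j
      have := congrFun (congrFun hz i) j
      simpa [Matrix.mul_apply, Matrix.vecMul, dotProduct] using this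
  have hBS2 : B = S := sub_eq_zero.1 hBeq
  rw [hBS2]
  exact D.Tr_lsupp_le _ hS hSB happ hA (by rw [Matrix.mul_assoc, hΦA])

lemma Tr_one [DecidableEq ι] : D.Tr (1 : Matrix ι ι N) = Fintype.card ι := by
  simp [Tr, D.one]

lemma isProj_one [DecidableEq ι] : IsProj (1 : Matrix ι ι N) := ⟨by simp, by simp⟩

lemma tdim_free_le (ι : Type) [Fintype ι] : D.tdim (ι → N) ≤ Fintype.card ι := by
  classical
  have h := D.tdim_eqLocus_le (A := (1 : Matrix ι ι N)) isProj_one
  rw [D.Tr_one, ENNReal.ofReal_natCast] at h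
  refine le_trans ?_ h
  refine D.tdim_mono (LinearMap.codRestrict _ LinearMap.id fun x => ?_) ?_
  · change x ᵥ* (1 : Matrix ι ι N) = x
    simp
  · intro x y hxy
    exact congrArg Subtype.val hxy

lemma tdim_self_le : D.tdim N ≤ 1 := by
  have h := D.tdim_free_le (Fin 1)
  simp only [Fintype.card_fin, Nat.cast_one] at h
  exact (D.tdim_congr (LinearEquiv.funUnique (Fin 1) N N).symm).le.trans h

end free

section dense

/-- A left ideal containing elements arbitrarily close to `1` in the 2-norm. -/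
def Dense (J : Submodule N N) : Prop :=
  ∀ ε : ℝ, 0 < ε → ∃ a ∈ J, D.t (star (1 - a) * (1 - a)) < ε

lemma Dense.mono {J J' : Submodule N N} (h : J ≤ J') (hJ : D.Dense J) : D.Dense J' :=
  fun ε hε => let ⟨a, ha, hlt⟩ := hJ ε hε; ⟨a, h ha, hlt⟩

lemma tdim_quot_of_dense {J : Submodule N N} (hJ : D.Dense J) : D.tdim (N ⧸ J) = 0 := by
  classical
  let K : Submodule N (Unit → N) := J.comap (LinearMap.proj ())
  have h1 : ENNReal.ofReal (D.Tr (1 : Matrix Unit Unit N)) ≤ D.tdim K := by
    refine D.Tr_le_tdim_of_approx K isProj_one fun ε hε i => ?_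
    obtain ⟨a, ha, hlt⟩ := hJ ε hε
    refine ⟨fun _ => a, ha, ?_⟩
    have e : D.t (star (a - 1) * (a - 1)) = D.t (star (1 - a) * (1 - a)) := by
      rw [← neg_sub 1 a, star_neg, neg_mul_neg]
    simpa using e.trans_lt hlt
  have h2 : D.tdim K ≤ D.tdim J := by
    refine D.tdim_mono (((LinearMap.proj ()).comp K.subtype).codRestrict J fun x => x.2) ?_
    intro x y hxy
    have : (x : Unit → N) () = (y : Unit → N) () := congrArg Subtype.val hxy
    exact Subtype.ext (funext fun _ => this)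
  rw [D.Tr_one] at h1
  simp only [Fintype.card_unit, Nat.cast_one, ENNReal.ofReal_one] at h1
  have h3 := D.tdim_add_quot J
  have h4 := D.tdim_self_le
  rw [← h3] at h4
  have h5 : 1 + D.tdim (N ⧸ J) ≤ 1 + 0 := by
    rw [add_zero]
    exact le_trans (by gcongr; exact h1.trans h2) h4
  have := (ENNReal.add_le_add_iff_left ENNReal.one_ne_top).1 h5
  exact le_antisymm this bot_le

lemma dense_of_tdim_quot {J : Submodule N N} (hJ : D.tdim (N ⧸ J) = 0) : D.Dense J := by
  classical
  let K : Submodule N (Unit → N) := J.comap (LinearMap.proj ())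
  obtain ⟨Q, hQ1, hQ2, hQK, happ⟩ := D.proj Unit K
  have hQ : IsProj Q := ⟨hQ1, hQ2⟩
  have h1 : ENNReal.ofReal (D.Tr (1 - Q)) ≤ D.tdim (N ⧸ J) := by
    refine D.le_tdim (1 - Q) hQ.one_sub (J.mkQ.comp (LinearMap.proj ())) fun x hx h0 => ?_
    have hxK : x ∈ K := by
      have : J.mkQ (x ()) = 0 := h0
      simpa [K] using this
    have hxQ := hQK x hxK
    rw [← hx, Matrix.vecMul_sub, Matrix.vecMul_one, hxQ, sub_self]
  rw [hJ] at h1
  have h2 : D.Tr (1 - Q) ≤ 0 := by
    have := le_antisymm h1 bot_le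
    exact ENNReal.ofReal_eq_zero.1 this
  have h3 : (1 : Matrix Unit Unit N) - Q = 0 := by
    apply D.eq_zero_of_hs
    rw [← D.Tr_proj hQ.one_sub]
    exact le_antisymm h2 (D.Tr_proj_nonneg hQ.one_sub)
  have h4 : Q = 1 := (sub_eq_zero.1 h3).symm
  intro ε hε
  obtain ⟨k, hk, hlt⟩ := happ ε hε ()
  refine ⟨k (), hk, ?_⟩
  have e : D.t (star (k () - 1) * (k () - 1)) = D.t (star (1 - k ()) * (1 - k ())) := by
    rw [← neg_sub 1 (k ()), star_neg, neg_mul_neg]
  rw [h4] at hlt
  rw [← e]
  simpa using hlt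

lemma dense_iff {J : Submodule N N} : D.Dense J ↔ D.tdim (N ⧸ J) = 0 :=
  ⟨D.tdim_quot_of_dense, D.dense_of_tdim_quot⟩

/-- Ore-type property: `(J : w)` is dense if `J` is. -/
lemma Dense.colon {J : Submodule N N} (hJ : D.Dense J) (w : N) :
    D.Dense (J.comap (LinearMap.toSpanSingleton N N w)) := by
  rw [dense_iff] at *
  refine le_antisymm ?_ bot_le
  rw [← hJ]
  refine D.tdim_mono (Submodule.mapQ _ _ (LinearMap.toSpanSingleton N N w) le_rfl) ?_
  rw [← LinearMap.ker_eq_bot, Submodule.mapQ, Submodule.ker_liftQ, LinearMap.ker_comp,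
    Submodule.ker_mkQ, Submodule.mkQ_map_self]

lemma Dense.inf {J J' : Submodule N N} (hJ : D.Dense J) (hJ' : D.Dense J') :
    D.Dense (J ⊓ J') := by
  rw [dense_iff] at *
  refine le_antisymm ?_ bot_le
  -- `N / (J ∩ J') → N / J` has kernel embedding into `N / J'`
  let p : (N ⧸ (J ⊓ J')) →ₗ[N] (N ⧸ J) := Submodule.mapQ _ _ LinearMap.id inf_le_left
  let q : (N ⧸ (J ⊓ J')) →ₗ[N] (N ⧸ J') := Submodule.mapQ _ _ LinearMap.id inf_le_right
  have h := D.tdim_le_ker_add p
  have h2 : D.tdim (LinearMap.ker p) ≤ D.tdim (N ⧸ J') := by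
    refine D.tdim_mono (q.comp (LinearMap.ker p).subtype) ?_
    rw [← LinearMap.ker_eq_bot, LinearMap.ker_eq_bot']
    rintro ⟨x, hx⟩ h0
    obtain ⟨x, rfl⟩ := Submodule.Quotient.mk_surjective _ x
    have h1 : x ∈ J := by
      rw [LinearMap.mem_ker] at hx
      simpa [p] using hx
    have h2 : x ∈ J' := by
      have : q (Submodule.Quotient.mk x) = 0 := h0
      simpa [q] using this
    exact Subtype.ext ((Submodule.Quotient.mk_eq_zero _).2 ⟨h1, h2⟩)
  rw [hJ] at h
  rw [hJ'] at h2
  calc D.tdim (N ⧸ (J ⊓ J')) ≤ D.tdim (LinearMap.ker p) + 0 := h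
    _ ≤ 0 + 0 := by gcongr
    _ = 0 := by simp

lemma dense_top : D.Dense ⊤ := fun ε hε => ⟨1, trivial, by simpa using hε⟩

lemma Dense.finset_inf {κ : Type*} (s : Finset κ) (J : κ → Submodule N N)
    (h : ∀ i ∈ s, D.Dense (J i)) : D.Dense (s.inf J) := by
  classical
  induction s using Finset.induction_on with
  | empty => exact D.dense_top
  | insert a s ha ih =>
    rw [Finset.inf_insert]
    exact Dense.inf D (h a (Finset.mem_insert_self a s))
      (ih fun i hi => h i (Finset.mem_insert_of_mem hi))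

end dense

section torsion

variable {M : Type v} [AddCommGroup M] [Module N M] {M' : Type w} [AddCommGroup M'] [Module N M']

lemma tdim_span_singleton {m : M} (hm : D.Dense (LinearMap.ker (LinearMap.toSpanSingleton N M m))) :
    D.tdim (Submodule.span N {m}) = 0 := by
  refine le_antisymm ?_ bot_le
  rw [← D.tdim_quot_of_dense hm, ← LinearMap.range_toSpanSingleton]
  exact (D.tdim_congr (LinearMap.quotKerEquivRange _).symm).le

/-- a module all of whose elements are torsion has dimension zero -/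
lemma tdim_of_torsion (h : ∀ m : M, D.Dense (LinearMap.ker (LinearMap.toSpanSingleton N M m))) :
    D.tdim M = 0 := by
  refine le_antisymm (D.tdim_le fun n A g hA hg => ?_) bot_le
  have hr : ∀ x, g x ∈ (⨆ i : Fin n, Submodule.span N {g (Pi.single i 1)} : Submodule N M) := by
    intro x
    have e : x = ∑ i, x i • (Pi.single i 1 : Fin n → N) := by
      ext j
      simp [Pi.single_apply]
    rw [e, map_sum]
    refine Submodule.sum_mem _ fun i _ => ?_
    rw [map_smul]
    exact Submodule.smul_mem _ _ (Submodule.mem_iSup_of_mem i (Submodule.mem_span_singleton_self _))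
  let g' : (Fin n → N) →ₗ[N] (⨆ i : Fin n, Submodule.span N {g (Pi.single i 1)} :
      Submodule N M) := g.codRestrict _ hr
  have h1 : ENNReal.ofReal (D.Tr A) ≤ _ := D.le_tdim A hA g' fun x hx h0 =>
    hg x hx (congrArg Subtype.val h0)
  refine h1.trans ((D.tdim_iSup_le _).trans ?_)
  rw [ENNReal.tsum_eq_zero.2 fun i => D.tdim_span_singleton (h _)]

/-- (D2) -/
lemma tdim_le_of_almost_surjective (f : M →ₗ[N] M')
    (h : ∀ b : M', ∀ ε : ℝ, 0 < ε → ∃ x : N, x • b ∈ LinearMap.range f ∧
      D.t (star (1 - x) * (1 - x)) < ε) : D.tdim M' ≤ D.tdim M := by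
  have h1 := D.tdim_le_add f (LinearMap.range f).mkQ (by simp)
  have h2 : D.tdim (M' ⧸ LinearMap.range f) = 0 := by
    refine D.tdim_of_torsion fun m => ?_
    obtain ⟨b, rfl⟩ := Submodule.Quotient.mk_surjective _ m
    intro ε hε
    obtain ⟨x, hx, hlt⟩ := h b ε hε
    refine ⟨x, ?_, hlt⟩
    rw [LinearMap.mem_ker, LinearMap.toSpanSingleton_apply, ← Submodule.Quotient.mk_smul,
      Submodule.Quotient.mk_eq_zero]
    exact hx
  rwa [h2, add_zero] at h1

end torsion

end TraceData

end Vale.Agent.P239
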