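import Vale.Agent.P239.Om

/-!
Torsion calculus with respect to a family of dense left ideals, and the graph argument.
-/

namespace Vale.Agent.P239

section Gabriel

variable {R : Type*} [Ring R]

/-- A family of left ideals with the closure properties of dense ideals. -/
structure IsGabriel (F : Submodule R R → Prop) : Prop where
  top : F ⊤
  mono : ∀ {L L' : Submodule R R}, L ≤ L' → F L → F L'
  colon : ∀ {L : Submodule R R} (w : R), F L → F (L.comap (LinearMap.toSpanSingleton R R w))
  trans : ∀ {L L' : Submodule R R}, F L →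
    (∀ x ∈ L, F (L'.comap (LinearMap.toSpanSingleton R R x))) → F L'

variable {F : Submodule R R → Prop} {M : Type*} [AddCommGroup M] [Module R M]

/-- `m` is torsion modulo `I`. -/
def TM (F : Submodule R R → Prop) (I : Submodule R M) (m : M) : Prop :=
  F (I.comap (LinearMap.toSpanSingleton R M m))

theorem TM.of_mem (hF : IsGabriel F) {I : Submodule R M} {m : M} (h : m ∈ I) : TM F I m := by
  have : I.comap (LinearMap.toSpanSingleton R M m) = ⊤ := by
    rw [eq_top_iff]
    intro x _
    exact I.smul_mem x h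
  rw [TM, this]
  exact hF.top

theorem TM.mono (hF : IsGabriel F) {I J : Submodule R M} (h : I ≤ J) {m : M} (hm : TM F I m) :
    TM F J m := hF.mono (fun _ hx => h hx) hm

theorem TM.smul (hF : IsGabriel F) {I : Submodule R M} {m : M} (a : R) (hm : TM F I m) :
    TM F I (a • m) := by
  have h := hF.colon a hm
  refine hF.mono ?_ h
  intro x hx
  change x • a • m ∈ I
  change (x • a) • m ∈ I at hx
  rwa [smul_assoc] at hx

theorem TM.trans' (hF : IsGabriel F) {I : Submodule R M} {m : M} {L : Submodule R R} (hL : F L)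
    (h : ∀ x ∈ L, TM F I (x • m)) : TM F I m := by
  refine hF.trans hL fun x hx => hF.mono ?_ (h x hx)
  intro y hy
  change (y • x) • m ∈ I
  change y • x • m ∈ I at hy
  rwa [smul_assoc]

theorem TM.add (hF : IsGabriel F) {I : Submodule R M} {m m' : M} (hm : TM F I m)
    (hm' : TM F I m') : TM F I (m + m') := by
  refine TM.trans' hF hm fun x hx => ?_
  have hx' : x • m ∈ I := hx
  refine hF.mono ?_ (TM.smul hF x hm')
  intro y hy
  change y • x • (m + m') ∈ I
  rw [smul_add, smul_add]
  exact I.add_mem (I.smul_mem y hx') hy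

/-- The closure of a submodule. -/
def clos (hF : IsGabriel F) (I : Submodule R M) : Submodule R M where
  carrier := {m | TM F I m}
  zero_mem' := TM.of_mem hF I.zero_mem
  add_mem' := TM.add hF
  smul_mem' a _ := TM.smul hF a

theorem mem_clos (hF : IsGabriel F) {I : Submodule R M} {m : M} : m ∈ clos hF I ↔ TM F I m :=
  Iff.rfl

theorem le_clos (hF : IsGabriel F) (I : Submodule R M) : I ≤ clos hF I :=
  fun _ => TM.of_mem hF

theorem clos_le (hF : IsGabriel F) {I J : Submodule R M} (h : I ≤ clos hF J) :
    clos hF I ≤ clos hF J := by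
  intro m hm
  exact TM.trans' hF hm fun x hx => h hx

end Gabriel

section GraphLemma

variable {R : Type*} [Ring R] {G : Type*} [Group G]

/-- The submodule of `Om φ` spanned by the symbols of elements of a subgroup. -/
noncomputable def OmA (φ : G →* R) (A : Subgroup G) : Submodule R (Om φ) :=
  Submodule.span R (om φ '' A)

theorem om_mem (φ : G →* R) {A : Subgroup G} {a : G} (h : a ∈ A) : om φ a ∈ OmA φ A :=
  Submodule.subset_span ⟨a, h, rfl⟩

theorem OmA_mono (φ : G →* R) {A B : Subgroup G} (h : A ≤ B) : OmA φ A ≤ OmA φ B :=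
  Submodule.span_mono (Set.image_mono h)

/-- The left ideal generated by `φ h - 1`, `h ∈ D`. -/
noncomputable def augId (φ : G →* R) (D : Subgroup G) : Submodule R R :=
  Submodule.span R ((fun h => φ h - 1) '' D)

theorem map_mu_OmA (φ : G →* R) (D : Subgroup G) :
    (OmA φ D).map (mu φ) = augId φ D := by
  rw [OmA, augId, Submodule.map_span, ← Set.image_comp]
  congr 1
  refine Set.image_congr fun x _ => ?_
  rw [Function.comp_apply, mu_om]

theorem OmA_conj (φ : G →* R) (A : Subgroup G) (g : G) (u : Om φ)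
    (hu : u ∈ OmA φ (A.map (MulAut.conj g).toMonoidHom)) :
    u + mu φ u • om φ g ∈ OmA φ A := by
  rw [OmA] at hu
  induction hu using Submodule.span_induction with
  | mem x hx =>
    obtain ⟨_, ⟨a, ha, rfl⟩, rfl⟩ := hx
    rw [MulEquiv.coe_toMonoidHom, MulAut.conj_apply, mu_om]
    have h1 : om φ (g * a * g⁻¹ * g) = om φ (g * a) := by rw [inv_mul_cancel_right]
    rw [om_mul φ (g * a * g⁻¹) g, om_mul φ g a] at h1
    have h2 : om φ (g * a * g⁻¹) + (φ (g * a * g⁻¹) - 1) • om φ g = φ g • om φ a := by
      rw [sub_smul, one_smul, ← add_sub_assoc, h1]; abel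
    rw [h2]
    exact Submodule.smul_mem _ _ (om_mem φ ha)
  | zero => simp
  | add x y _ _ hx hy =>
    have : x + y + mu φ (x + y) • om φ g =
        (x + mu φ x • om φ g) + (y + mu φ y • om φ g) := by
      rw [map_add, add_smul]; abel
    rw [this]
    exact Submodule.add_mem _ hx hy
  | smul a x _ hx =>
    have : a • x + mu φ (a • x) • om φ g = a • (x + mu φ x • om φ g) := by
      rw [map_smul, smul_add, smul_eq_mul, mul_smul]
    rw [this]
    exact Submodule.smul_mem _ _ hx

/-- The graph argument. -/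
theorem graph_core {F : Submodule R R → Prop} (hF : IsGabriel F) (φ : G →* R)
    (hinf : ∀ D : Subgroup G, Infinite D → F (augId φ D))
    {W : Type*} [MulAction G W] (adj : W → W → Prop) (hconn : ∀ w w', Relation.EqvGen adj w w')
    (hadj : ∀ w w', adj w w' →
      Infinite (MulAction.stabilizer G w ⊓ MulAction.stabilizer G w' : Subgroup G))
    (w₀ : W) (hw₀ : Infinite (MulAction.stabilizer G w₀))
    (I : Submodule R (Om φ)) (hI : I ≤ K φ)
    (hst : ∀ w : W, OmA φ (MulAction.stabilizer G w) ⊓ K φ ≤ I) :
    ∀ z ∈ K φ, TM F I z := by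
  -- neighbouring stabilizers
  have hstep : ∀ (A B : Subgroup G), Infinite (A ⊓ B : Subgroup G) → OmA φ A ⊓ K φ ≤ I →
      clos hF (I ⊔ OmA φ A) ≤ clos hF (I ⊔ OmA φ B) := by
    intro A B hAB hA
    refine clos_le hF (sup_le (le_sup_left.trans (le_clos hF _)) ?_)
    intro u hu
    refine TM.trans' hF (hF.colon (mu φ u) (hinf (A ⊓ B) hAB)) fun x hx => ?_
    have hx' : mu φ (x • u) ∈ augId φ (A ⊓ B) := by
      rw [map_smul]; exact hx
    rw [← map_mu_OmA] at hx'
    obtain ⟨δ, hδ, hδ'⟩ := hx'
    refine TM.of_mem hF ?_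
    have h1 : x • u - δ ∈ I := by
      refine hA ⟨Submodule.sub_mem _ (Submodule.smul_mem _ _ hu) (OmA_mono φ inf_le_left hδ), ?_⟩
      rw [SetLike.mem_coe, LinearMap.mem_ker, map_sub, hδ', sub_self]
    have h2 : x • u = (x • u - δ) + δ := by abel
    rw [h2]
    exact Submodule.add_mem_sup h1 (OmA_mono φ inf_le_right hδ)
  have hconn' : ∀ w w' : W, clos hF (I ⊔ OmA φ (MulAction.stabilizer G w)) =
      clos hF (I ⊔ OmA φ (MulAction.stabilizer G w')) := by
    intro w w'
    induction hconn w w' with
    | rel x y h =>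
      refine le_antisymm (hstep _ _ (hadj _ _ h) (hst _)) (hstep _ _ ?_ (hst _))
      rw [inf_comm]
      exact hadj _ _ h
    | refl x => rfl
    | symm x y _ h => exact h.symm
    | trans x y z _ _ h1 h2 => exact h1.trans h2
  -- all symbols are in the closure
  have hall : ∀ g : G, om φ g ∈ clos hF (I ⊔ OmA φ (MulAction.stabilizer G w₀)) := by
    intro g
    have hinf' : Infinite (MulAction.stabilizer G (g • w₀)) := by
      rw [MulAction.stabilizer_smul_eq_stabilizer_map_conj]
      exact (Subgroup.equivMapOfInjective _ _ (MulAut.conj g).injective).symm.toEquiv.infinite_iff.mpr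
        hw₀
    have hle : augId φ (MulAction.stabilizer G (g • w₀)) ≤
        (clos hF (I ⊔ OmA φ (MulAction.stabilizer G w₀))).comap
          (LinearMap.toSpanSingleton R _ (om φ g)) := by
      rw [augId, Submodule.span_le]
      rintro _ ⟨h, hh, rfl⟩
      change (φ h - 1) • om φ g ∈ clos hF _
      have hh' : g⁻¹ * h * g ∈ MulAction.stabilizer G w₀ := by
        rw [MulAction.mem_stabilizer_iff]
        rw [SetLike.mem_coe, MulAction.mem_stabilizer_iff] at hh
        rw [mul_smul, mul_smul, hh, inv_smul_smul]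
      have e1 : om φ (h * g) = om φ (g * (g⁻¹ * h * g)) := by
        congr 1; group
      rw [om_mul, om_mul] at e1
      have e2 : (φ h - 1) • om φ g = φ g • om φ (g⁻¹ * h * g) - om φ h := by
        rw [sub_smul, one_smul, sub_eq_sub_iff_add_eq_add, add_comm, e1, add_comm]
      rw [e2]
      refine Submodule.sub_mem _ (Submodule.smul_mem _ _ ?_) ?_
      · exact le_clos hF _ (Submodule.mem_sup_right (om_mem φ hh'))
      · rw [hconn' w₀ (g • w₀)]
        exact le_clos hF _ (Submodule.mem_sup_right (om_mem φ hh))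
    exact clos_le hF le_rfl (TM.trans' hF (hinf _ hinf')
      fun x hx => TM.of_mem hF (hle hx) : TM F (clos hF _) (om φ g))
  intro z hz
  have hz' : TM F (I ⊔ OmA φ (MulAction.stabilizer G w₀)) z := by
    have : Submodule.span R (Set.range (om φ)) ≤
        clos hF (I ⊔ OmA φ (MulAction.stabilizer G w₀)) := by
      rw [Submodule.span_le]
      rintro _ ⟨g, rfl⟩
      exact hall g
    exact this (om_span φ z)
  refine TM.trans' hF hz' fun x hx => TM.of_mem hF ?_
  have hx' : x • z ∈ I ⊔ OmA φ (MulAction.stabilizer G w₀) := hx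
  obtain ⟨i, hi, δ, hδ, hsum⟩ := Submodule.mem_sup.mp hx'
  have h0 : mu φ (x • z) = 0 := by rw [map_smul, LinearMap.mem_ker.mp hz, smul_zero]
  have h1 : mu φ δ = 0 := by
    rw [← hsum, map_add, LinearMap.mem_ker.mp (hI hi), zero_add] at h0
    exact h0
  rw [← hsum]
  exact Submodule.add_mem _ hi (hst w₀ ⟨hδ, h1⟩)

end GraphLemma

end Vale.Agent.P239
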