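import Vale.Agent.P239.Graph
import Vale.Agent.P239.Analysis

/-!
The torsion calculus of dense left ideals over the group von Neumann algebra.
-/

namespace Vale.Agent.P239

open scoped ENNReal

variable {G : Type*} [Group G]

/-- dense left ideals -/
def DenseId (L : Submodule (VN G) (VN G)) : Prop :=
  ∀ ε : ℝ, 0 < ε → ∃ x ∈ L, ‖(1 - x : VN G).op (unitVec G)‖ < ε

theorem denseId_iff {L : Submodule (VN G) (VN G)} : DenseId L ↔ DenseIdeal L := Iff.rfl

theorem denseId_iff_vnDim {L : Submodule (VN G) (VN G)} :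
    DenseId L ↔ vnDim G (VN G ⧸ L) = 0 := by
  rw [vnDim_eq_tdim, denseId_iff, denseIdeal_iff, TraceData.dense_iff]

theorem denseId_isGabriel : IsGabriel (DenseId (G := G)) where
  top := DenseIdeal.top
  mono h hL := DenseIdeal.mono h hL
  colon w hL := DenseIdeal.colon hL w
  trans := by
    intro L L' hL h
    rw [denseId_iff_vnDim] at hL ⊢
    have h1 : vnDim G (L.map L'.mkQ) = 0 := by
      refine vnDim_of_torsion ?_
      rintro ⟨_, ⟨x, hx, rfl⟩⟩
      refine DenseIdeal.mono ?_ (h x hx)
      intro y hy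
      have hy' : y • x ∈ L' := hy
      rw [LinearMap.mem_ker, LinearMap.toSpanSingleton_apply]
      apply Subtype.ext
      change y • L'.mkQ x = 0
      rw [← map_smul, Submodule.mkQ_apply, Submodule.Quotient.mk_eq_zero]
      exact hy'
    let p : (VN G ⧸ L') →ₗ[VN G] (VN G ⧸ (L ⊔ L')) :=
      Submodule.mapQ _ _ LinearMap.id le_sup_right
    let q : (VN G ⧸ L) →ₗ[VN G] (VN G ⧸ (L ⊔ L')) :=
      Submodule.mapQ _ _ LinearMap.id le_sup_left
    have h2 : vnDim G (VN G ⧸ (L ⊔ L')) = 0 := by
      refine le_antisymm ?_ bot_le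
      rw [← hL]
      refine vnDim_le_of_surjective q ?_
      intro y
      obtain ⟨x, rfl⟩ := Submodule.Quotient.mk_surjective _ y
      exact ⟨Submodule.Quotient.mk x, by simp [q]⟩
    have h3 := vnDim_le_add (L.map L'.mkQ).subtype p (by
      intro y hy
      obtain ⟨x, rfl⟩ := Submodule.Quotient.mk_surjective _ y
      have hx : x ∈ L ⊔ L' := by
        rw [LinearMap.mem_ker] at hy
        simpa [p] using hy
      obtain ⟨a, ha, b, hb, rfl⟩ := Submodule.mem_sup.1 hx
      refine ⟨⟨L'.mkQ a, ⟨a, ha, rfl⟩⟩, ?_⟩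
      change L'.mkQ a = L'.mkQ (a + b)
      rw [map_add]
      have : L'.mkQ b = 0 := by
        rw [Submodule.mkQ_apply, Submodule.Quotient.mk_eq_zero]; exact hb
      rw [this, add_zero])
    rw [h1, h2, add_zero] at h3
    exact le_antisymm h3 bot_le

theorem denseId_augId (D : Subgroup G) (hD : Infinite D) : DenseId (augId (lamHom G) D) := by
  refine denseIdeal_of_infinite (S := (D : Set G)) ?_ fun g hg => ?_
  · exact Set.infinite_coe_iff.1 hD
  · exact Submodule.subset_span ⟨g, hg, rfl⟩

theorem vnDim_le_of_injective {A B : Type*} [AddCommGroup A] [Module (VN G) A] [AddCommGroup B]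
    [Module (VN G) B] (f : A →ₗ[VN G] B) (hf : Function.Injective f) :
    vnDim G A ≤ vnDim G B := vnDim_mono f hf

theorem vnDim_le_of_dense_range {A B : Type*} [AddCommGroup A] [Module (VN G) A] [AddCommGroup B]
    [Module (VN G) B] (f : A →ₗ[VN G] B) (hf : ∀ b, TM DenseId (LinearMap.range f) b) :
    vnDim G B ≤ vnDim G A := by
  refine vnDim_le_of_almost_surjective f fun b ε hε => ?_
  obtain ⟨x, hx, hlt⟩ := hf b ε hε
  exact ⟨x, hx, hlt⟩

theorem vnDim_K_le (H : Subgroup G) :
    vnDim G (K ((lamHom G).comp H.subtype)) ≤ vnDim H (K (lamHom H)) := vnDim_K_induction H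

end Vale.Agent.P239
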