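import Vale.Agent.P239.Analysis
import Vale.Agent.P239.Cond

/-! Lower bound for the dimension over a subgroup. -/

set_option linter.unusedSectionVars false

namespace Vale.Agent.P239

open scoped ENNReal InnerProductSpace Matrix
open Matrix

universe u v w

namespace TraceData

variable {N : Type u} [Ring N] [StarRing N] [Algebra ℝ N] [StarModule ℝ N] (D : TraceData N)

/-- If `S` absorbs `B` and the Hilbert-Schmidt norm of `B` is at most its trace, then the trace
of `B` is at most that of `S`. -/
lemma Tr_le_of_hs_le {m : Type} [Fintype m] {B S : Matrix m m N} (hS : IsProj S)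
    (hSB : S * B = B) (h : D.hs B ≤ D.Tr B) : D.Tr B ≤ D.Tr S := by
  have h1 := D.hs_nonneg (S - B)
  rw [hs_sub_expand, hS.2, hSB, ← D.Tr_proj hS] at h1
  linarith

/-- The dimension of a finitely generated module is at most the trace of the complement of the
closure of the relations. -/
lemma tdim_range_le_Tr {M : Type v} [AddCommGroup M] [Module N M] {ι : Type} [Fintype ι]
    [DecidableEq ι] (U : (ι → N) →ₗ[N] M) {Q : Matrix ι ι N} (hQ : IsProj Q)
    (happ : ∀ ε : ℝ, 0 < ε → ∀ i, ∃ k ∈ LinearMap.ker U,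
      ∑ j, D.t (star (k j - Q i j) * (k j - Q i j)) < ε) :
    D.tdim (LinearMap.range U) ≤ ENNReal.ofReal (D.Tr (1 - Q)) := by
  have h1 := D.Tr_le_tdim_of_approx (LinearMap.ker U) hQ happ
  have h2 := D.tdim_add_quot (LinearMap.ker U)
  have h3 := D.tdim_congr (M := (ι → N) ⧸ LinearMap.ker U) (M' := LinearMap.range U)
      (LinearMap.quotKerEquivRange U)
  have h4 := D.tdim_free_le ι
  rw [← h2, h3] at h4
  have h5 : (Fintype.card ι : ℝ≥0∞) =
      ENNReal.ofReal (D.Tr Q) + ENNReal.ofReal (D.Tr (1 - Q)) := by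
    rw [← ENNReal.ofReal_add (D.Tr_proj_nonneg hQ) (D.Tr_proj_nonneg hQ.one_sub), Tr_sub, Tr_one]
    simp
  rw [h5] at h4
  have h6 : ENNReal.ofReal (D.Tr Q) + D.tdim (LinearMap.range U) ≤
      ENNReal.ofReal (D.Tr Q) + ENNReal.ofReal (D.Tr (1 - Q)) :=
    (add_le_add h1 le_rfl).trans h4
  exact (ENNReal.add_le_add_iff_left ENNReal.ofReal_ne_top).1 h6

end TraceData

variable {G : Type*} [Group G] (H : Subgroup G)

/-- the matrix of coset components -/
noncomputable def cosMat {r : ℕ} (P : Matrix (Fin r) (Fin r) (VN G)) {κ : Type} [Fintype κ]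
    (q : κ → G ⧸ H) : Matrix (κ × Fin r) (κ × Fin r) (VN H) :=
  Matrix.of fun a b => condE H (lam (Quotient.out (q a.1))⁻¹ * P a.2 b.2 *
    lam (Quotient.out (q b.1)))

theorem cosMat_Tr {r : ℕ} (P : Matrix (Fin r) (Fin r) (VN G)) {κ : Type} [Fintype κ]
    (q : κ → G ⧸ H) :
    (vnData H).Tr (cosMat H P q) = Fintype.card κ * (vnData G).Tr P := by
  rw [TraceData.Tr, TraceData.Tr, Fintype.sum_prod_type]
  have : ∀ (a : κ) (i : Fin r), (vnData H).t (cosMat H P q (a, i) (a, i)) =
      (vnData G).t (P i i) := by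
    intro a i
    change retr (condE H (lam (Quotient.out (q a))⁻¹ * P i i * lam (Quotient.out (q a)))) =
      retr (P i i)
    rw [retr_condE, retr_mul_comm, ← mul_assoc, ← lam_mul, mul_inv_cancel, lam_one, one_mul]
  simp only [this]
  rw [Finset.sum_const, Finset.card_univ, nsmul_eq_mul]

theorem retr_lam_mul (g : G) (a : VN G) :
    retr (star (lam g * a) * (lam g * a)) = retr (star a * a) := by
  rw [star_mul, star_lam, mul_assoc, ← mul_assoc (lam g⁻¹), ← lam_mul, inv_mul_cancel, lam_one,
    one_mul]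

theorem cosMat_hs {r : ℕ} (P : Matrix (Fin r) (Fin r) (VN G)) {κ : Type} [Fintype κ]
    (q : κ → G ⧸ H) (hq : Function.Injective q) :
    (vnData H).hs (cosMat H P q) ≤ Fintype.card κ * (vnData G).hs P := by
  classical
  rw [TraceData.hs, TraceData.hs, Fintype.sum_prod_type]
  have key : ∀ (a : κ) (i : Fin r), ∑ j : κ × Fin r, (vnData H).t
      (star (cosMat H P q (a, i) j) * cosMat H P q (a, i) j) ≤
        ∑ j, (vnData G).t (star (P i j) * P i j) := by
    intro a i
    rw [Fintype.sum_prod_type_right]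
    refine Finset.sum_le_sum fun l _ => ?_
    have h := condE_bessel H (lam (Quotient.out (q a))⁻¹ * P i l) (Finset.univ.image q)
    rw [Finset.sum_image (fun x _ y _ hxy => hq hxy), retr_lam_mul] at h
    exact h
  calc _ ≤ ∑ _a : κ, ∑ i, ∑ j, (vnData G).t (star (P i j) * P i j) :=
        Finset.sum_le_sum fun a _ => Finset.sum_le_sum fun i _ => key a i
    _ = _ := by rw [Finset.sum_const, Finset.card_univ, nsmul_eq_mul]

/-- The index inequality: if an additive image of an `H`-module in a `G`-module is stable under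
`G`, the dimension of its span is at most the dimension over `H` divided by the index. -/
theorem vnDim_index_le {A₀ : Type*} [AddCommGroup A₀] [Module (VN H) A₀]
    {M : Type*} [AddCommGroup M] [Module (VN G) M] (f : A₀ →+ M)
    (hf : ∀ a x, f (a • x) = indHom H a • f x)
    (hst : ∀ (g : G) (x : A₀), ∃ y, f y = lam g • f x)
    {κ : Type} [Fintype κ] (q : κ → G ⧸ H) (hq : Function.Injective q) :
    (Fintype.card κ : ℝ≥0∞) * vnDim G (Submodule.span (VN G) (Set.range f)) ≤ vnDim H A₀ := by
  classical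
  rcases Nat.eq_zero_or_pos (Fintype.card κ) with h0 | hpos
  · rw [h0]; simp
  have hk0 : (Fintype.card κ : ℝ≥0∞) ≠ 0 := by
    exact_mod_cast hpos.ne'
  have hktop : (Fintype.card κ : ℝ≥0∞) ≠ ⊤ := ENNReal.natCast_ne_top _
  rw [mul_comm, ← ENNReal.le_div_iff_mul_le (Or.inl hk0) (Or.inl hktop)]
  rw [vnDim_eq_tdim, vnDim_eq_tdim]
  refine (vnData G).tdim_le fun m A g hA hg => ?_
  rw [ENNReal.le_div_iff_mul_le (Or.inl hk0) (Or.inl hktop), mul_comm]
  -- finitely many generators
  obtain ⟨r, x, hx⟩ : ∃ (r : ℕ) (x : Fin r → A₀), ∀ j : Fin m,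
      ((g (Pi.single j 1) : Submodule.span (VN G) (Set.range f)) : M) ∈
        Submodule.span (VN G) (Set.range fun i => f (x i)) := by
    have h1 : ∀ j : Fin m, ∃ T : Finset M, (T : Set M) ⊆ Set.range f ∧
        ((g (Pi.single j 1) : Submodule.span (VN G) (Set.range f)) : M) ∈
          Submodule.span (VN G) (T : Set M) := fun j => by
      obtain ⟨T, hT, hT2⟩ := Submodule.mem_span_finite_of_mem_span
        (g (Pi.single j 1) : Submodule.span (VN G) (Set.range f)).2
      exact ⟨T, hT, hT2⟩
    choose T hT hT2 using h1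
    let U : Finset M := Finset.univ.biUnion T
    have hU : ∀ u : U, ∃ x, f x = u := by
      rintro ⟨u, hu⟩
      obtain ⟨j, _, hj⟩ := Finset.mem_biUnion.1 hu
      exact hT j hj
    choose x hx using hU
    refine ⟨U.card, fun i => x (U.equivFin.symm i), fun j => ?_⟩
    refine Submodule.span_mono ?_ (hT2 j)
    intro u hu
    have hu' : u ∈ U := Finset.mem_biUnion.2 ⟨j, Finset.mem_univ j, hu⟩
    refine ⟨U.equivFin ⟨u, hu'⟩, ?_⟩
    change f (x (U.equivFin.symm (U.equivFin ⟨u, hu'⟩))) = u
    rw [Equiv.symm_apply_apply, hx]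
  let V : (Fin r → VN G) →ₗ[VN G] M := Fintype.linearCombination (VN G) (fun i => f (x i))
  have hrange : LinearMap.range V = Submodule.span (VN G) (Set.range fun i => f (x i)) :=
    Fintype.range_linearCombination _ _
  obtain ⟨Q, hQ1, hQ2, hQK, happ⟩ := (vnData G).proj (Fin r) (LinearMap.ker V)
  have hQ : TraceData.IsProj Q := ⟨hQ1, hQ2⟩
  -- upper bound for the trace of `A`
  have hup : ENNReal.ofReal ((vnData G).Tr A) ≤ ENNReal.ofReal ((vnData G).Tr (1 - Q)) := by
    refine le_trans ?_ ((vnData G).tdim_range_le_Tr V hQ happ)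
    have hmem : ∀ y, ((g y : Submodule.span (VN G) (Set.range f)) : M) ∈ LinearMap.range V := by
      intro y
      have e : y = ∑ i, y i • (Pi.single i 1 : Fin m → VN G) := by
        ext j
        simp [Pi.single_apply]
      rw [e, map_sum, Submodule.coe_sum]
      refine Submodule.sum_mem _ fun j _ => ?_
      rw [map_smul, Submodule.coe_smul]
      refine Submodule.smul_mem _ _ ?_
      rw [hrange]
      exact hx j
    let g' : (Fin m → VN G) →ₗ[VN G] LinearMap.range V :=
      LinearMap.codRestrict _ ((Submodule.subtype _).comp g) hmem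
    refine (vnData G).le_tdim A hA g' fun y hy h0 => hg y hy ?_
    have : ((g y : Submodule.span (VN G) (Set.range f)) : M) = 0 := congrArg Subtype.val h0
    exact Subtype.ext this
  refine (mul_le_mul_right hup _).trans ?_
  -- lower bound
  have hP : TraceData.IsProj (1 - Q) := hQ.one_sub
  set P : Matrix (Fin r) (Fin r) (VN G) := 1 - Q with hPdef
  obtain ⟨S, hS, hST, hSapp⟩ := (vnData H).exists_lsupp (cosMat H P q)
  have hle : (Fintype.card κ : ℝ) * (vnData G).Tr P ≤ (vnData H).Tr S := by
    rw [← cosMat_Tr H P q]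
    refine (vnData H).Tr_le_of_hs_le hS hST ?_
    rw [cosMat_Tr]
    refine (cosMat_hs H P q hq).trans ?_
    rw [(vnData G).Tr_proj hP]
  have hemb : ENNReal.ofReal ((vnData H).Tr S) ≤ (vnData H).tdim A₀ := by
    choose y hy using fun (b : κ × Fin r) => hst (Quotient.out (q b.1))⁻¹ (x b.2)
    let g₁ : (κ × Fin r → VN H) →ₗ[VN H] A₀ := Fintype.linearCombination (VN H) y
    refine (vnData H).le_tdim S hS g₁ fun z hz h0 => ?_
    -- the corresponding relation over `G`
    let w : Fin r → VN G := fun i => ∑ a : κ, indHom H (z (a, i)) * lam (Quotient.out (q a))⁻¹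
    have hw : w ∈ LinearMap.ker V := by
      rw [LinearMap.mem_ker]
      have h1 : f (g₁ z) = V w := by
        rw [Fintype.linearCombination_apply, Fintype.linearCombination_apply, map_sum,
          Fintype.sum_prod_type_right]
        refine Finset.sum_congr rfl fun i _ => ?_
        rw [Finset.sum_smul]
        refine Finset.sum_congr rfl fun a _ => ?_
        rw [hf, hy, mul_smul]
      rw [← h1, h0, map_zero]
    have hwP : w ᵥ* P = 0 := by
      rw [hPdef, Matrix.vecMul_sub, Matrix.vecMul_one, hQK w hw, sub_self]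
    have hzT : z ᵥ* cosMat H P q = 0 := by
      ext ⟨b, l⟩
      have h2 : (w ᵥ* P) l * lam (Quotient.out (q b)) = 0 := by rw [hwP]; simp
      have h3 : condE H ((w ᵥ* P) l * lam (Quotient.out (q b))) = 0 := by
        rw [h2, condE_zero]
      rw [Pi.zero_apply, ← h3]
      simp only [Matrix.vecMul, dotProduct, w]
      rw [Fintype.sum_prod_type_right, Finset.sum_mul, condE_sum]
      refine Finset.sum_congr rfl fun i _ => ?_
      rw [Finset.sum_mul, Finset.sum_mul, condE_sum]
      refine Finset.sum_congr rfl fun a _ => ?_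
      rw [mul_assoc, mul_assoc, condE_mul, ← mul_assoc]
      rfl
    have h2 : (Matrix.replicateRow Unit z) * cosMat H P q = 0 := by
      rw [← Matrix.replicateRow_vecMul, hzT]; rfl
    have h3 := (vnData H).lsupp_mul hSapp h2
    rw [← Matrix.replicateRow_vecMul, hz] at h3
    ext j
    exact congrFun (congrFun h3 ()) j
  refine le_trans ?_ hemb
  rw [← ENNReal.ofReal_natCast, ← ENNReal.ofReal_mul (by positivity)]
  exact ENNReal.ofReal_le_ofReal hle

end Vale.Agent.P239
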