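import Mathlib.Algebra.GroupWithZero.Action.Pointwise.Finset
import Mathlib.Algebra.Order.Archimedean.Real.Hom
import Mathlib.Algebra.Order.Chebyshev
import Mathlib.Algebra.Order.Ring.Star
import Mathlib.Algebra.Ring.IsFormallyReal
import Mathlib.AlgebraicTopology.FundamentalGroupoid.SimplyConnected
import Mathlib.AlgebraicTopology.SimplicialSet.TopAdj
import Mathlib.Analysis.CStarAlgebra.Module.Constructions
import Mathlib.Analysis.InnerProductSpace.l2Space
import Mathlib.Analysis.Normed.Module.Ball.Homeomorph
import Mathlib.Combinatorics.SetFamily.Shadow
import Mathlib.Combinatorics.SimpleGraph.AdjMatrix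
import Mathlib.Data.Finset.DenselyOrdered
import Mathlib.Data.Finset.Functor
import Mathlib.Data.Finsupp.Pointwise
import Mathlib.Geometry.Manifold.ChartedSpace
import Mathlib.LinearAlgebra.Matrix.Swap
import Mathlib.LinearAlgebra.Matrix.ZPow
import Mathlib.Order.CompletePartialOrder
import Mathlib.RingTheory.PicardGroup
import Mathlib.SetTheory.Cardinal.Free
import Mathlib.Tactic
import Mathlib.Topology.Covering.Quotient
import Mathlib.Topology.Filter
import Mathlib.Topology.Instances.ZMod
import Mathlib.Topology.Metrizable.Urysohn
import Mathlib.Topology.UniformSpace.Uniformizable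

/-! The part of Mathlib that the development of this folder uses. -/
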