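import Vale.Agent.P239.MathlibUsed

namespace Vale.Agent.P239

/-- The group von Neumann algebra of `G`: the functions `fn : G → ℂ` by which left convolution
`f ↦ (x ↦ ∑ y, fn (x * y⁻¹) * f y)` is a bounded operator on `ℓ²(G)`. -/
structure NG (G : Type*) [Group G] where
  fn : G → ℂ
  bdd : ∃ C : ℝ, ∀ (f : G → ℂ) (s t : Finset G),
    ∑ x ∈ s, ‖∑ y ∈ t, fn (x * y⁻¹) * f y‖ ^ 2 ≤ C * ∑ y ∈ t, ‖f y‖ ^ 2

end Vale.Agent.P239
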