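import Vale.Agent.P239.Om
import Vale.Agent.P239.Dim1

/-! Star structure and trace on the group von Neumann algebra. -/

namespace Vale.Agent.P239

open scoped ENNReal InnerProductSpace

set_option linter.unusedSectionVars false

variable {G : Type*} [Group G]

open Classical in
/-- The basis vector at `x`. -/
noncomputable def dl (x : G) : L2 G := lp.single 2 x 1

open Classical in
theorem dl_apply (x y : G) : dl x y = if y = x then 1 else 0 := by
  rw [dl, lp.single_apply, Pi.single_apply]

theorem inner_dl (x : G) (v : L2 G) : ⟪dl x, v⟫_ℂ = v x := by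
  classical
  rw [dl, lp.inner_single_left]
  simp

theorem norm_dl (x : G) : ‖(dl x : L2 G)‖ = 1 := by
  classical
  rw [dl, lp.norm_single (by norm_num)]; simp

theorem rTrans_apply (g : G) (v : L2 G) (x : G) : rTrans g v x = v (x * g) := rfl

theorem rTrans_dl (g x : G) : rTrans g (dl x) = dl (x * g⁻¹) := by
  classical
  refine lp.ext (funext fun y => ?_)
  rw [rTrans_apply, dl_apply, dl_apply]
  congr 1
  rw [eq_mul_inv_iff_mul_eq]

theorem lam_dl (g x : G) : (lam g).op (dl x) = dl (g * x) := by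
  classical
  refine lp.ext (funext fun y => ?_)
  rw [lam_op_apply, dl_apply, dl_apply]
  congr 1
  rw [inv_mul_eq_iff_eq_mul]

theorem norm_rTrans (g : G) (v : L2 G) : ‖rTrans g v‖ = ‖v‖ :=
  (shift (Equiv.mulRight g)).norm_map v

theorem inner_rTrans (g : G) (u v : L2 G) : ⟪rTrans g u, rTrans g v⟫_ℂ = ⟪u, v⟫_ℂ :=
  (shift (Equiv.mulRight g)).inner_map_map u v

theorem rTrans_mul (g h : G) (v : L2 G) : rTrans g (rTrans h v) = rTrans (g * h) v := by
  refine lp.ext (funext fun y => ?_)
  simp only [rTrans_apply, mul_assoc]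

theorem rTrans_one (v : L2 G) : rTrans 1 v = v := by
  refine lp.ext (funext fun y => ?_)
  simp only [rTrans_apply, mul_one]

theorem inner_rTrans_left (g : G) (u v : L2 G) : ⟪rTrans g u, v⟫_ℂ = ⟪u, rTrans g⁻¹ v⟫_ℂ := by
  rw [← inner_rTrans g⁻¹, rTrans_mul, inv_mul_cancel, rTrans_one]

theorem adjoint_rTrans (g : G) : ContinuousLinearMap.adjoint (rTrans g) = rTrans g⁻¹ := by
  rw [eq_comm, ContinuousLinearMap.eq_adjoint_iff]
  intro x y
  rw [inner_rTrans_left, inv_inv]

theorem VN.op_comm (a : VN G) (g : G) (v : L2 G) :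
    a.op (rTrans g v) = rTrans g (a.op v) := by
  have h := a.2
  rw [Subalgebra.mem_centralizer_iff] at h
  have := h (rTrans g) ⟨g, rfl⟩
  exact (DFunLike.congr_fun this v).symm

/-- Constructor for elements of the group von Neumann algebra. -/
noncomputable def VN.mk (T : L2 G →L[ℂ] L2 G) (h : ∀ g v, T (rTrans g v) = rTrans g (T v)) :
    VN G :=
  ⟨T, by
    rw [Subalgebra.mem_centralizer_iff]
    rintro _ ⟨g, rfl⟩
    refine ContinuousLinearMap.ext fun v => ?_
    exact (h g v).symm⟩

@[simp] theorem VN.mk_op (T : L2 G →L[ℂ] L2 G) (h : ∀ g v, T (rTrans g v) = rTrans g (T v)) :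
    (VN.mk T h).op = T := rfl

theorem VN.ext_op {a b : VN G} (h : ∀ v, a.op v = b.op v) : a = b :=
  VN.op_injective (ContinuousLinearMap.ext h)

theorem VN.op_dl (a : VN G) (x y : G) : a.op (dl x) y = a.op (dl 1) (y * x⁻¹) := by
  have : (dl x : L2 G) = rTrans x⁻¹ (dl 1) := by rw [rTrans_dl, inv_inv, one_mul]
  rw [this, VN.op_comm, rTrans_apply]

theorem VN.op_ext_one {a b : VN G} (h : a.op (dl 1) = b.op (dl 1)) : a = b := by
  classical
  have h2 : ∀ x, a.op (dl x) = b.op (dl x) := fun x => by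
    refine lp.ext (funext fun y => ?_)
    rw [VN.op_dl, h, ← VN.op_dl]
  refine VN.ext_op fun v => ?_
  have hv := lp.hasSum_single (p := 2) (by norm_num) v
  have e : ∀ x, lp.single 2 x (v x) = v x • (dl x : L2 G) := fun x => by
    rw [dl, ← lp.single_smul]; simp
  simp only [e] at hv
  have h3 := hv.mapL a.op
  have h4 := hv.mapL b.op
  simp only [map_smul, h2] at h3 h4
  exact h3.unique h4

noncomputable instance : StarRing (VN G) where
  star a := VN.mk (ContinuousLinearMap.adjoint a.op) (by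
    intro g v
    refine ext_inner_left ℂ fun w => ?_
    rw [ContinuousLinearMap.adjoint_inner_right]
    rw [← inv_inv g, ← inner_rTrans_left, ← inner_rTrans_left,
      ContinuousLinearMap.adjoint_inner_right, VN.op_comm])
  star_involutive a := VN.ext_op fun v => by
    simp only [VN.mk_op, ContinuousLinearMap.adjoint_adjoint]
  star_mul a b := VN.ext_op fun v => by
    simp only [VN.mk_op, map_mul]
    rw [← ContinuousLinearMap.star_eq_adjoint, star_mul]
    rfl
  star_add a b := VN.ext_op fun v => by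
    simp only [VN.mk_op, map_add]

theorem VN.op_star (a : VN G) : (star a).op = ContinuousLinearMap.adjoint a.op := rfl

theorem VN.inner_star_left (a : VN G) (u v : L2 G) : ⟪(star a).op u, v⟫_ℂ = ⟪u, a.op v⟫_ℂ := by
  rw [VN.op_star, ContinuousLinearMap.adjoint_inner_left]

theorem VN.inner_star_right (a : VN G) (u v : L2 G) : ⟪u, (star a).op v⟫_ℂ = ⟪a.op u, v⟫_ℂ := by
  rw [VN.op_star, ContinuousLinearMap.adjoint_inner_right]

theorem star_lam (g : G) : star (lam g) = lam g⁻¹ := by
  classical
  refine VN.op_ext_one ?_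
  refine lp.ext (funext fun y => ?_)
  rw [← inner_dl, VN.inner_star_right, lam_dl, inner_dl, lam_dl, dl_apply, dl_apply]
  congr 1
  rw [mul_one, eq_inv_iff_mul_eq_one, eq_comm, mul_eq_one_iff_eq_inv', eq_comm, eq_inv_iff_mul_eq_one]

instance : StarModule ℂ (VN G) where
  star_smul c a := VN.ext_op fun v => by
    rw [VN.op_star, map_smul VN.op c a, map_smulₛₗ, map_smul VN.op]
    rfl

theorem tr_eq (a : VN G) : tr a = ⟪dl 1, a.op (dl 1)⟫_ℂ := rfl

theorem tr_star (a : VN G) : tr (star a) = star (tr a) := by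
  rw [tr_eq, tr_eq, VN.inner_star_right, ← inner_conj_symm]
  rfl

theorem tr_star_mul_self (a : VN G) : tr (star a * a) = (‖a.op (dl 1)‖ : ℂ) ^ 2 := by
  rw [tr_eq, map_mul, mul_apply_eq_comp, VN.inner_star_right,
    inner_self_eq_norm_sq_to_K]
  rfl

theorem tr_add (a b : VN G) : tr (a + b) = tr a + tr b := by
  rw [tr_eq, tr_eq, tr_eq, map_add, add_apply, inner_add_right]

theorem tr_smul (c : ℂ) (a : VN G) : tr (c • a) = c * tr a := by
  rw [tr_eq, tr_eq, map_smul, smul_apply, inner_smul_right]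

theorem tr_mul_eq (a b : VN G) :
    tr (a * b) = ∑' x, a.op (dl 1) x⁻¹ * b.op (dl 1) x := by
  rw [tr_eq, map_mul, mul_apply_eq_comp, ← VN.inner_star_left, lp.inner_eq_tsum]
  refine tsum_congr fun x => ?_
  have h1 : (star a).op (dl 1) x = star (a.op (dl 1) x⁻¹) := by
    rw [← inner_dl, VN.inner_star_right, ← inner_conj_symm, inner_dl, VN.op_dl a x 1, one_mul]
    rfl
  rw [RCLike.inner_apply, h1]
  simp [mul_comm]

theorem tr_mul_comm (a b : VN G) : tr (a * b) = tr (b * a) := by
  rw [tr_mul_eq, tr_mul_eq, ← (Equiv.inv G).tsum_eq]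
  refine tsum_congr fun x => ?_
  simp [mul_comm]

theorem tr_one : tr (1 : VN G) = 1 := by
  classical
  rw [tr_eq, map_one, one_apply_eq_self, inner_dl, dl_apply]; simp

end Vale.Agent.P239
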