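import Vale.Agent.P239.NG
import Vale.Agent.P239.VN1

/-!
The convolution description of the group von Neumann algebra agrees with the operator description.
-/

namespace Vale.Agent.P239

open scoped ENNReal InnerProductSpace

set_option linter.unusedSectionVars false

variable {G : Type*} [Group G]

theorem NG.ext' {a b : NG G} (h : a.fn = b.fn) : a = b := by
  cases a; cases b; cases h; rfl

/-- Operators of the group von Neumann algebra are convolutions. -/
theorem VN.hasSum_op (a : VN G) (v : L2 G) (x : G) :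
    HasSum (fun y => a.op (dl 1) (x * y⁻¹) * v y) (a.op v x) := by
  classical
  have hv := lp.hasSum_single (p := 2) (by norm_num) v
  have e : ∀ y, lp.single 2 y (v y) = v y • (dl y : L2 G) := fun y => by
    rw [dl, ← lp.single_smul]; simp
  simp only [e] at hv
  have h1 := hv.mapL a.op
  have h2 := h1.mapL (innerSL ℂ (dl x))
  simp only [map_smul, innerSL_apply_apply, inner_dl, smul_eq_mul] at h2
  have h3 : (fun y => a.op (dl 1) (x * y⁻¹) * v y) = fun y => v y * a.op (dl y) x := by
    funext y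
    rw [VN.op_dl a y x, mul_comm]
  rw [h3]
  exact h2

/-- A finitely supported vector. -/
noncomputable def finVec (f : G → ℂ) (t : Finset G) : L2 G := ∑ y ∈ t, f y • dl y

open Classical in
theorem finVec_apply (f : G → ℂ) (t : Finset G) (x : G) :
    finVec f t x = if x ∈ t then f x else 0 := by
  rw [finVec, lp.coeFn_sum, Finset.sum_apply]
  simp only [lp.coeFn_smul, Pi.smul_apply, dl_apply, smul_eq_mul, mul_ite, mul_one, mul_zero,
    Finset.sum_ite_eq]

theorem sq_norm_le (v : L2 G) (s : Finset G) : ∑ x ∈ s, ‖v x‖ ^ 2 ≤ ‖v‖ ^ 2 := by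
  have h := lp.sum_rpow_le_norm_rpow (p := 2) (by norm_num) v s
  have e2 : ((2 : ℝ≥0∞).toReal) = ((2 : ℕ) : ℝ) := by norm_num
  rw [e2] at h
  simpa only [Real.rpow_natCast] using h

theorem sq_norm_finVec (f : G → ℂ) (t : Finset G) : ‖finVec f t‖ ^ 2 = ∑ y ∈ t, ‖f y‖ ^ 2 := by
  classical
  have h := lp.norm_rpow_eq_tsum (p := 2) (by norm_num) (finVec f t)
  have e2 : ((2 : ℝ≥0∞).toReal) = ((2 : ℕ) : ℝ) := by norm_num
  rw [e2] at h
  simp only [Real.rpow_natCast] at h
  rw [h, tsum_eq_sum (s := t)]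
  · refine Finset.sum_congr rfl fun x hx => ?_
    rw [finVec_apply, if_pos hx]
  · intro x hx
    rw [finVec_apply, if_neg hx]; simp

/-- The function of an operator. -/
noncomputable def VN.toNG (a : VN G) : NG G where
  fn x := a.op (dl 1) x
  bdd := by
    classical
    refine ⟨‖a.op‖ ^ 2, fun f s t => ?_⟩
    have h1 : ∀ x, ∑ y ∈ t, a.op (dl 1) (x * y⁻¹) * f y = a.op (finVec f t) x := by
      intro x
      rw [← (VN.hasSum_op a (finVec f t) x).tsum_eq, tsum_eq_sum (s := t)]
      · refine Finset.sum_congr rfl fun y hy => ?_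
        rw [finVec_apply, if_pos hy]
      · intro y hy
        rw [finVec_apply, if_neg hy, mul_zero]
    simp only [h1]
    refine (sq_norm_le _ s).trans ?_
    rw [← sq_norm_finVec, ← mul_pow]
    exact pow_le_pow_left₀ (norm_nonneg _) (a.op.le_opNorm _) 2

@[simp] theorem VN.toNG_fn (a : VN G) (x : G) : a.toNG.fn x = a.op (dl 1) x := rfl

theorem VN.toNG_injective : Function.Injective (VN.toNG (G := G)) := by
  intro a b h
  refine VN.op_ext_one (lp.ext ?_)
  exact congrArg NG.fn h

theorem NG.memℓp_fn (a : NG G) : Memℓp a.fn 2 := by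
  classical
  obtain ⟨C, hC⟩ := a.bdd
  rw [memℓp_gen_iff (by norm_num)]
  have e2 : ((2 : ℝ≥0∞).toReal) = ((2 : ℕ) : ℝ) := by norm_num
  rw [e2]
  simp only [Real.rpow_natCast]
  refine summable_of_sum_le (fun x => by positivity) (c := C) fun s => ?_
  have := hC (fun _ => 1) s {1}
  simpa using this

/-- The vector of an element. -/
noncomputable def NG.vec (a : NG G) : L2 G := ⟨a.fn, a.memℓp_fn⟩

theorem NG.vec_apply (a : NG G) (x : G) : a.vec x = a.fn x := rfl

theorem summable_mul_L2 (u v : L2 G) : Summable fun y => u y * v y := by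
  have hu : Memℓp (fun y => star (u y)) 2 := by
    have := lp.memℓp u
    rw [memℓp_gen_iff (by norm_num)] at this ⊢
    simpa using this
  have := lp.summable_inner (𝕜 := ℂ) (G := fun _ : G => ℂ) (⟨_, hu⟩ : L2 G) v
  refine this.congr fun y => ?_
  rw [RCLike.inner_apply]
  change v y * (starRingEnd ℂ) (star (u y)) = u y * v y
  rw [mul_comm]
  congr 1
  exact star_star _

theorem NG.summable (a : NG G) (v : L2 G) (x : G) :
    Summable fun y => a.fn (x * y⁻¹) * v y := by
  have h : Memℓp (fun y => a.fn (x * y⁻¹)) 2 := by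
    have := a.memℓp_fn
    rw [memℓp_gen_iff (by norm_num)] at this ⊢
    exact ((Equiv.inv G).trans (Equiv.mulLeft x)).summable_iff.mpr this
  exact summable_mul_L2 (⟨_, h⟩ : L2 G) v

theorem NG.bound (a : NG G) : ∃ C : ℝ, 0 ≤ C ∧ ∀ (v : L2 G) (s : Finset G),
    ∑ x ∈ s, ‖∑' y, a.fn (x * y⁻¹) * v y‖ ^ 2 ≤ C * ‖v‖ ^ 2 := by
  obtain ⟨C, hC⟩ := a.bdd
  refine ⟨|C|, abs_nonneg C, fun v s => ?_⟩
  have h1 : Filter.Tendsto (fun t : Finset G => ∑ x ∈ s, ‖∑ y ∈ t, a.fn (x * y⁻¹) * v y‖ ^ 2)
      Filter.atTop (nhds (∑ x ∈ s, ‖∑' y, a.fn (x * y⁻¹) * v y‖ ^ 2)) :=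
    tendsto_finsetSum _ fun x _ => ((a.summable v x).hasSum.norm.pow 2)
  refine le_of_tendsto h1 (Filter.Eventually.of_forall fun t => ?_)
  refine (hC v s t).trans ?_
  refine mul_le_mul (le_abs_self C) (sq_norm_le v t) (Finset.sum_nonneg fun _ _ => by positivity)
    (abs_nonneg C)

/-- The image vector. -/
noncomputable def NG.app (a : NG G) (v : L2 G) : L2 G :=
  ⟨fun x => ∑' y, a.fn (x * y⁻¹) * v y, by
    obtain ⟨C, -, hC⟩ := a.bound
    have : Memℓp (fun x => ∑' y, a.fn (x * y⁻¹) * v y) 2 := by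
      rw [memℓp_gen_iff (by norm_num)]
      have e2 : ((2 : ℝ≥0∞).toReal) = ((2 : ℕ) : ℝ) := by norm_num
      rw [e2]
      simp only [Real.rpow_natCast]
      exact summable_of_sum_le (fun x => by positivity) (hC v)
    exact this⟩

theorem NG.app_apply (a : NG G) (v : L2 G) (x : G) : a.app v x = ∑' y, a.fn (x * y⁻¹) * v y := rfl

/-- The operator of an element. -/
noncomputable def NG.toVN (a : NG G) : VN G :=
  VN.mk (LinearMap.mkContinuousOfExistsBound
    { toFun := a.app
      map_add' := fun v w => by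
        refine lp.ext (funext fun x => ?_)
        change ∑' y, a.fn (x * y⁻¹) * (v y + w y) = ∑' y, a.fn (x * y⁻¹) * v y +
          ∑' y, a.fn (x * y⁻¹) * w y
        rw [← (a.summable v x).tsum_add (a.summable w x)]
        simp only [mul_add]
      map_smul' := fun c v => by
        refine lp.ext (funext fun x => ?_)
        change ∑' y, a.fn (x * y⁻¹) * (c * v y) = c * ∑' y, a.fn (x * y⁻¹) * v y
        rw [← tsum_mul_left]
        exact tsum_congr fun y => by ring }
    (by
      obtain ⟨C, hC0, hC⟩ := a.bound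
      refine ⟨Real.sqrt C, fun v => ?_⟩
      refine lp.norm_le_of_forall_sum_le (by norm_num) (by positivity) fun s => ?_
      have e2 : ((2 : ℝ≥0∞).toReal) = ((2 : ℕ) : ℝ) := by norm_num
      rw [e2]
      simp only [Real.rpow_natCast]
      rw [mul_pow, Real.sq_sqrt hC0]
      exact hC v s)) (by
    intro g v
    refine lp.ext (funext fun x => ?_)
    change ∑' y, a.fn (x * y⁻¹) * v (y * g) = ∑' y, a.fn (x * g * y⁻¹) * v y
    rw [← (Equiv.mulRight g).tsum_eq (fun y => a.fn (x * g * y⁻¹) * v y)]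
    refine tsum_congr fun y => ?_
    simp [mul_assoc])

theorem NG.toVN_op (a : NG G) (v : L2 G) (x : G) :
    a.toVN.op v x = ∑' y, a.fn (x * y⁻¹) * v y := rfl

theorem NG.toNG_toVN (a : NG G) : a.toVN.toNG = a := by
  classical
  refine NG.ext' (funext fun x => ?_)
  rw [VN.toNG_fn, NG.toVN_op, tsum_eq_single 1]
  · rw [dl_apply, if_pos rfl, mul_one, inv_one, mul_one]
  · intro y hy
    rw [dl_apply, if_neg hy, mul_zero]

/-- The bijection. -/
noncomputable def NG.equivVN (G : Type*) [Group G] : NG G ≃ VN G where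
  toFun := NG.toVN
  invFun := VN.toNG
  left_inv := NG.toNG_toVN
  right_inv a := VN.toNG_injective (NG.toNG_toVN a.toNG)

theorem NG.equivVN_op (a : NG G) (x : G) : (NG.equivVN G a).op (dl 1) x = a.fn x := by
  have := congrArg (fun b => b.fn x) (NG.toNG_toVN a)
  exact this

theorem NG.exists_ring_aux (G : Type*) [Group G] : ∃ _R : Ring (NG G), ∀ (a b : NG G) (x : G),
    (a + b).fn x = a.fn x + b.fn x ∧ (a * b).fn x = ∑' y, a.fn (x * y⁻¹) * b.fn y := by
  refine ⟨(NG.equivVN G).ring, fun a b x => ?_⟩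
  let := (NG.equivVN G).ring
  refine ⟨?_, ?_⟩
  · have h : NG.equivVN G (a + b) = NG.equivVN G a + NG.equivVN G b :=
      (Equiv.ringEquiv (NG.equivVN G)).map_add a b
    rw [← NG.equivVN_op (a + b), h, map_add, add_apply, lp.coeFn_add, Pi.add_apply, NG.equivVN_op,
      NG.equivVN_op]
  · have h : NG.equivVN G (a * b) = NG.equivVN G a * NG.equivVN G b :=
      (Equiv.ringEquiv (NG.equivVN G)).map_mul a b
    rw [← NG.equivVN_op (a * b), h, map_mul, mul_apply_eq_comp,
      ← (VN.hasSum_op (NG.equivVN G a) _ x).tsum_eq]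
    simp only [NG.equivVN_op]

open Classical in
theorem NG.lam_aux (g : G) : (lam g).toNG.fn = fun x => if x = g then 1 else 0 := by
  funext x
  rw [VN.toNG_fn, lam_dl, mul_one, dl_apply]

open Classical in
theorem NG.of_aux (g : G) : ∃ C : ℝ, ∀ (f : G → ℂ) (s t : Finset G),
    ∑ x ∈ s, ‖∑ y ∈ t, (fun x => if x = g then (1 : ℂ) else 0) (x * y⁻¹) * f y‖ ^ 2 ≤
      C * ∑ y ∈ t, ‖f y‖ ^ 2 := by
  rw [← NG.lam_aux g]
  exact (lam g).toNG.bdd

end Vale.Agent.P239
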