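import Vale.Agent.P239.Index
import Vale.Agent.P239.Assembly

/-! Infinite normal subgroups and the first L2-Betti number. -/

set_option linter.unusedSectionVars false

namespace Vale.Agent.P239

open scoped ENNReal InnerProductSpace Matrix
open Matrix

variable {G : Type*} [Group G] (H : Subgroup G)

section omF

/-- The additive map between the modules of the subgroup and of the group. -/
noncomputable def omF : Om (lamHom H) →+ Om (lamHom G) :=
  letI : Module (VN H) (Om (lamHom G)) := Module.compHom _ (indHom H)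
  (Om.lift (lamHom H) (fun h => om (lamHom G) (h : G)) (fun h k => by
    rw [Subgroup.coe_mul, om_mul]
    congr 1
    change lamHom G (h : G) • om (lamHom G) (k : G) =
      indHom H (lamHom H h) • om (lamHom G) (k : G)
    rw [lamHom_apply, lamHom_apply, indHom_lam])).toAddMonoidHom

theorem omF_smul (a : VN H) (x : Om (lamHom H)) : omF H (a • x) = indHom H a • omF H x := by
  let _ : Module (VN H) (Om (lamHom G)) := Module.compHom _ (indHom H)
  exact (Om.lift (lamHom H) (fun h => om (lamHom G) (h : G)) (fun h k => by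
    rw [Subgroup.coe_mul, om_mul]
    congr 1
    change lamHom G (h : G) • om (lamHom G) (k : G) =
      indHom H (lamHom H h) • om (lamHom G) (k : G)
    rw [lamHom_apply, lamHom_apply, indHom_lam])).map_smul a x

theorem omF_om (h : H) : omF H (om (lamHom H) h) = om (lamHom G) (h : G) := by
  let _ : Module (VN H) (Om (lamHom G)) := Module.compHom _ (indHom H)
  exact Om.lift_om (lamHom H) (fun h => om (lamHom G) (h : G)) (fun h k => by
    rw [Subgroup.coe_mul, om_mul]
    congr 1
    change lamHom G (h : G) • om (lamHom G) (k : G) =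
      indHom H (lamHom H h) • om (lamHom G) (k : G)
    rw [lamHom_apply, lamHom_apply, indHom_lam]) h

theorem mu_omF (z : Om (lamHom H)) : mu (lamHom G) (omF H z) = indHom H (mu (lamHom H) z) := by
  have hz := om_span (lamHom H) z
  induction hz using Submodule.span_induction with
  | mem x hx =>
    obtain ⟨h, rfl⟩ := hx
    rw [omF_om, mu_om, mu_om, map_sub, map_one, lamHom_apply, lamHom_apply, indHom_lam]
  | zero => simp
  | add x y _ _ hx hy => rw [map_add, map_add, map_add, map_add, hx, hy]
  | smul a x _ hx => rw [omF_smul, map_smul, map_smul, hx, smul_eq_mul, smul_eq_mul, map_mul]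

/-- The effect of left translation for a normal subgroup. -/
theorem omF_conj [H.Normal] (g : G) (z : Om (lamHom H)) :
    ∃ z', omF H z' + indHom H (mu (lamHom H) z') • om (lamHom G) g = lam g • omF H z ∧
      indHom H (mu (lamHom H) z') = lam g * indHom H (mu (lamHom H) z) * lam g⁻¹ := by
  have hz := om_span (lamHom H) z
  induction hz using Submodule.span_induction with
  | mem x hx =>
    obtain ⟨h, rfl⟩ := hx
    have hm : g * (h : G) * g⁻¹ ∈ H := ‹H.Normal›.conj_mem _ h.2 g
    refine ⟨om (lamHom H) ⟨g * h * g⁻¹, hm⟩, ?_, ?_⟩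
    · rw [omF_om, omF_om, mu_om, map_sub, map_one, lamHom_apply, indHom_lam]
      have h1 : om (lamHom G) (g * h * g⁻¹ * g) = om (lamHom G) (g * h) := by
        rw [inv_mul_cancel_right]
      rw [om_mul (lamHom G) (g * h * g⁻¹) g, om_mul (lamHom G) g h] at h1
      change om (lamHom G) (g * h * g⁻¹) + (lam (g * h * g⁻¹) - 1) • om (lamHom G) g =
        lam g • om (lamHom G) h
      rw [sub_smul, one_smul, ← add_sub_assoc]
      rw [sub_eq_iff_eq_add, add_comm (lam g • _)]
      exact h1
    · rw [mu_om, mu_om, map_sub, map_sub, map_one, lamHom_apply, lamHom_apply, indHom_lam,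
        indHom_lam]
      change lam (g * h * g⁻¹) - 1 = lam g * (lam (h : G) - 1) * lam g⁻¹
      rw [mul_sub, sub_mul, mul_one, ← lam_mul, ← lam_mul, ← lam_mul, mul_inv_cancel, lam_one]
  | zero => exact ⟨0, by simp⟩
  | add x y _ _ hx hy =>
    obtain ⟨x', h1, h2⟩ := hx
    obtain ⟨y', h3, h4⟩ := hy
    refine ⟨x' + y', ?_, ?_⟩
    · rw [map_add, map_add, map_add, add_smul, map_add, smul_add, ← h1, ← h3]
      abel
    · rw [map_add, map_add, map_add, map_add, h2, h4, mul_add, add_mul]
  | smul a x _ hx =>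
    obtain ⟨x', h1, h2⟩ := hx
    obtain ⟨b, hb⟩ := exists_conj H g a
    refine ⟨b • x', ?_, ?_⟩
    · rw [omF_smul, map_smul, smul_eq_mul, map_mul, mul_smul, ← smul_add, h1, hb, omF_smul,
        ← mul_smul, ← mul_smul]
      congr 1
      rw [mul_assoc, mul_assoc, ← lam_mul, inv_mul_cancel, lam_one, mul_one]
    · rw [map_smul, smul_eq_mul, map_mul, h2, hb, map_smul, smul_eq_mul, map_mul]
      have : lam g⁻¹ * (lam g * indHom H (mu (lamHom H) x) * lam g⁻¹) =
          indHom H (mu (lamHom H) x) * lam g⁻¹ := by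
        rw [← mul_assoc, ← mul_assoc, ← lam_mul, inv_mul_cancel, lam_one, one_mul]
      rw [mul_assoc (lam g * indHom H a), this]
      simp only [mul_assoc]

theorem mem_K_iff {R : Type*} [Ring R] (φ : H →* R) (z : Om φ) : z ∈ K φ ↔ mu φ z = 0 :=
  LinearMap.mem_ker

/-- The additive map on kernels. -/
noncomputable def kF : K (lamHom H) →+ Om (lamHom G) :=
  (omF H).comp (K (lamHom H)).subtype.toAddMonoidHom

theorem kF_apply (z : K (lamHom H)) : kF H z = omF H z := rfl

theorem kF_smul (a : VN H) (z : K (lamHom H)) : kF H (a • z) = indHom H a • kF H z :=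
  omF_smul H a z

theorem kF_stable [H.Normal] (g : G) (z : K (lamHom H)) : ∃ z', kF H z' = lam g • kF H z := by
  obtain ⟨z', h1, h2⟩ := omF_conj H g (z : Om (lamHom H))
  have hz : mu (lamHom H) (z : Om (lamHom H)) = 0 := (mem_K_iff H _ _).1 z.2
  rw [hz, map_zero, mul_zero, zero_mul] at h2
  rw [h2, zero_smul, add_zero] at h1
  have h3 : mu (lamHom H) z' = 0 := indHom_injective H (by rw [h2, map_zero])
  exact ⟨⟨z', (mem_K_iff H _ _).2 h3⟩, h1⟩

/-- Flatness of induction on kernels. -/
theorem K_inf_le_span_kF :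
    OmA (lamHom G) H ⊓ K (lamHom G) ≤ Submodule.span (VN G) (Set.range (kF H)) := by
  classical
  rintro z ⟨hz1, hz2⟩
  have hz1' : z ∈ Submodule.span (VN G) (Set.range fun h : H => om (lamHom G) (h : G)) := by
    have hr : (Set.range fun h : H => om (lamHom G) (h : G)) = om (lamHom G) '' (H : Set G) := by
      ext x
      constructor
      · rintro ⟨h, rfl⟩
        exact ⟨h, h.2, rfl⟩
      · rintro ⟨h, hh, rfl⟩
        exact ⟨⟨h, hh⟩, rfl⟩
    rw [hr]
    exact hz1
  obtain ⟨c, hc⟩ := Finsupp.mem_span_range_iff_exists_finsupp.1 hz1'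
  obtain ⟨n, u, hu⟩ := TraceData.exists_coords (N := VN G) c.support
  have hu' := hu c (Finset.Subset.refl _)
  -- `z` as a finite sum
  have hz : z = ∑ k, c (u k) • om (lamHom G) ((u k : H) : G) := by
    rw [← hc]
    have : ∀ d : H →₀ VN G, (d.sum fun h a => a • om (lamHom G) (h : G)) =
        Finsupp.lsum ℕ (fun h : H => LinearMap.toSpanSingleton (VN G) (Om (lamHom G))
          (om (lamHom G) (h : G))) d := fun d => rfl
    rw [this]
    conv_lhs => rw [← hu']
    rw [Fintype.linearCombination_apply, map_sum]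
    refine Finset.sum_congr rfl fun k _ => ?_
    rw [map_smul, Finsupp.lsum_single, LinearMap.toSpanSingleton_apply, one_smul]
  let B : Matrix (Fin n) Unit (VN H) := Matrix.of fun k _ => lam (u k) - 1
  obtain ⟨S, hS, hSB, happ⟩ := (vnData H).exists_lsupp B
  have hS₂ : TraceData.IsProj (S.map (indHom H)) := hS.map _ (indHom_star H)
  have ht : ∀ x : VN H, (vnData G).t (indHom H x) = (vnData H).t x := fun x => by
    change retr (indHom H x) = retr x
    rw [retr_apply, retr_apply, tr_indHom]
  have happ₂ : ∀ ε : ℝ, 0 < ε → ∃ X : Matrix (Fin n) (Fin n) (VN G),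
      (vnData G).hs (S.map (indHom H) - (B.map (indHom H)) * (B.map (indHom H))ᴴ * X) < ε := by
    intro ε hε
    obtain ⟨X, hX⟩ := happ ε hε
    refine ⟨X.map (indHom H), ?_⟩
    have : S.map (indHom H) - (B.map (indHom H)) * (B.map (indHom H))ᴴ * X.map (indHom H) =
        (S - B * Bᴴ * X).map (indHom H) := by
      rw [TraceData.map_conjT _ (indHom_star H), ← Matrix.map_mul, ← Matrix.map_mul,
        Matrix.map_sub _ (by simp)]
    rw [this, TraceData.hs_map (vnData H) (vnData G) _ (indHom_star H) ht]
    exact hX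
  let y : Fin n → VN G := fun k => c (u k)
  have hyB : y ᵥ* (B.map (indHom H)) = 0 := by
    ext j
    have h1 : mu (lamHom G) z = 0 := LinearMap.mem_ker.1 hz2
    rw [hz, map_sum] at h1
    rw [Pi.zero_apply, ← h1]
    simp only [Matrix.vecMul, dotProduct, y, B, Matrix.map_apply, Matrix.of_apply]
    refine Finset.sum_congr rfl fun k _ => ?_
    rw [map_smul, smul_eq_mul, mu_om, map_sub, map_one, indHom_lam]
    rfl
  have hyS : y ᵥ* (S.map (indHom H)) = 0 := by
    have h2 : (Matrix.replicateRow Unit y) * (B.map (indHom H)) = 0 := by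
      rw [← Matrix.replicateRow_vecMul, hyB]; rfl
    have h3 := (vnData G).lsupp_mul happ₂ h2
    rw [← Matrix.replicateRow_vecMul] at h3
    ext j
    exact congrFun (congrFun h3 ()) j
  have hy1 : ∀ k, y k = ∑ i, y i * indHom H ((1 - S) i k) := by
    intro k
    have h4 : y ᵥ* ((1 - S).map (indHom H)) = y := by
      rw [Matrix.map_sub _ (by simp), Matrix.vecMul_sub, hyS, sub_zero]
      have : (1 : Matrix (Fin n) (Fin n) (VN H)).map (indHom H) = 1 := by
        ext i j; simp [Matrix.one_apply, apply_ite (indHom H)]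
      rw [this, Matrix.vecMul_one]
    conv_lhs => rw [← h4]
    rfl
  have hker : ∀ i, ∑ k, (1 - S) i k • om (lamHom H) (u k) ∈ K (lamHom H) := by
    intro i
    rw [mem_K_iff, map_sum]
    have h5 : (1 - S) * B = 0 := by rw [Matrix.sub_mul, hSB, Matrix.one_mul, sub_self]
    have h6 := congrFun (congrFun h5 i) ()
    rw [Matrix.mul_apply, Matrix.zero_apply] at h6
    rw [← h6]
    refine Finset.sum_congr rfl fun k _ => ?_
    rw [map_smul, mu_om, smul_eq_mul]
    rfl
  have hfin : z = ∑ i, y i • kF H ⟨_, hker i⟩ := by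
    rw [hz]
    have e : ∀ i, y i • kF H ⟨_, hker i⟩ =
        ∑ k, (y i * indHom H ((1 - S) i k)) • om (lamHom G) ((u k : H) : G) := by
      intro i
      rw [kF_apply, map_sum, Finset.smul_sum]
      refine Finset.sum_congr rfl fun k _ => ?_
      rw [omF_smul, omF_om, mul_smul]
    simp only [e]
    rw [Finset.sum_comm]
    refine Finset.sum_congr rfl fun k _ => ?_
    rw [← Finset.sum_smul, ← hy1 k]
  rw [hfin]
  exact Submodule.sum_mem _ fun i _ => Submodule.smul_mem _ _ (Submodule.subset_span ⟨_, rfl⟩)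

end omF

end Vale.Agent.P239
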