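import Vale.Agent.P239.Defs

/-!
The module `R ⊗_{ℤH} I_H` for a homomorphism `φ : H → R`, and the map to `R`.
-/

namespace Vale.Agent.P239

section Om

variable {R : Type*} [Ring R] {H : Type*} [Group H]

/-- Relations defining `R ⊗_{ℤH} I_H`. -/
noncomputable def omRel (φ : H →* R) : Submodule R (H →₀ R) :=
  Submodule.span R {z | ∃ (h k : H) (a : R),
    z = Finsupp.single (h * k) a - Finsupp.single h a - Finsupp.single k (a * φ h)}

/-- `R ⊗_{ℤH} I_H`, generated by symbols `om h` (standing for `1 ⊗ (h - 1)`). -/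
abbrev Om (φ : H →* R) := (H →₀ R) ⧸ omRel φ

/-- The symbol of `h`. -/
noncomputable def om (φ : H →* R) (h : H) : Om φ := Submodule.Quotient.mk (Finsupp.single h 1)

theorem mk_single (φ : H →* R) (h : H) (a : R) :
    (Submodule.Quotient.mk (Finsupp.single h a) : Om φ) = a • om φ h := by
  rw [om, ← Submodule.Quotient.mk_smul, Finsupp.smul_single, smul_eq_mul, mul_one]

theorem om_mul (φ : H →* R) (h k : H) : om φ (h * k) = om φ h + φ h • om φ k := by
  rw [← mk_single, om, om, ← Submodule.Quotient.mk_add, Submodule.Quotient.eq]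
  have : Finsupp.single (h * k) (1 : R) - (Finsupp.single h 1 + Finsupp.single k (φ h)) =
      Finsupp.single (h * k) 1 - Finsupp.single h 1 - Finsupp.single k (1 * φ h) := by
    rw [one_mul]; abel
  rw [this]
  exact Submodule.subset_span ⟨h, k, 1, rfl⟩

@[simp] theorem om_one (φ : H →* R) : om φ 1 = 0 := by
  have h := om_mul φ 1 1
  rw [one_mul, map_one, one_smul] at h
  simpa using h

theorem om_inv (φ : H →* R) (h : H) : om φ h⁻¹ = - (φ h⁻¹ • om φ h) := by
  have := om_mul φ h⁻¹ h
  rw [inv_mul_cancel, om_one] at this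
  exact eq_neg_of_add_eq_zero_left this.symm

theorem om_span (φ : H →* R) (z : Om φ) : z ∈ Submodule.span R (Set.range (om φ)) := by
  obtain ⟨f, rfl⟩ := Submodule.Quotient.mk_surjective _ z
  induction f using Finsupp.induction_linear with
  | zero => simp
  | add f g hf hg => rw [Submodule.Quotient.mk_add]; exact Submodule.add_mem _ hf hg
  | single h a =>
    rw [mk_single]
    exact Submodule.smul_mem _ _ (Submodule.subset_span ⟨h, rfl⟩)

/-- Universal property of `Om`. -/
noncomputable def Om.lift (φ : H →* R) {M : Type*} [AddCommGroup M] [Module R M] (f : H → M)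
    (hf : ∀ h k, f (h * k) = f h + φ h • f k) : Om φ →ₗ[R] M :=
  Submodule.liftQ _ (Finsupp.lsum ℕ fun h => (LinearMap.toSpanSingleton R M (f h)))
    (by
      rw [omRel, Submodule.span_le]
      rintro _ ⟨h, k, a, rfl⟩
      rw [SetLike.mem_coe, LinearMap.mem_ker, map_sub, map_sub, Finsupp.lsum_single,
        Finsupp.lsum_single, Finsupp.lsum_single, LinearMap.toSpanSingleton_apply,
        LinearMap.toSpanSingleton_apply, LinearMap.toSpanSingleton_apply, hf, smul_add, mul_smul]
      abel)

@[simp] theorem Om.lift_om (φ : H →* R) {M : Type*} [AddCommGroup M] [Module R M] (f : H → M)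
    (hf : ∀ h k, f (h * k) = f h + φ h • f k) (h : H) : Om.lift φ f hf (om φ h) = f h := by
  rw [om, Om.lift, Submodule.liftQ_apply, Finsupp.lsum_single, LinearMap.toSpanSingleton_apply,
    one_smul]

theorem Om.hom_ext {φ : H →* R} {M : Type*} [AddCommGroup M] [Module R M] {f g : Om φ →ₗ[R] M}
    (h : ∀ x, f (om φ x) = g (om φ x)) : f = g := by
  refine LinearMap.ext fun z => ?_
  have : Submodule.span R (Set.range (om φ)) ≤ LinearMap.eqLocus f g := by
    rw [Submodule.span_le]
    rintro _ ⟨x, rfl⟩
    exact h x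
  exact this (om_span φ z)

/-- The map `R ⊗ I_H → R`, `a ⊗ (h - 1) ↦ a (φ h - 1)`. -/
noncomputable def mu (φ : H →* R) : Om φ →ₗ[R] R :=
  Om.lift φ (fun h => φ h - 1) (fun h k => by
    rw [map_mul, smul_eq_mul, mul_sub, mul_one]; abel)

@[simp] theorem mu_om (φ : H →* R) (h : H) : mu φ (om φ h) = φ h - 1 := by
  rw [mu, Om.lift_om]

/-- The kernel of `R ⊗ I_H → R`, i.e. `Tor_1^{ℤH}(R, ℤ)`. -/
noncomputable abbrev K (φ : H →* R) : Submodule R (Om φ) := LinearMap.ker (mu φ)

end Om

section Lam

variable {G : Type*} [Group G]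

theorem VN.op_injective : Function.Injective (VN.op (G := G)) := Subtype.val_injective

theorem lam_op_apply (g : G) (ξ : L2 G) (x : G) : (lam g).op ξ x = ξ (g⁻¹ * x) := rfl

theorem lam_one : lam (1 : G) = 1 := by
  apply VN.op_injective
  refine ContinuousLinearMap.ext fun ξ => ?_
  refine lp.ext (funext fun x => ?_)
  rw [lam_op_apply, inv_one, one_mul, map_one]
  rfl

theorem lam_mul (g h : G) : lam (g * h) = lam g * lam h := by
  apply VN.op_injective
  refine ContinuousLinearMap.ext fun ξ => ?_
  refine lp.ext (funext fun x => ?_)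
  rw [map_mul]
  change ξ ((g * h)⁻¹ * x) = ξ (h⁻¹ * (g⁻¹ * x))
  rw [mul_inv_rev, mul_assoc]

/-- `lam` as a monoid homomorphism. -/
noncomputable def lamHom (G : Type*) [Group G] : G →* VN G where
  toFun := lam
  map_one' := lam_one
  map_mul' := lam_mul

@[simp] theorem lamHom_apply (g : G) : lamHom G g = lam g := rfl

end Lam

end Vale.Agent.P239
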