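import Mathlib

namespace Vale.Agent.P239

/-- A subgroup of a group acting by homeomorphisms acts by homeomorphisms. -/
instance {G X : Type*} [Group G] [TopologicalSpace X] [MulAction G X] [ContinuousConstSMul G X]
    (H : Subgroup G) : ContinuousConstSMul H X := ⟨fun h => continuous_const_smul (h : G)⟩

end Vale.Agent.P239
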