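import Vale.Agent.P239.VN1
import Vale.Agent.P239.Dim1

/-! Trace data on the group von Neumann algebra. -/

set_option linter.unusedSectionVars false

namespace Vale.Agent.P239

open scoped ENNReal InnerProductSpace Matrix
open Matrix

variable {G : Type*} [Group G]

/-- real part of the trace as a real-linear map -/
noncomputable def retr : VN G →ₗ[ℝ] ℝ where
  toFun a := (tr a).re
  map_add' a b := by rw [tr_add, Complex.add_re]
  map_smul' c a := by
    have : (c • a : VN G) = ((c : ℂ) • a : VN G) := rfl
    rw [this, tr_smul]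
    simp

theorem retr_apply (a : VN G) : retr a = (tr a).re := rfl

theorem retr_star_mul_self (a : VN G) : retr (star a * a) = ‖a.op (dl 1)‖ ^ 2 := by
  rw [retr_apply, tr_star_mul_self, ← Complex.ofReal_pow, Complex.ofReal_re]

theorem retr_mul_comm (a b : VN G) : retr (a * b) = retr (b * a) := by
  rw [retr_apply, tr_mul_comm, retr_apply]

theorem retr_mul_star_self (a : VN G) : retr (star a * a) = ‖(star a).op (dl 1)‖ ^ 2 := by
  rw [retr_mul_comm]
  nth_rewrite 1 [← star_star a]
  rw [retr_star_mul_self]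

section proj

variable {ι : Type} [Fintype ι] [DecidableEq ι]

/-- The Hilbert space `ℓ²(G)^ι`. -/
abbrev HH (ι : Type) [Fintype ι] (G : Type*) := PiLp 2 (fun _ : ι => L2 G)

/-- coordinate inclusion -/
noncomputable def inj (ι : Type) [Fintype ι] [DecidableEq ι] (G : Type*) (j : ι) :
    L2 G →L[ℂ] HH ι G :=
  ((PiLp.continuousLinearEquiv 2 ℂ (fun _ : ι => L2 G)).symm.toContinuousLinearMap).comp
    (ContinuousLinearMap.single ℂ (fun _ : ι => L2 G) j)

/-- coordinate projection -/
noncomputable def prj (ι : Type) [Fintype ι] (G : Type*) (j : ι) : HH ι G →L[ℂ] L2 G :=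
  (ContinuousLinearMap.proj j).comp
    (PiLp.continuousLinearEquiv 2 ℂ (fun _ : ι => L2 G)).toContinuousLinearMap

theorem prj_apply (j : ι) (v : HH ι G) : prj ι G j v = v j := rfl

theorem inj_apply (i j : ι) (v : L2 G) : inj ι G j v i = if i = j then v else 0 := by
  change (Pi.single j v : ι → L2 G) i = _
  rw [Pi.single_apply]

theorem sum_inj (v : HH ι G) : ∑ j, inj ι G j (v j) = v := by
  ext1 i
  have : (∑ j, inj ι G j (v j)) i = ∑ j, inj ι G j (v j) i := by
    rw [← prj_apply, map_sum]; rfl
  rw [this]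
  simp [inj_apply]

theorem inner_inj (j : ι) (u : L2 G) (v : HH ι G) : ⟪inj ι G j u, v⟫_ℂ = ⟪u, v j⟫_ℂ := by
  rw [PiLp.inner_apply, Finset.sum_eq_single j]
  · rw [inj_apply, if_pos rfl]
  · intro i _ hij
    rw [inj_apply, if_neg hij, inner_zero_left]
  · intro h; exact absurd (Finset.mem_univ j) h

/-- diagonal right translation -/
noncomputable def rT (ι : Type) [Fintype ι] [DecidableEq ι] (g : G) : HH ι G →L[ℂ] HH ι G :=
  ∑ j, (inj ι G j).comp ((rTrans g).comp (prj ι G j))

theorem rT_apply (g : G) (v : HH ι G) (i : ι) : rT ι g v i = rTrans g (v i) := by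
  rw [← prj_apply, rT, _root_.sum_apply, map_sum, Finset.sum_eq_single i]
  · change inj ι G i (rTrans g (v i)) i = _
    rw [inj_apply, if_pos rfl]
  · intro j _ hij
    change inj ι G j (rTrans g (v j)) i = 0
    rw [inj_apply, if_neg (Ne.symm hij)]
  · intro h; exact absurd (Finset.mem_univ i) h

theorem rT_inj (g : G) (j : ι) (u : L2 G) : rT ι g (inj ι G j u) = inj ι G j (rTrans g u) := by
  ext1 i
  rw [rT_apply, inj_apply, inj_apply]
  split_ifs
  · rfl
  · exact map_zero _

theorem inner_rT_left (g : G) (u v : HH ι G) : ⟪rT ι g u, v⟫_ℂ = ⟪u, rT ι g⁻¹ v⟫_ℂ := by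
  rw [PiLp.inner_apply, PiLp.inner_apply]
  refine Finset.sum_congr rfl fun i _ => ?_
  rw [rT_apply, rT_apply, inner_rTrans_left]

/-- the vector attached to a row of operators -/
noncomputable def vec (k : ι → VN G) : HH ι G := WithLp.toLp 2 fun i => (star (k i)).op (dl 1)

theorem vec_apply (k : ι → VN G) (i : ι) : vec k i = (star (k i)).op (dl 1) := rfl

theorem rT_vec (g : G) (k : ι → VN G) : rT ι g (vec k) = vec (lam g • k) := by
  ext1 i
  rw [rT_apply, vec_apply, vec_apply, ← VN.op_comm, rTrans_dl, Pi.smul_apply, smul_eq_mul,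
    star_mul, star_lam, map_mul, mul_apply_eq_comp, lam_dl]
  simp

/-- the complex subspace attached to a left submodule of `N^ι`. -/
noncomputable def vecSub (K : Submodule (VN G) (ι → VN G)) : Submodule ℂ (HH ι G) where
  carrier := {v | ∃ k ∈ K, vec k = v}
  zero_mem' := ⟨0, K.zero_mem, by ext1 i; rw [vec_apply]; simp⟩
  add_mem' := by
    rintro _ _ ⟨k, hk, rfl⟩ ⟨k', hk', rfl⟩
    refine ⟨k + k', K.add_mem hk hk', ?_⟩
    ext1 i
    rw [vec_apply, PiLp.add_apply, vec_apply, vec_apply, Pi.add_apply, star_add, map_add]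
    rfl
  smul_mem' := by
    rintro c _ ⟨k, hk, rfl⟩
    refine ⟨(algebraMap ℂ (VN G) (star c)) • k, K.smul_mem _ hk, ?_⟩
    ext1 i
    rw [vec_apply, PiLp.smul_apply, vec_apply, Pi.smul_apply, smul_eq_mul, ← Algebra.smul_def,
      star_smul, star_star, map_smul]
    rfl

theorem mem_vecSub {K : Submodule (VN G) (ι → VN G)} {k : ι → VN G} (hk : k ∈ K) :
    vec k ∈ vecSub K := ⟨k, hk, rfl⟩

/-- its closure -/
noncomputable def UU (K : Submodule (VN G) (ι → VN G)) : Submodule ℂ (HH ι G) :=
  (vecSub K).topologicalClosure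

instance (K : Submodule (VN G) (ι → VN G)) : CompleteSpace (UU K) :=
  (vecSub K).isClosed_topologicalClosure.completeSpace_coe

theorem rT_mem_UU (K : Submodule (VN G) (ι → VN G)) (g : G) {v : HH ι G} (hv : v ∈ UU K) :
    rT ι g v ∈ UU K := by
  have h1 : vecSub K ≤ (vecSub K).topologicalClosure.comap (rT ι g : HH ι G →ₗ[ℂ] HH ι G) := by
    rintro _ ⟨k, hk, rfl⟩
    refine (vecSub K).le_topologicalClosure ?_
    change rT ι g (vec k) ∈ vecSub K
    rw [rT_vec]
    exact mem_vecSub (K.smul_mem _ hk)
  have h2 : IsClosed (((vecSub K).topologicalClosure.comap (rT ι g : HH ι G →ₗ[ℂ] HH ι G) :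
      Submodule ℂ (HH ι G)) : Set (HH ι G)) :=
    (vecSub K).isClosed_topologicalClosure.preimage (rT ι g).continuous
  exact (vecSub K).topologicalClosure_minimal h1 h2 hv

theorem proj_comm (K : Submodule (VN G) (ι → VN G)) (g : G) (v : HH ι G) :
    (UU K).starProjection (rT ι g v) = rT ι g ((UU K).starProjection v) := by
  refine Submodule.eq_starProjection_of_mem_of_inner_eq_zero ?_ ?_
  · exact rT_mem_UU K g (Submodule.starProjection_apply_mem _ _)
  · intro w hw
    rw [← map_sub, inner_rT_left]
    exact Submodule.starProjection_inner_eq_zero v _ (rT_mem_UU K g⁻¹ hw)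

/-- The matrix of the projection onto `UU K`. -/
noncomputable def projMat (K : Submodule (VN G) (ι → VN G)) : Matrix ι ι (VN G) :=
  Matrix.of fun i j => VN.mk ((prj ι G i).comp ((UU K).starProjection.comp (inj ι G j))) (by
    intro g v
    change (UU K).starProjection (inj ι G j (rTrans g v)) i =
      rTrans g ((UU K).starProjection (inj ι G j v) i)
    rw [← rT_inj, proj_comm, rT_apply])

theorem projMat_op (K : Submodule (VN G) (ι → VN G)) (i j : ι) (v : L2 G) :
    (projMat K i j).op v = (UU K).starProjection (inj ι G j v) i := rfl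

theorem projMat_mul (K : Submodule (VN G) (ι → VN G)) : projMat K * projMat K = projMat K := by
  ext i j
  refine VN.ext_op fun v => ?_
  rw [Matrix.mul_apply, map_sum, _root_.sum_apply]
  have e : ∀ k, (projMat K i k * projMat K k j).op v =
      prj ι G i ((UU K).starProjection (inj ι G k ((UU K).starProjection (inj ι G j v) k))) :=
    fun k => by
      rw [map_mul, mul_apply_eq_comp, projMat_op, projMat_op]; rfl
  simp only [e]
  rw [← map_sum, ← map_sum, sum_inj, projMat_op, prj_apply]
  rw [(Submodule.starProjection_eq_self_iff (K := UU K)).2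
    (Submodule.starProjection_apply_mem _ _)]

theorem projMat_star (K : Submodule (VN G) (ι → VN G)) : (projMat K)ᴴ = projMat K := by
  ext i j
  refine VN.ext_op fun v => ?_
  refine ext_inner_left ℂ fun w => ?_
  rw [Matrix.conjTranspose_apply, VN.inner_star_right, projMat_op, projMat_op, ← inner_inj]
  rw [← inner_conj_symm, ← inner_inj, inner_conj_symm]
  exact (UU K).starProjection_isSymmetric _ _

theorem projMat_vecMul (K : Submodule (VN G) (ι → VN G)) {k : ι → VN G} (hk : k ∈ K) :
    k ᵥ* projMat K = k := by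
  have key : ∀ u : HH ι G, (∀ w ∈ UU K, ⟪w, u⟫_ℂ = 0) → ∑ i, (k i).op (u i) = 0 := by
    intro u hu
    refine lp.ext (funext fun y => ?_)
    rw [← inner_dl, inner_sum]
    have h1 := hu (vec (lam y⁻¹ • k)) ((vecSub K).le_topologicalClosure
      (mem_vecSub (K.smul_mem _ hk)))
    rw [PiLp.inner_apply] at h1
    rw [lp.coeFn_zero, Pi.zero_apply, ← h1]
    refine Finset.sum_congr rfl fun i _ => ?_
    rw [vec_apply, Pi.smul_apply, smul_eq_mul, star_mul, star_lam, inv_inv, map_mul,
      mul_apply_eq_comp, lam_dl, mul_one, VN.inner_star_left]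
  ext j
  refine VN.ext_op fun v => ?_
  simp only [Matrix.vecMul, dotProduct]
  rw [map_sum, _root_.sum_apply]
  have h2 := key (inj ι G j v - (UU K).starProjection (inj ι G j v)) (fun w hw => by
    rw [← inner_conj_symm, Submodule.starProjection_inner_eq_zero _ _ hw, map_zero])
  have e : ∀ i, (k i * projMat K i j).op v = (k i).op ((UU K).starProjection (inj ι G j v) i) :=
    fun i => by rw [map_mul, mul_apply_eq_comp, projMat_op]
  simp only [e]
  have h3 : ∀ i, (inj ι G j v - (UU K).starProjection (inj ι G j v)) i =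
    inj ι G j v i - (UU K).starProjection (inj ι G j v) i := fun i => rfl
  simp only [h3, map_sub, Finset.sum_sub_distrib] at h2
  rw [sub_eq_zero] at h2
  rw [← h2, Finset.sum_eq_single j]
  · rw [inj_apply, if_pos rfl]
  · intro i _ hij
    rw [inj_apply, if_neg hij, map_zero]
  · intro h; exact absurd (Finset.mem_univ j) h

theorem projMat_approx (K : Submodule (VN G) (ι → VN G)) (ε : ℝ) (hε : 0 < ε) (i : ι) :
    ∃ k ∈ K, ∑ j, retr (star (k j - projMat K i j) * (k j - projMat K i j)) < ε := by
  have hmem : (UU K).starProjection (inj ι G i (dl 1)) ∈ closure (vecSub K : Set (HH ι G)) :=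
    Submodule.starProjection_apply_mem (UU K) _
  obtain ⟨_, ⟨k, hk, rfl⟩, hlt⟩ := Metric.mem_closure_iff.1 hmem (Real.sqrt ε) (Real.sqrt_pos.2 hε)
  refine ⟨k, hk, ?_⟩
  have e : ∑ j, retr (star (k j - projMat K i j) * (k j - projMat K i j)) =
      ‖vec k - (UU K).starProjection (inj ι G i (dl 1))‖ ^ 2 := by
    rw [PiLp.norm_sq_eq_of_L2]
    refine Finset.sum_congr rfl fun j _ => ?_
    rw [retr_mul_star_self, star_sub, map_sub]
    congr 2
    change (star (k j)).op (dl 1) - (star (projMat K i j)).op (dl 1) = vec k j - _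
    rw [vec_apply]
    congr 1
    have := congrFun (congrFun (projMat_star K) j) i
    rw [Matrix.conjTranspose_apply] at this
    rw [this, projMat_op]
    rfl
  rw [e]
  rw [dist_comm, dist_eq_norm] at hlt
  calc _ < (Real.sqrt ε) ^ 2 := by gcongr
    _ = ε := Real.sq_sqrt hε.le

end proj

/-- The trace data of the group von Neumann algebra. -/
noncomputable def vnData (G : Type*) [Group G] : TraceData (VN G) where
  t := retr
  comm := retr_mul_comm
  star_t a := by rw [retr_apply, tr_star, retr_apply]; exact Complex.conj_re _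
  nonneg a := by rw [retr_star_mul_self]; positivity
  faithful a h := by
    rw [retr_star_mul_self] at h
    have h2 : a.op (dl 1) = 0 := by simpa using h
    exact VN.op_ext_one (by rw [h2, map_zero]; rfl)
  one := by rw [retr_apply, tr_one]; rfl
  bdd a := by
    refine ⟨‖a.op‖ ^ 2, by positivity, fun x => ?_⟩
    rw [retr_star_mul_self, retr_star_mul_self, map_mul, mul_apply_eq_comp, ← mul_pow]
    gcongr
    exact a.op.le_opNorm _
  proj ι _ _ K := ⟨projMat K, projMat_mul K, projMat_star K, fun k hk => projMat_vecMul K hk,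
    fun ε hε i => projMat_approx K ε hε i⟩

end Vale.Agent.P239
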