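import Vale.Agent.P239.VN2

/-! The inclusion of group von Neumann algebras for a subgroup. -/

set_option linter.unusedSectionVars false

namespace Vale.Agent.P239

open scoped ENNReal InnerProductSpace

variable {G : Type*} [Group G] (H : Subgroup G)

/-- slice of a vector along the right coset `H y`. -/
noncomputable def slice (y : G) : L2 G →ₗ[ℂ] L2 H where
  toFun ξ := ⟨fun h => ξ (h * y), by
    have h := lp.memℓp ξ
    rw [memℓp_gen_iff (by norm_num)] at h
    have h2 : Memℓp (fun h : H => ξ (h * y)) 2 := by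
      rw [memℓp_gen_iff (by norm_num)]
      exact h.comp_injective (i := fun h : H => (h : G) * y)
        (fun a b hab => Subtype.ext (mul_right_cancel hab))
    exact h2⟩
  map_add' _ _ := rfl
  map_smul' _ _ := rfl

theorem slice_apply (y : G) (ξ : L2 G) (h : H) : slice H y ξ h = ξ (h * y) := rfl

theorem slice_mul (h : H) (y : G) (ξ : L2 G) :
    slice H ((h : G) * y) ξ = rTrans h (slice H y ξ) := by
  refine lp.ext (funext fun k => ?_)
  rw [slice_apply, rTrans_apply, slice_apply, Subgroup.coe_mul, mul_assoc]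

/-- representatives of right cosets -/
noncomputable def rep (q : G ⧸ H) : G := (Quotient.out q)⁻¹

/-- decomposition of `G` into right cosets -/
noncomputable def cosetEquiv : (G ⧸ H) × H ≃ G where
  toFun p := p.2 * rep H p.1
  invFun y := (((y⁻¹ : G) : G ⧸ H), ⟨y * Quotient.out ((y⁻¹ : G) : G ⧸ H), by
    have h : ((y⁻¹ : G) : G ⧸ H) = ((Quotient.out ((y⁻¹ : G) : G ⧸ H) : G) : G ⧸ H) :=
      (QuotientGroup.out_eq' _).symm
    have h2 := QuotientGroup.eq.1 h
    rwa [inv_inv] at h2⟩)
  left_inv := by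
    rintro ⟨q, h⟩
    have e : (((((h : G) * rep H q)⁻¹ : G)) : G ⧸ H) = q := by
      rw [mul_inv_rev, rep, inv_inv]
      have : ((Quotient.out q * ((h : G))⁻¹ : G) : G ⧸ H) = (Quotient.out q : G) :=
        QuotientGroup.mk_mul_of_mem _ (H.inv_mem h.2)
      rw [this]
      exact QuotientGroup.out_eq' q
    refine Prod.ext e (Subtype.ext ?_)
    change (h : G) * rep H q * Quotient.out (((((h : G) * rep H q)⁻¹ : G)) : G ⧸ H) = h
    rw [e, rep, inv_mul_cancel_right]
  right_inv := by
    intro y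
    change y * Quotient.out ((y⁻¹ : G) : G ⧸ H) * rep H ((y⁻¹ : G) : G ⧸ H) = y
    rw [rep, mul_inv_cancel_right]

theorem cosetEquiv_eq (q : G ⧸ H) (h : H) :
    cosetEquiv H (q, h) = (h : G) * rep H q := rfl

variable {H}

theorem norm_sq_eq_tsum (ξ : L2 G) : ‖ξ‖ ^ 2 = ∑' y, ‖ξ y‖ ^ 2 := by
  have := lp.norm_rpow_eq_tsum (p := 2) (by norm_num) ξ
  simpa using this

theorem summable_norm_sq (ξ : L2 G) : Summable fun y => ‖ξ y‖ ^ 2 := by
  have h := lp.memℓp ξ
  rw [memℓp_gen_iff (by norm_num)] at h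
  simpa using h

variable (H)

theorem norm_slice_coset (ξ : L2 G) (q : G ⧸ H) :
    ‖slice H (rep H q) ξ‖ ^ 2 = ∑' h : H, ‖ξ (cosetEquiv H (q, h))‖ ^ 2 := by
  rw [norm_sq_eq_tsum]
  rfl

theorem summable_coset (ξ : L2 G) :
    Summable fun q : G ⧸ H => ‖slice H (rep H q) ξ‖ ^ 2 := by
  have h1 : Summable fun p : (G ⧸ H) × H => ‖ξ (cosetEquiv H p)‖ ^ 2 :=
    (cosetEquiv H).summable_iff.2 (summable_norm_sq ξ)
  have h2 := (summable_prod_of_nonneg (f := fun p : (G ⧸ H) × H => ‖ξ (cosetEquiv H p)‖ ^ 2)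
    (fun _ => by positivity)).1 h1
  refine h2.2.congr fun q => ?_
  exact (norm_slice_coset H ξ q).symm

theorem norm_sq_coset (ξ : L2 G) :
    ‖ξ‖ ^ 2 = ∑' q : G ⧸ H, ‖slice H (rep H q) ξ‖ ^ 2 := by
  have h1 : Summable fun p : (G ⧸ H) × H => ‖ξ (cosetEquiv H p)‖ ^ 2 :=
    (cosetEquiv H).summable_iff.2 (summable_norm_sq ξ)
  rw [norm_sq_eq_tsum, ← (cosetEquiv H).tsum_eq, h1.tsum_prod]
  exact tsum_congr fun q => (norm_slice_coset H ξ q).symm

/-- the pointwise formula for the induced operator -/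
noncomputable def indFun (T : VN H) (ξ : L2 G) (y : G) : ℂ := T.op (slice H y ξ) 1

theorem indFun_mul (T : VN H) (ξ : L2 G) (h : H) (y : G) :
    indFun H T ξ (h * y) = T.op (slice H y ξ) h := by
  rw [indFun, slice_mul, VN.op_comm, rTrans_apply, one_mul]

theorem indFun_coset (T : VN H) (ξ : L2 G) (q : G ⧸ H) (h : H) :
    indFun H T ξ (cosetEquiv H (q, h)) = T.op (slice H (rep H q) ξ) h := by
  rw [cosetEquiv_eq, indFun_mul]

theorem indFun_summable_aux (T : VN H) (ξ : L2 G) :
    Summable (fun p : (G ⧸ H) × H => ‖indFun H T ξ (cosetEquiv H p)‖ ^ 2) ∧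
    ∑' p : (G ⧸ H) × H, ‖indFun H T ξ (cosetEquiv H p)‖ ^ 2 ≤ ‖T.op‖ ^ 2 * ‖ξ‖ ^ 2 := by
  have e : ∀ q : G ⧸ H, ∑' h : H, ‖indFun H T ξ (cosetEquiv H (q, h))‖ ^ 2 =
      ‖T.op (slice H (rep H q) ξ)‖ ^ 2 := by
    intro q
    rw [norm_sq_eq_tsum]
    refine tsum_congr fun h => ?_
    rw [indFun_coset]
  have hb : ∀ q : G ⧸ H, ‖T.op (slice H (rep H q) ξ)‖ ^ 2 ≤
      ‖T.op‖ ^ 2 * ‖slice H (rep H q) ξ‖ ^ 2 := by
    intro q
    rw [← mul_pow]
    gcongr
    exact T.op.le_opNorm _
  have hs2 : Summable fun q : G ⧸ H => ‖T.op (slice H (rep H q) ξ)‖ ^ 2 :=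
    Summable.of_nonneg_of_le (fun _ => by positivity) hb ((summable_coset H ξ).mul_left _)
  have hs : Summable (fun p : (G ⧸ H) × H => ‖indFun H T ξ (cosetEquiv H p)‖ ^ 2) := by
    rw [summable_prod_of_nonneg (fun _ => by positivity)]
    refine ⟨fun q => ?_, ?_⟩
    · have := summable_norm_sq (T.op (slice H (rep H q) ξ))
      refine this.congr fun h => ?_
      rw [indFun_coset]
    · exact hs2.congr fun q => (e q).symm
  refine ⟨hs, ?_⟩
  rw [hs.tsum_prod]
  simp only [e]
  rw [norm_sq_coset H ξ, ← tsum_mul_left]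
  exact hs2.tsum_le_tsum hb ((summable_coset H ξ).mul_left _)

theorem indFun_memℓp (T : VN H) (ξ : L2 G) : Memℓp (indFun H T ξ) 2 := by
  rw [memℓp_gen_iff (by norm_num)]
  have h2 : Summable (fun y => ‖indFun H T ξ y‖ ^ 2) :=
    (cosetEquiv H).summable_iff.1 (indFun_summable_aux H T ξ).1
  refine h2.congr fun y => ?_
  norm_num

/-- the induced operator -/
noncomputable def indOp (T : VN H) : L2 G →L[ℂ] L2 G :=
  LinearMap.mkContinuous
    { toFun := fun ξ => ⟨indFun H T ξ, indFun_memℓp H T ξ⟩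
      map_add' := fun ξ η => by
        refine lp.ext (funext fun y => ?_)
        change indFun H T (ξ + η) y = indFun H T ξ y + indFun H T η y
        rw [indFun, map_add, map_add]; rfl
      map_smul' := fun c ξ => by
        refine lp.ext (funext fun y => ?_)
        change indFun H T (c • ξ) y = c • indFun H T ξ y
        rw [indFun, map_smul, map_smul]; rfl } ‖T.op‖ (fun ξ => by
      have h := (indFun_summable_aux H T ξ).2
      rw [(cosetEquiv H).tsum_eq (fun y => ‖indFun H T ξ y‖ ^ 2)] at h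
      have h2 : ‖(⟨indFun H T ξ, indFun_memℓp H T ξ⟩ : L2 G)‖ ^ 2 ≤ (‖T.op‖ * ‖ξ‖) ^ 2 := by
        rw [norm_sq_eq_tsum, mul_pow]
        exact h
      exact le_of_sq_le_sq h2 (by positivity))

theorem indOp_apply (T : VN H) (ξ : L2 G) (y : G) : indOp H T ξ y = T.op (slice H y ξ) 1 := rfl

theorem slice_rTrans (g y : G) (ξ : L2 G) : slice H y (rTrans g ξ) = slice H (y * g) ξ := by
  refine lp.ext (funext fun k => ?_)
  rw [slice_apply, rTrans_apply, slice_apply, mul_assoc]

/-- the induced element of the von Neumann algebra of `G` -/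
noncomputable def ind (T : VN H) : VN G := VN.mk (indOp H T) (by
  intro g v
  refine lp.ext (funext fun y => ?_)
  rw [indOp_apply, slice_rTrans, rTrans_apply, indOp_apply])

theorem ind_apply (T : VN H) (ξ : L2 G) (y : G) : (ind H T).op ξ y = T.op (slice H y ξ) 1 := rfl

theorem slice_ind (T : VN H) (ξ : L2 G) (y : G) :
    slice H y ((ind H T).op ξ) = T.op (slice H y ξ) := by
  refine lp.ext (funext fun k => ?_)
  rw [slice_apply, ind_apply, slice_mul, VN.op_comm, rTrans_apply, one_mul]

theorem slice_dl_one : slice H 1 (dl 1) = dl 1 := by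
  classical
  refine lp.ext (funext fun k => ?_)
  rw [slice_apply, dl_apply, dl_apply]
  simp

/-- the inclusion of von Neumann algebras as a ring homomorphism -/
noncomputable def indHom : VN H →+* VN G where
  toFun := ind H
  map_one' := VN.ext_op fun v => lp.ext (funext fun y => by
    rw [ind_apply, map_one, map_one]
    change slice H y v 1 = v y
    rw [slice_apply]; simp)
  map_mul' S T := VN.ext_op fun v => lp.ext (funext fun y => by
    rw [ind_apply, map_mul, map_mul, mul_apply_eq_comp, mul_apply_eq_comp, ind_apply, slice_ind])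
  map_zero' := VN.ext_op fun v => lp.ext (funext fun y => by
    rw [ind_apply, map_zero, map_zero]
    rfl)
  map_add' S T := VN.ext_op fun v => lp.ext (funext fun y => by
    rw [ind_apply, map_add, map_add]
    rfl)

theorem indHom_apply (T : VN H) (ξ : L2 G) (y : G) :
    (indHom H T).op ξ y = T.op (slice H y ξ) 1 := rfl

theorem indHom_lam (h : H) : indHom H (lam h) = lam (h : G) := by
  refine VN.ext_op fun v => lp.ext (funext fun y => ?_)
  rw [indHom_apply, lam_op_apply, lam_op_apply, slice_apply]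
  simp

theorem tr_indHom (T : VN H) : tr (indHom H T) = tr T := by
  rw [tr_eq, tr_eq, inner_dl, inner_dl, indHom_apply, slice_dl_one]

theorem indHom_star (T : VN H) : indHom H (star T) = star (indHom H T) := by
  classical
  refine VN.op_ext_one (lp.ext (funext fun y => ?_))
  rw [← inner_dl y ((star (indHom H T)).op (dl 1)), VN.inner_star_right, ← inner_conj_symm,
    inner_dl, indHom_apply, indHom_apply]
  by_cases hy : y ∈ H
  · have e1 : slice H y (dl 1) = dl (⟨y, hy⟩⁻¹ : H) := by
      refine lp.ext (funext fun k => ?_)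
      rw [slice_apply, dl_apply, dl_apply]
      congr 1
      rw [Subtype.ext_iff, mul_eq_one_iff_eq_inv]
      rfl
    have e2 : slice H 1 (dl y) = dl (⟨y, hy⟩ : H) := by
      refine lp.ext (funext fun k => ?_)
      rw [slice_apply, dl_apply, dl_apply, mul_one]
      congr 1
      rw [Subtype.ext_iff]
    rw [e1, e2, ← inner_dl, VN.inner_star_right, ← inner_conj_symm, inner_dl]
    congr 1
    rw [VN.op_dl T 1 (⟨y, hy⟩⁻¹ : H), VN.op_dl T ⟨y, hy⟩ 1]
    simp
  · have e1 : slice H y (dl 1) = 0 := by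
      refine lp.ext (funext fun k => ?_)
      rw [slice_apply, dl_apply, if_neg]
      · rfl
      · intro h
        apply hy
        rw [mul_eq_one_iff_inv_eq] at h
        rw [← h]
        exact (k⁻¹).2
    have e2 : slice H 1 (dl y) = 0 := by
      refine lp.ext (funext fun k => ?_)
      rw [slice_apply, dl_apply, if_neg]
      · rfl
      · intro h
        apply hy
        rw [← h, mul_one]
        exact k.2
    rw [e1, e2, map_zero, map_zero]
    simp

end Vale.Agent.P239
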